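import Vale.Agent.P014X.St2

/-! # P014X: facts about the coefficient rings (helper35) -/

set_option autoImplicit false
set_option linter.all false

open Polynomial IsLocalRing

noncomputable section

namespace Vale.Agent.P014X.Cr

open Vale.Agent.P014U
open PadicInt (toZModPow toZMod)

variable [Pp] {k : ℕ} (C : Cr k)

theorem mi : maximalIdeal C.O = Ideal.span {C.pb.gen - 1} :=
  (IsDiscreteValuationRing.irreducible_iff_uniformizer _).1 C.irr

theorem w0 : C.pb.gen - 1 ≠ 0 := C.irr.ne_zero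

theorem kerπ : RingHom.ker C.π = maximalIdeal C.O :=
  eq_maximalIdeal (RingHom.ker_isMaximal_of_surjective _ (ZMod.ringHom_surjective _))

theorem unit_iff (x : C.O) : IsUnit x ↔ C.π x ≠ 0 := by
  rw [Ne, ← RingHom.mem_ker, C.kerπ, mem_maximalIdeal, mem_nonunits_iff, not_not]

theorem nu_iff (x : C.O) : ¬ IsUnit x ↔ C.pb.gen - 1 ∣ x := by
  rw [← Ideal.mem_span_singleton, ← C.mi, mem_maximalIdeal, mem_nonunits_iff]

theorem π_zero (x : C.O) : C.π x = 0 ↔ C.pb.gen - 1 ∣ x := by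
  rw [← C.nu_iff, C.unit_iff, not_not]

theorem π_gen : C.π C.pb.gen = 1 := by
  have := (C.π_zero _).2 dvd_rfl
  rwa [map_sub, map_one, sub_eq_zero] at this

theorem π_alg (x : ℤ_[pp]) : C.π (algebraMap ℤ_[pp] C.O x) = toZMod x :=
  DFunLike.congr_fun (ZMod.ringHom_eq_of_ker_eq (C.π.comp (algebraMap ℤ_[pp] C.O)) toZMod (by
    rw [PadicInt.ker_toZMod]
    exact eq_maximalIdeal (RingHom.ker_isMaximal_of_surjective _ (ZMod.ringHom_surjective _)))) x

instance fin : Module.Finite ℤ_[pp] C.O := C.pb.finite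

instance fre : Module.Free ℤ_[pp] C.O := .of_basis C.pb.basis

theorem inj : Function.Injective (algebraMap ℤ_[pp] C.O) := FaithfulSMul.algebraMap_injective _ _

instance chz : CharZero C.O := charZero_of_injective_algebraMap C.inj

theorem p0 : (pp : C.O) ≠ 0 := Nat.cast_ne_zero.2 pp_ne

theorem unit_two : IsUnit (2 : C.O) := by
  have := P014U.unit_two.map (algebraMap ℤ_[pp] C.O)
  rwa [map_ofNat] at this

theorem unit_nat {n : ℕ} : IsUnit (n : C.O) ↔ ¬ pp ∣ n := by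
  rw [C.unit_iff, map_natCast, Ne, ZMod.natCast_eq_zero_iff]

theorem unit_int {n : ℤ} : IsUnit (n : C.O) ↔ ¬ (pp : ℤ) ∣ n := by
  rw [C.unit_iff, map_intCast, Ne, ZMod.intCast_zmod_eq_zero_iff_dvd]

theorem unit_alg {x : ℤ_[pp]} : IsUnit (algebraMap ℤ_[pp] C.O x) ↔ IsUnit x := by
  rw [C.unit_iff, C.π_alg, Ne, ← RingHom.mem_ker, PadicInt.ker_toZMod, mem_maximalIdeal,
    mem_nonunits_iff, not_not]

theorem dim : C.pb.dim = pp ^ k * (pp - 1) := by
  rw [← C.pb.natDegree_minpoly, C.min, natDegree_cyclotomic, Nat.totient_prime_pow_succ pp_prime]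

theorem dim_pos : 0 < C.pb.dim := C.pb.dim_pos

theorem prim : IsPrimitiveRoot C.pb.gen (pp ^ (k + 1)) := by
  have : NeZero ((pp ^ (k + 1) : ℕ) : C.O) := ⟨Nat.cast_ne_zero.2 (pow_ne_zero _ pp_ne)⟩
  have a := minpoly.aeval ℤ_[pp] C.pb.gen
  rw [C.min, ← eval_map_algebraMap, map_cyclotomic] at a
  exact isRoot_cyclotomic_iff.1 a

theorem pw : C.pb.gen ^ pp ^ (k + 1) = 1 := C.prim.pow_eq_one

theorem ass : Associated ((C.pb.gen - 1) ^ C.pb.dim) (pp : C.O) := by
  have a := congrArg (eval 1) (cyclotomic_eq_prod_X_sub_primitiveRoots C.prim)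
  rw [eval_one_cyclotomic_prime_pow, eval_prod] at a
  rw [a, C.dim, ← Nat.totient_prime_pow_succ pp_prime, ← C.prim.card_primitiveRoots,
    ← Finset.prod_const]
  refine Associated.prod _ _ _ fun μ h => ?_
  have : NeZero (pp ^ (k + 1)) := ⟨pow_ne_zero _ pp_ne⟩
  obtain ⟨i, -, c, rfl⟩ := (C.prim.isPrimitiveRoot_iff).1 ((mem_primitiveRoots (NeZero.pos _)).1 h)
  rw [eval_sub, eval_X, eval_C, ← neg_sub (C.pb.gen ^ i)]
  exact (C.prim.associated_sub_one_pow_sub_one_of_coprime c).neg_right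

theorem dvp : C.pb.gen - 1 ∣ (pp : C.O) := (dvd_pow_self _ C.dim_pos.ne').trans C.ass.dvd

/-- the order of the quotient -/
abbrev cq (x : C.O) : ℕ := Nat.card (C.O ⧸ Ideal.span {x})

theorem cq_ass {x y : C.O} (h : Associated x y) : C.cq x = C.cq y := by
  rw [cq, Ideal.span_singleton_eq_span_singleton.2 h]

theorem card_res : Nat.card (ResidueField C.O) = pp := by
  rw [ResidueField, ← C.kerπ, Nat.card_congr (RingHom.quotientKerEquivOfSurjective
    (ZMod.ringHom_surjective C.π)).toEquiv, Nat.card_zmod]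

instance fres : Finite (ResidueField C.O) := Nat.finite_of_card_ne_zero (C.card_res ▸ pp_ne)

theorem cq_w (m : ℕ) : C.cq ((C.pb.gen - 1) ^ m) = pp ^ m := by
  have := cardQuot_pow_of_prime (P := maximalIdeal C.O) (IsDiscreteValuationRing.not_a_field _) (i := m)
  rw [Submodule.cardQuot_apply, Submodule.cardQuot_apply] at this
  rw [cq, ← Ideal.span_singleton_pow, ← C.mi, this]
  exact congrArg (· ^ m) C.card_res

theorem ex_w {x : C.O} (h : x ≠ 0) : ∃ m, Associated ((C.pb.gen - 1) ^ m) x :=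
  IsDiscreteValuationRing.associated_pow_irreducible h C.irr |>.imp fun _ a => a.symm

theorem cq_ex {x : C.O} (h : x ≠ 0) : ∃ m, C.cq x = pp ^ m :=
  (C.ex_w h).imp fun m a => (C.cq_ass a).symm.trans (C.cq_w m)

theorem cq_ne {x : C.O} (h : x ≠ 0) : C.cq x ≠ 0 := by
  obtain ⟨m, a⟩ := C.cq_ex h
  exact a ▸ pow_ne_zero _ pp_ne

theorem cq_mul {x y : C.O} (h : x ≠ 0) (h' : y ≠ 0) : C.cq (x * y) = C.cq x * C.cq y := by
  obtain ⟨m, a⟩ := C.ex_w h
  obtain ⟨n, b⟩ := C.ex_w h'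
  rw [← C.cq_ass (a.mul_mul b), ← C.cq_ass a, ← C.cq_ass b, ← pow_add, cq_w, cq_w, cq_w, pow_add]

theorem cq_one {x : C.O} : C.cq x = 1 ↔ IsUnit x := by
  rw [cq, ← Submodule.cardQuot_apply, Submodule.cardQuot_eq_one_iff, Ideal.span_singleton_eq_top]

theorem cq_pow {x : C.O} (h : x ≠ 0) (n : ℕ) : C.cq (x ^ n) = C.cq x ^ n := by
  induction n with
  | zero => rw [pow_zero, pow_zero, C.cq_one.2 isUnit_one]
  | succ n i => rw [pow_succ, C.cq_mul (pow_ne_zero _ h) h, i, pow_succ]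

theorem cq_prod {ι : Type} (s : Finset ι) (x : ι → C.O) (h : ∀ i ∈ s, x i ≠ 0) :
    C.cq (∏ i ∈ s, x i) = ∏ i ∈ s, C.cq (x i) := by
  classical
  induction s using Finset.induction_on with
  | empty => simpa using C.cq_one.2 isUnit_one
  | insert a s n i =>
    rw [Finset.prod_insert n, Finset.prod_insert n, C.cq_mul (h _ (by simp))
      (Finset.prod_ne_zero_iff.2 fun j b => h j (by simp [b])), i fun j b => h j (by simp [b])]

theorem cq_p : C.cq pp = pp ^ C.pb.dim := (C.cq_ass C.ass).symm.trans (C.cq_w _)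

theorem card_L (n : ℕ) : Nat.card (C.L n) = pp ^ (n * C.pb.dim) := by
  rw [mul_comm, pow_mul, ← C.cq_p, ← C.cq_pow C.p0]

/-- the order of the quotient by an element of the base -/
theorem cq_alg {x : ℤ_[pp]} (h : x ≠ 0) :
    C.cq (algebraMap ℤ_[pp] C.O x) = pp ^ (x.valuation * C.pb.dim) := by
  rw [← C.card_L]
  refine C.cq_ass ?_
  have := (associated_unit_mul_left ((pp : ℤ_[pp]) ^ x.valuation) _
    (PadicInt.unitCoeff h).isUnit).map (algebraMap ℤ_[pp] C.O)
  rw [← PadicInt.unitCoeff_spec h] at this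
  simpa using this

instance fL (n : ℕ) : Finite (C.L n) := Nat.finite_of_card_ne_zero (C.card_L n ▸ pow_ne_zero _ pp_ne)

theorem ntL {n : ℕ} (h : n ≠ 0) : Nontrivial (C.L n) := Finite.one_lt_card_iff_nontrivial.1
  (C.card_L n ▸ Nat.one_lt_pow (mul_ne_zero h C.dim_pos.ne') one_lt)

theorem locL {n : ℕ} (h : n ≠ 0) : IsLocalRing (C.L n) :=
  have := C.ntL h
  .of_surjective' (C.rd n) Ideal.Quotient.mk_surjective

theorem rd_zero {n : ℕ} {x : C.O} : C.rd n x = 0 ↔ (pp : C.O) ^ n ∣ x := by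
  rw [Ideal.Quotient.eq_zero_iff_mem, Ideal.mem_span_singleton]

theorem io_rd (n : ℕ) (x : ℤ_[pp]) : C.io n (toZModPow n x) = C.rd n (algebraMap ℤ_[pp] C.O x) := by
  obtain ⟨c, hc⟩ := Ideal.mem_span_singleton.1 (PadicInt.appr_spec n x)
  have a : toZModPow n x = (x.appr n : ZMod (pp ^ n)) := rfl
  rw [a, map_natCast]
  conv_rhs => rw [sub_eq_iff_eq_add.1 hc, map_add, map_add, map_natCast, map_natCast,
    C.rd_zero.2 ⟨algebraMap _ _ c, by simp⟩, zero_add]

/-- the map between the levels -/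
def dn {n n' : ℕ} (h : n ≤ n') : C.L n' →+* C.L n :=
  Ideal.Quotient.factor (Ideal.span_singleton_le_span_singleton.2 (pow_dvd_pow _ h))

theorem dn_rd {n n' : ℕ} (h : n ≤ n') (x : C.O) : C.dn h (C.rd n' x) = C.rd n x := rfl

theorem dn_io {n n' : ℕ} (h : n ≤ n') :
    (C.dn h).comp (C.io n') = (C.io n).comp (ZMod.castHom (pow_dvd_pow pp h) _) :=
  Subsingleton.elim _ _

theorem sep {x : C.O} (h : ∀ n, C.rd n x = 0) : x = 0 := by
  by_contra a
  obtain ⟨m, b⟩ := C.ex_w a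
  have := ((pow_dvd_pow_of_dvd C.dvp _).trans (C.rd_zero.1 (h (m + 1)))).trans b.symm.dvd
  exact absurd ((pow_dvd_pow_iff C.w0 C.irr.not_isUnit).1 this) (by omega)

variable {C} {e : C.R →+* C.O}

theorem Ev.alg (h : C.Ev e) (x : ℤ_[pp]) : e (algebraMap ℤ_[pp] C.R x) = algebraMap ℤ_[pp] C.O x := by
  rw [PowerSeries.algebraMap_apply, h.c]

theorem Ev.sur (h : C.Ev e) : Function.Surjective e := fun x => ⟨_, h.c x⟩

theorem Ev.π (h : C.Ev e) (x : C.R) : C.π (e x) = C.π (PowerSeries.constantCoeff x) := by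
  conv_lhs => rw [PowerSeries.eq_X_mul_shift_add_const x]
  rw [map_add, map_mul, h.c, map_add, map_mul, not_not.1 (mt (C.unit_iff _).2 h.X), zero_mul, zero_add]

theorem Ev.unit (h : C.Ev e) (x : C.R) : IsUnit (e x) ↔ IsUnit x := by
  rw [PowerSeries.isUnit_iff_constantCoeff, C.unit_iff, C.unit_iff, h.π]

theorem ev0 (C : Cr k) : C.Ev PowerSeries.constantCoeff := ⟨fun _ => by simp, by simp⟩

theorem unit_R (x : C.R) : IsUnit x ↔ C.π (PowerSeries.constantCoeff x) ≠ 0 := by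
  rw [PowerSeries.isUnit_iff_constantCoeff, C.unit_iff]

end Vale.Agent.P014X.Cr
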