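import Vale.Agent.P014X.St2

/-! # P014X: induced representations and induced cocycles (row `IND`) -/

set_option autoImplicit false
set_option linter.all false

open Matrix
open scoped Classical

noncomputable section

namespace Vale.Agent.P014X.Fm

open Vale.Agent.P022 (Qb GQ)
open Vale.Agent.P022K.G2 (In Hb.in_conj)
open Vale.Agent.P014U
open Vale.Agent.P014U.Kq (M2)
open Vale.Agent.P014U.Pq (Zq)

namespace Ind

section

variable {a b : ℤ} {R : Type} [CommRing R] (x y : Qa a b R)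

theorem mm_mul : mm (x * y) = mm x * mm y := by
  ext i j
  fin_cases i <;> fin_cases j <;> simp [mm, Matrix.mul_apply, Fin.sum_univ_two] <;> ring

theorem mm_one : mm (1 : Qa a b R) = 1 := by
  ext i j
  fin_cases i <;> fin_cases j <;> simp [mm, QuadraticAlgebra.re_one, QuadraticAlgebra.im_one]

theorem cm_cm : cm b R * cm b R = 1 := by
  ext i j
  fin_cases i <;> fin_cases j <;> simp [cm, Matrix.mul_apply, Fin.sum_univ_two]

theorem cm_mm : cm b R * mm x = mm (star x) * cm b R := by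
  ext i j
  fin_cases i <;> fin_cases j <;> simp [mm, cm, Matrix.mul_apply, Fin.sum_univ_two] <;> ring

theorem mm_vc : mm x *ᵥ vc y = vc (x * y) := by
  ext i
  fin_cases i <;> simp [mm, vc, Matrix.mulVec, dotProduct, Fin.sum_univ_two] <;> ring

theorem cm_vc : cm b R *ᵥ vc y = vc (star y) := by
  ext i
  fin_cases i <;> simp [cm, vc, Matrix.mulVec, dotProduct, Fin.sum_univ_two]

theorem vc_add : vc (x + y) = vc x + vc y := by
  ext i
  fin_cases i <;> rfl

theorem vc_zero : vc (0 : Qa a b R) = 0 := by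
  ext i
  fin_cases i <;> rfl

theorem vc_inj : Function.Injective (vc : Qa a b R → Fin 2 → R) := fun _ _ e =>
  QuadraticAlgebra.ext (congrFun e 0) (congrFun e 1)

end

variable {A B : ℤ} {D : Cd A B} (C : D.Cf) {a b : ℤ} {R : Type} [CommRing R]
  {Φ : D.G →* Qa a b R} {y : D.G → Qa a b R} {ρ : GQ →* M2 R}

include C

theorem c_inv : D.c⁻¹ = D.c := inv_eq_of_mul_eq_one_right C.c2

theorem gcc (g : GQ) : g * D.c * D.c = g := by rw [mul_assoc, C.c2, mul_one]

theorem cg_val (g : D.G) : (D.cg g).1 = D.c * g * D.c := by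
  rw [Cd.cg, dif_pos (by simpa only [c_inv C] using C.nrm.conj_mem g g.2 D.c)]

theorem c_mul (g : D.G) : D.c * g = D.cg g * D.c := by rw [cg_val C, gcc C]

theorem cg_mul (g h : D.G) : D.cg (g * h) = D.cg g * D.cg h := Subtype.ext <| by
  simp only [Subgroup.coe_mul, cg_val C, ← mul_assoc, gcc C]

theorem cg_cg (g : D.G) : D.cg (D.cg g) = g := Subtype.ext <| by
  simp only [cg_val C, ← mul_assoc, C.c2, one_mul, gcc C]

theorem gc_not (g : D.G) : g * D.c ∉ D.G := (C.cG _).2 (by rw [gcc C]; exact g.2)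

/-- the two cosets -/
theorem cases (g : GQ) : (∃ h : D.G, h = g) ∨ ∃ h : D.G, h * D.c = g :=
  (em (g ∈ D.G)).imp (fun h => ⟨⟨g, h⟩, rfl⟩) fun h => ⟨⟨_, (C.cG g).1 h⟩, gcc C g⟩

omit C in
theorem xt_G {M : Type} [Zero M] (y : D.G → M) (g : D.G) : D.xt y g = y g := dif_pos g.2

theorem xt_c {M : Type} [Zero M] (y : D.G → M) (g : D.G) : D.xt y (g * D.c) = y g := by
  rw [Cd.xt, dif_neg (gc_not C g), dif_pos (by rw [gcc C]; exact g.2)]
  exact congrArg y (Subtype.ext (gcc C g))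

/-- the four products -/
theorem prods (P : GQ → GQ → GQ → Prop) (h1 : ∀ g h : D.G, P g h (g * h : D.G))
    (h2 : ∀ g h : D.G, P g (h * D.c) ((g * h : D.G) * D.c))
    (h3 : ∀ g h : D.G, P (g * D.c) h ((g * D.cg h : D.G) * D.c))
    (h4 : ∀ g h : D.G, P (g * D.c) (h * D.c) (g * D.cg h : D.G)) (g h : GQ) : P g h (g * h) := by
  obtain ⟨g, rfl⟩ | ⟨g, rfl⟩ := cases C g <;> obtain ⟨h, rfl⟩ | ⟨h, rfl⟩ := cases C h
  · exact h1 g h
  · exact mul_assoc g.1 _ _ ▸ h2 g h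
  · rw [mul_assoc, c_mul C, ← mul_assoc]
    exact h3 g h
  · rw [mul_assoc, ← mul_assoc D.c, ← cg_val C]
    exact h4 g h

theorem ex_id (j : D.Cj Φ) : ∃ ρ, D.Id Φ ρ := by
  let f (g : GQ) : M2 R := D.xt (fun g => mm (Φ g)) g * if g ∈ D.G then 1 else cm b R
  have f1 (g : D.G) : f g = mm (Φ g) := by simp only [f, xt_G, if_pos g.2, mul_one]
  have f2 (g : D.G) : f (g * D.c) = mm (Φ g) * cm b R := by
    simp only [f, xt_c C, if_neg (gc_not C g)]
  refine ⟨⟨⟨f, by simpa [mm_one] using f1 1⟩, prods C (fun g h k => f k = f g * f h) ?_ ?_ ?_ ?_⟩,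
    f1, by simpa [mm_one] using f2 1⟩ <;> intro g h <;>
    simp only [f1, f2, map_mul, mm_mul, j h, mul_assoc, cm_mm]
  rw [← mul_assoc (cm b R), cm_mm, mul_assoc, cm_cm, mul_one]

omit C in
theorem id_c (i : D.Id Φ ρ) (g : D.G) : ρ (g * D.c) = mm (Φ g) * cm b R := by rw [map_mul, i.G, i.c]

theorem id_uniq {ρ' : GQ →* M2 R} (i : D.Id Φ ρ) (i' : D.Id Φ ρ') : ρ = ρ' := MonoidHom.ext fun g => by
  obtain ⟨g, rfl⟩ | ⟨g, rfl⟩ := cases C g
  · rw [i.G, i'.G]
  · rw [id_c i, id_c i']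

theorem tc_cg (g : D.G) : D.tc y (D.cg g) = star (D.tc y g) := by
  simp only [Cd.tc, cg_cg C, star_add, star_star, add_comm]

theorem tc_mul (j : D.Cj Φ) (c : ∀ g h, y (g * h) = y g + Φ g * y h) (g h : D.G) :
    D.tc y (g * h) = D.tc y g + Φ g * D.tc y h := by
  simp only [Cd.tc, cg_mul C, c, j g, star_add, star_mul', star_star]
  ring

/-- a cocycle compatible with the conjugation extends -/
theorem xt_mul (i : D.Id Φ ρ) (c : ∀ g h, y (g * h) = y g + Φ g * y h)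
    (s : ∀ g, y (D.cg g) = star (y g)) : ∀ g h, D.xt (fun g => vc (y g)) (g * h) =
      D.xt (fun g => vc (y g)) g + ρ g *ᵥ D.xt (fun g => vc (y g)) h := by
  refine prods C (fun g h k => D.xt (fun g => vc (y g)) k = D.xt (fun g => vc (y g)) g +
    ρ g *ᵥ D.xt (fun g => vc (y g)) h) ?_ ?_ ?_ ?_ <;> intro g h <;>
    simp only [xt_G, xt_c C, id_c i, i.G, c, s, vc_add, ← mulVec_mulVec, cm_vc, mm_vc]

theorem lc_cg {W : Subgroup GQ} (o : IsOpen (W : Set GQ)) : ∃ W' : Subgroup GQ,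
    IsOpen (W' : Set GQ) ∧ ∀ w ∈ W', ∃ g : D.G, g = w ∧ g.1 ∈ W ∧ (D.cg g).1 ∈ W :=
  ⟨D.G ⊓ (W ⊓ W.comap (MulAut.conj D.c).toMonoidHom),
    C.opn.inter (o.inter (o.preimage (f := fun g => D.c * g * D.c⁻¹) (by fun_prop))),
    fun w h => ⟨⟨w, h.1⟩, rfl, h.2.1, by rw [cg_val C, ← congrArg (_ * ·) (c_inv C)]; exact h.2.2⟩⟩

end Ind

open Ind

variable [Pp]

theorem ind : IND := fun A B D C a b R _ Φ j => ⟨ex_id C j, fun ρ y S i c u => by
  have z {g : D.G} (h : y g = 0) (h' : y (D.cg g) = 0) : D.xt (fun g => vc (D.tc y g)) g = 0 := by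
    rw [xt_G, Cd.tc, h, h', star_zero, add_zero, vc_zero]
  have u' {g} (h : g ∈ In S) : ∃ h : g ∈ D.G, y ⟨g, h⟩ = 0 :=
    let ⟨l, n, P, o, t⟩ := h; u l P g o n t
  obtain ⟨W, o, w⟩ := c.lc
  obtain ⟨W', o', w'⟩ := lc_cg C o
  have y1 : y 1 = 0 := w 1 (one_mem W)
  refine ⟨xt_mul C i (tc_mul C j c.coc) (tc_cg C), ⟨W', o', fun g h => ?_⟩, fun g h => ?_, ?_⟩
  · obtain ⟨g, rfl, h1, h2⟩ := w' g h
    exact z (w _ h1) (w _ h2)
  · obtain ⟨k, e⟩ := u' h
    obtain ⟨k', e'⟩ := u' (Hb.in_conj h D.c)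
    exact z e ((congrArg y (Subtype.ext ((cg_val C _).trans (congrArg _ (c_inv C).symm)))).trans e')
  · rw [← one_mul D.c]
    exact (xt_c C _ 1).trans ((xt_G _ 1).symm.trans (z y1
      ((congrArg y (Subtype.ext (by simp [cg_val C, C.c2]))).trans y1)))⟩

end Vale.Agent.P014X.Fm
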