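import Vale.Agent.P014X.St2
import Vale.Agent.P014X.Es.Kol

/-! # P014X: induced representations and their classes at the finite levels (kit, helper37) -/

set_option autoImplicit false
set_option linter.all false

open NumberField Matrix Submodule Set
open scoped Classical

noncomputable section

namespace Vale.Agent.P014X.Pz0

open Vale.Agent.P022 (Qb GQ)
open Vale.Agent.P027M.S (Inert)
open Vale.Agent.P022E.GW (Ov Fb)
open Vale.Agent.P014U
open Vale.Agent.P014U.Dr (Zn)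
open Vale.Agent.P014U.Kq (M2)
open Vale.Agent.P014U.Pq (Zq Gd)
open Vale.Agent.P014U.Pp (ec)
open Vale.Agent.P014U.X4S.Aq (cz)
open Vale.Agent.P014T.Ct (Pr Cl db)
open Vale.Agent.P014T.Ba (Kr)

variable {A B : ℤ} {D : Cd A B} {a b : ℤ} {R L : Type} [CommRing R] [CommRing L]
  {Φ χ : D.G →* Qa a b R} {ρ ρ' : GQ →* M2 R} {N₀ M s n n' N N' l r : ℕ} {g₀ : D.G}

/-! ### algebra -/

theorem mm_map (f : R →+* L) (x : Qa a b R) : (mm x).map f = mm (qm a b f x) := by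
  ext i j; fin_cases i <;> fin_cases j <;> simp [mm, qm]

theorem mm_one : mm (1 : Qa a b R) = 1 := by
  ext i j; fin_cases i <;> fin_cases j <;> simp [mm, QuadraticAlgebra.re_one, QuadraticAlgebra.im_one]

theorem qm_star (f : R →+* L) (x : Qa a b R) : qm a b f (star x) = star (qm a b f x) :=
  QuadraticAlgebra.ext (by simp [qm]) (by simp [qm])

theorem qm_alg (f : R →+* L) (x : R) : qm a b f (algebraMap R _ x) = algebraMap L _ (f x) :=
  QuadraticAlgebra.ext rfl f.map_zero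

theorem qm_dl (f : R →+* L) : qm a b f (dl a b R) = dl a b L :=
  QuadraticAlgebra.ext (by simp [qm, dl]) (map_ofNat f 2)

theorem star_alg (x : R) : star (algebraMap R (Qa a b R) x) = algebraMap R _ x :=
  QuadraticAlgebra.ext (by simp) (by simp)

theorem vc_map (f : R →+* L) (x : Qa a b R) : f ∘ vc x = vc (qm a b f x) := by
  ext i; fin_cases i <;> rfl

theorem id_map (h : D.Id Φ ρ) (f : R →+* L) : D.Id (qc f Φ) (f.mapMatrix.toMonoidHom.comp ρ) :=
  ⟨fun g => (congrArg (·.map f) (h.G g)).trans (mm_map f _), (congrArg (·.map f) h.c).trans (by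
    ext i j; fin_cases i <;> fin_cases j <;> simp [cm])⟩

theorem id_c (h : D.Id Φ ρ) : ρ D.c *ᵥ ![1, 0] = ![1, 0] := by
  rw [h.c]; ext i; fin_cases i <;> simp [cm]

theorem cj_map (h : D.Cj χ) (f : R →+* L) : D.Cj (qc f χ) := fun g =>
  (congrArg (qm a b f) (h g)).trans (qm_star f _)

theorem sz_add (ρ : GQ → M2 R) (x : GQ → Fin 2 → R) (τ : R) :
    sz ρ (x + τ • db ρ ![1, 0]) = sz ρ x := by
  refine congrArg (fun S : Submodule R _ => Nat.card S) (Submodule.ext fun z => ?_)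
  simp only [mem_span_pair]
  exact ⟨fun ⟨u, v, e⟩ => ⟨u + v * τ, v, by rw [← e]; module⟩,
    fun ⟨u, v, e⟩ => ⟨u - v * τ, v, by rw [← e]; module⟩⟩

theorem ch_symm {R : Type} [CommRing R] {φ : D.G →* R} {y y' : D.G → R} (h : D.Ch φ y y') :
    D.Ch φ y' y := h.elim fun w h => ⟨-w, fun g => by linear_combination -h g⟩

theorem ch_trans {R : Type} [CommRing R] {φ : D.G →* R} {y y' y'' : D.G → R} (h : D.Ch φ y y')
    (k : D.Ch φ y' y'') : D.Ch φ y y'' :=
  h.elim fun w h => k.elim fun v k => ⟨w + v, fun g => by linear_combination h g + k g⟩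

theorem cg_val (C : D.Cf) (g : D.G) : (D.cg g).1 = D.c * g * D.c := by
  have : D.c * g * D.c ∈ D.G := by
    simpa only [inv_eq_of_mul_eq_one_right C.c2] using C.nrm.conj_mem g g.2 D.c
  rw [Cd.cg, dif_pos this]

theorem id_uniq (C : D.Cf) (h : D.Id Φ ρ) (h' : D.Id Φ ρ') : ρ = ρ' := MonoidHom.ext fun g => by
  by_cases m : g ∈ D.G
  · exact (h.G ⟨g, m⟩).trans (h'.G ⟨g, m⟩).symm
  · rw [← mul_one g, ← C.c2, ← mul_assoc, map_mul, map_mul ρ', h.c, h'.c,
      (h.G ⟨_, (C.cG g).1 m⟩).trans (h'.G ⟨_, (C.cG g).1 m⟩).symm]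

theorem xt_ch (C : D.Cf) (h : D.Id Φ ρ) (j : D.Cj Φ) {y y' : D.G → Qa a b R} (k : D.Ch Φ y y')
    (δ : Qa a b R) : ∃ τ : R, D.xt (fun g => vc (D.tc (fun g => δ * y g) g)) =
      D.xt (fun g => vc (D.tc (fun g => δ * y' g) g)) + τ • db ρ ![1, 0] := by
  obtain ⟨w, k⟩ := k
  have e (g : D.G) : vc (D.tc (fun g => δ * y g) g) = vc (D.tc (fun g => δ * y' g) g) +
      (2 * (δ * w).re + b * (δ * w).im) • db ρ ![1, 0] g := by
    have : D.tc (fun g => δ * y g) g = D.tc (fun g => δ * y' g) g +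
        (δ * w + star (δ * w)) * (Φ g - 1) := by
      simp only [Cd.tc, eq_add_of_sub_eq (k _), j g, mul_add, star_add, star_mul', star_sub, star_star,
        star_one]
      ring
    rw [this, db, h.G]
    generalize δ * w = v, D.tc (fun g => δ * y' g) g = z
    ext i; fin_cases i <;> simp [vc, mm, QuadraticAlgebra.re_one, QuadraticAlgebra.im_one] <;> ring
  refine ⟨2 * (δ * w).re + b * (δ * w).im, funext fun g => ?_⟩
  simp only [Cd.xt, Pi.add_apply, Pi.smul_apply]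
  split_ifs with m m'
  · exact e _
  · rw [e, db, db, sub_mulVec, sub_mulVec, Subgroup.coe_mk, map_mul, ← mulVec_mulVec, id_c h]
  · exact (m' ((C.cG g).1 m)).elim

/-! ### presentations -/

section

variable {T : Finset ℕ} {c : GQ} {σ : GQ → M2 R} {Q : Matrix (Fin r) (Fin (r + 2)) R}
  {u : GQ → Matrix (Fin 2) (Fin (r + 2)) R} {v w : Fin (r + 2) → R} {x y : GQ → Fin 2 → R}

theorem pr_bij (h : Pr σ T c Q u) (f : R →+* L) :
    BijOn (fun (v : Fin (r + 2) → L) g => (u g).map f *ᵥ v) {v | Q.map f *ᵥ v = 0}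
      (Zq L T (fun g => (σ g).map f) c) :=
  letI := Module.compHom L f
  h L

theorem pr_card (h : Pr σ T c Q u) (f : R →+* L) :
    Nat.card (Kr (Q.map f)) = Nat.card (Zq L T (fun g => (σ g).map f) c) :=
  Nat.card_congr ((pr_bij h f).equiv _)

theorem pr_col (h : Pr σ T c Q u) (m : x ∈ Zq R T σ c) : ∃ v, Cl Q u v x :=
  let ⟨v, k, e⟩ := (h R).surjOn m
  ⟨v, k, congrFun e⟩

theorem mv_map {m n : Type} [Fintype n] (f : R →+* L) (X : Matrix m n R) (v : n → R) :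
    X.map f *ᵥ (f ∘ v) = f ∘ (X *ᵥ v) := funext fun i => (RingHom.map_mulVec f X v i).symm

theorem pr_span (h : Pr σ T c Q u) (f : R →+* L) (hv : Cl Q u v x) (hw : Cl Q u w y) :
    Nat.card (span L {f ∘ v, f ∘ w}) = Nat.card (span L {fun g => f ∘ x g, fun g => f ∘ y g}) := by
  let F : (Fin (r + 2) → L) →ₗ[L] GQ → Fin 2 → L := LinearMap.pi fun g => ((u g).map f).mulVecLin
  have e {v x} (k : Cl Q u v x) : F (f ∘ v) = fun g => f ∘ x g :=
    funext fun g => (mv_map f _ _).trans (congrArg _ (k.2 g))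
  have z {v x} (k : Cl Q u v x) : Q.map f *ᵥ (f ∘ v) = 0 :=
    (mv_map f _ _).trans (by rw [k.1]; exact funext fun _ => f.map_zero)
  rw [← e hv, ← e hw, ← image_pair F, ← map_span]
  exact (Nat.card_image_of_injOn ((pr_bij h f).injOn.mono (span_le.2 (pair_subset (z hv) (z hw)) :
    _ ≤ LinearMap.ker (Q.map f).mulVecLin))).symm

theorem db_map (f : R →+* L) (σ : GQ → M2 R) :
    (fun g => f ∘ db σ ![1, 0] g) = db (fun g => (σ g).map f) ![1, 0] := by
  ext g i; fin_cases i <;> simp [db, mulVec, dotProduct]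

theorem db_mem (G : Gd ⊤ T σ) {w : Fin 2 → R} (h : σ c *ᵥ w = w) : db σ w ∈ Zq R T σ c :=
  ⟨fun g k => by
    change _ = _ + σ g *ᵥ _
    simp only [db, G.mul g trivial k trivial, sub_mulVec, mulVec_sub, one_mulVec, mulVec_mulVec]
    abel, G.lc.imp fun W k => ⟨k.1, fun g m => by rw [db, k.2 g trivial m, sub_self, zero_mulVec]⟩,
    fun g m => by rw [db, G.unr g trivial m, sub_self, zero_mulVec],
    by rw [db, sub_mulVec, h, one_mulVec, sub_self]⟩

end

/-! ### the classes -/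

variable [Pp]

theorem zp_ext (h : (pp : L) ^ n = 0) (φ ψ : ℤ_[pp] →+* L) (x : ℤ_[pp]) : φ x = ψ x := by
  obtain ⟨y, e⟩ := Ideal.mem_span_singleton.1 (PadicInt.appr_spec n x)
  rw [eq_add_of_sub_eq e]
  simp [h]

theorem pw_zero (ι : Zn N →+* L) : (pp : L) ^ N = 0 := by
  rw [← Nat.cast_pow, ← map_natCast ι, ZMod.natCast_self, map_zero]

theorem ak_eq (ι : Zn N →+* L) (ι' : Zn N' →+* L) (φ : D.G →* L) : D.ak ι φ = D.ak ι' φ :=
  MonoidHom.ext fun g => congrArg (· * φ g) (zp_ext (pw_zero ι) (ι.comp (PadicInt.toZModPow N))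
    (ι'.comp (PadicInt.toZModPow N')) (cz g))

/-- the product with the cyclotomic character -/
def Ph [Algebra ℤ_[pp] R] (χ : D.G →* Qa a b R) : D.G →* Qa a b R :=
  ((algebraMap R (Qa a b R)).comp (algebraMap ℤ_[pp] R)).toMonoidHom.comp
    ((Units.coeHom _).comp (cz.comp D.G.subtype)) * χ

theorem aq_eq [Algebra ℤ_[pp] R] (f : R →+* L) (ι : Zn N →+* L) (χ : D.G →* Qa a b R) :
    D.aq ι (qc f χ) = qc f (Ph χ) := MonoidHom.ext fun g =>
  ((congrArg (· * qm a b f (χ g)) ((congrArg (algebraMap L (Qa a b L)) (zp_ext (pw_zero ι)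
    (ι.comp (PadicInt.toZModPow N)) (f.comp (algebraMap _ _)) (cz g))).trans
    (qm_alg f _).symm)).trans (map_mul _ _ _).symm :)

theorem cz_cg (C : D.Cf) (g : D.G) : cz (D.cg g) = cz g := by
  rw [cg_val C, map_mul, map_mul, mul_right_comm, ← map_mul, C.c2, map_one, one_mul]

theorem cj_Ph [Algebra ℤ_[pp] R] (C : D.Cf) (h : D.Cj χ) : D.Cj (Ph χ) := fun g => by
  change algebraMap R (Qa a b R) (algebraMap _ _ (cz (D.cg g) : ℤ_[pp])) * _ =
    star (algebraMap R (Qa a b R) _ * _)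
  rw [cz_cg C, h g, star_mul', star_alg]
  rfl

theorem cj_aq (C : D.Cf) (h : D.Cj χ) (ι : Zn N →+* R) : D.Cj (D.aq ι χ) := fun g => by
  change algebraMap R (Qa a b R) (ι (PadicInt.toZModPow N (cz (D.cg g) : ℤ_[pp]))) * _ =
    star (algebraMap R (Qa a b R) _ * _)
  rw [cz_cg C, h g, star_mul', star_alg]
  rfl

theorem mp_ne (h : M ≠ 0) : D.mp M n ≠ 0 := fun e =>
  mul_ne_zero h (pow_ne_zero n pp_ne) (by exact_mod_cast congrArg QuadraticAlgebra.re e)

theorem mp_dvd (h : n ≤ n') : D.mp M n ∣ D.mp M n' :=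
  Nat.cast_dvd_cast (mul_dvd_mul_left M (pow_dvd_pow pp h))

theorem ad (h : M ≠ 0) (G : D.Ga M s g₀) (h2 : 2 ≤ n) : D.Ad pp s (D.mp M n) :=
  ⟨mp_ne h, by
    rw [← Nat.cast_pow]; exact Nat.cast_dvd_cast ((pow_dvd_pow pp h2).mul_left M), by
    have := ((G.cop.coprime_mul_right_right).mul_right
      (G.cop.coprime_mul_left_right.pow_right n)).cast (R := D.O)
    rwa [mul_assoc, Nat.cast_mul] at this⟩

theorem tr_le (C : D.Cf) (h : M ≠ 0) {φ : D.G →* L} (t : D.Tr (D.mp M n) φ) (le : n ≤ n') :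
    D.Tr (D.mp M n') φ := by
  obtain ⟨y, e⟩ := mp_dvd (D := D) (M := M) le
  have := mp_ne (D := D) (n := n') h
  rw [e] at this ⊢
  exact Ko.tr_mono C t this

theorem out (C : D.Cf) (fm : D.Fm N₀ M) {P : Ideal (𝓞 Qb)} {i : GQ} (o : Ov l P) (h : l ∉ Sb M)
    (hi : Inert P i) : ∃ m : i ∈ D.G, l ≠ pp ∧ ∀ n, i ∈ D.Hm (D.mp M n) := by
  obtain ⟨φ, f⟩ : ∃ φ, Fb l P φ := P022D.W.exists_phi o.1 o.2.1 o.2.2
  have m := (C.spl l P φ o (mt (fm.disc l o.1) h) f).1 i hi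
  rw [Finset.mem_insert, not_or, Nat.mem_primeFactors_of_ne_zero fm.ne, and_iff_right o.1] at h
  refine ⟨m, h.1, fun n => Ko.in_hm C (i := ⟨i, m⟩) o hi fun k => ?_⟩
  obtain ⟨x, y, e⟩ := ((o.1.coprime_iff_not_dvd.2 h.2).mul_right
    (((Nat.coprime_primes o.1 pp_prime).2 h.1).pow_right n)).cast (R := 𝓞 Qb)
  rw [map_natCast] at k
  exact o.2.1.ne_top ((Ideal.eq_top_iff_one _).2
    (e ▸ add_mem (P.mul_mem_left _ o.2.2) (P.mul_mem_left _ k)))

variable (C : D.Cf) (W : D.Rw) (fm : D.Fm N₀ M) (G : D.Ga M s g₀) (h2 : 2 ≤ n) {ι : Zn N →+* R}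
  (t : D.Tr (D.mp M n) χ)
include C W fm G h2 t

theorem gd (h : D.Id (D.aq ι χ) ρ) : Gd ⊤ (Sb M) ρ := by
  obtain ⟨U, u1, u2⟩ := Ko.ak_open C W (ι := (algebraMap R (Qa a b R)).comp ι) (ad fm.ne G h2) t
  refine ⟨isOpen_univ, inferInstance, fun l m => ?_, map_one _, fun g _ k _ => map_mul _ _ _,
    ⟨U ⊓ D.G, u1.inter C.opn, fun w _ m => ?_⟩, fun i _ ⟨l, m, P, o, hi⟩ => ?_⟩
  · exact (Finset.mem_insert.1 m).elim (· ▸ pp_prime) Nat.prime_of_mem_primeFactors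
  · exact (h.G ⟨w, m.2⟩).trans ((congrArg mm (u2 ⟨w, m.2⟩ m.1)).trans mm_one)
  · obtain ⟨k, l2, e⟩ := out C fm o m hi
    exact (h.G ⟨i, k⟩).trans ((congrArg mm (Ko.ak_in (i := ⟨i, k⟩) t o l2 hi (e n))).trans mm_one)

theorem xz_mem (ind : IND) (j : D.Cj χ) (h : D.Id (D.aq ι χ) ρ) :
    D.xz s (D.mp M n) ι χ ∈ Zq R (Sb M) ρ D.c := by
  have c := W.co N s _ _ ((algebraMap R (Qa a b R)).comp ι) χ (ad fm.ne G h2) t
  refine (ind A B D C a b R _ (cj_aq C j ι)).2 ρ _ _ h ⟨fun g k => by rw [c.coc]; ring,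
    c.lc.imp fun U k => ⟨k.1, fun w m => by rw [k.2 w m, mul_zero]⟩⟩ fun l P i o m hi => ?_
  obtain ⟨k, l2, e⟩ := out C fm o m hi
  exact ⟨k, by rw [W.unr N s _ _ _ χ l P ⟨i, k⟩ (ad fm.ne G h2) t o l2 hi (e n), mul_zero]⟩

theorem xz_ch (j : D.Cj χ) (h : D.Id (D.aq ι χ) ρ) (h2' : 2 ≤ n') (t' : D.Tr (D.mp M n') χ)
    (ι' : Zn N' →+* R) : ∃ τ : R,
      D.xz s (D.mp M n') ι' χ = D.xz s (D.mp M n) ι χ + τ • db ρ ![1, 0] := by
  have dv {n k : ℕ} (h2 : 2 ≤ n) (le : n ≤ k) (t : D.Tr (D.mp M n) χ) :=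
    W.dv N s _ _ _ ((algebraMap R (Qa a b R)).comp ι) χ (ad fm.ne G h2) (ad fm.ne G (h2.trans le))
      (mp_dvd le) (fun π p d => by
        rw [Cd.mp, Nat.cast_mul, Nat.cast_pow] at d ⊢
        exact (p.dvd_or_dvd d).elim (·.mul_right _) fun d =>
          ((p.dvd_of_dvd_pow d).trans (dvd_pow_self _ (by omega))).mul_left _) t
  have l1 := W.lev _ N (le_max_left N N') s _ _ ((algebraMap R (Qa a b R)).comp ι) χ
    (ad fm.ne G h2') t'
  have l2 := W.lev _ N' (le_max_right N N') s _ _ ((algebraMap R (Qa a b R)).comp ι') χ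
    (ad fm.ne G h2') t'
  rw [ak_eq _ ((algebraMap R (Qa a b R)).comp ι), RingHom.ext_zmod (RingHom.comp _ _)
    (((algebraMap R (Qa a b R)).comp ι).comp (ZMod.castHom (pow_dvd_pow pp (le_max_left N N')) _))]
    at l2
  exact xt_ch C h (cj_aq C j ι) (ch_trans (ch_trans (ch_symm l2) l1) (ch_trans
    (ch_symm (dv h2' (le_max_right n n') t')) (dv h2 (le_max_left n n') t))) _

omit C fm G h2 t in
theorem xz_map (f : R →+* L) {α m : D.O} (m0 : m ≠ 0) (ι : Zn N →+* R) (χ : D.G →* Qa a b R) :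
    (fun g => f ∘ D.xz α m ι χ g) = D.xz α m (f.comp ι) (qc f χ) := funext fun g => by
  have e (g : D.G) := (W.map N α m _ _ (qm a b f) ((algebraMap R _).comp ι) χ g m0).trans
    (congrArg (D.zc α m · _ g) (RingHom.ext_zmod _ ((algebraMap L _).comp (f.comp ι))))
  simp only [Cd.xz, Cd.xt]
  split_ifs
  · simp only [vc_map, Cd.tc, map_add, qm_star, map_mul, qm_dl, e]
  · simp only [vc_map, Cd.tc, map_add, qm_star, map_mul, qm_dl, e]
  · exact funext fun _ => f.map_zero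

end Vale.Agent.P014X.Pz0
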