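import Vale.Agent.P014X.St2
import Vale.Agent.P014X.Zr.Nrm

/-! # P014X: the zeta elements are framed cocycles and are compatible (helper16) -/

set_option autoImplicit false
set_option linter.all false

open NumberField QuadraticAlgebra
open scoped Classical

noncomputable section

namespace Vale.Agent.P014X.Pz1

open Vale.Agent.P022 (Qb GQ IsConj)
open Vale.Agent.P027M.S (Inert)
open Vale.Agent.P022E.GW (Ov Fb)
open Vale.Agent.P022K.G2 (In)
open Vale.Agent.P014U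
open Vale.Agent.P014U.Dr (Zn)
open Vale.Agent.P014U.Pp (ec)
open Vale.Agent.P014U.Bt (Z0 Gp dd)
open Vale.Agent.P004F (hq)
open P004M.TE (Pt ga ga_mul ga_one)
open P027M.K (TM)
open PadicInt (toZModPow)

variable [Pp] {A B a b : ℤ} {D : Cd A B} {n j N M s n' j' : ℕ}

/-! ### coordinates -/

/-- the reduction -/
abbrev rd (a b : ℤ) (n : ℕ) : Qa a b ℤ →+* Qa a b (Zn n) := qm a b (Int.castRingHom (Zn n))

/-- change of the level -/
abbrev cs (h : j ≤ n) : Zn n →+* Zn j := ZMod.castHom (pow_dvd_pow pp h) (Zn j)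

theorem rd_lift (x : Qa a b (Zn n)) : rd a b n ⟨x.re.val, x.im.val⟩ = x :=
  QuadraticAlgebra.ext (by simp [qm]) (by simp [qm])

theorem rd_dvd {x y : Qa a b ℤ} (h : rd a b n x = rd a b n y) : (pp : Qa a b ℤ) ^ n ∣ x - y := by
  obtain ⟨u, e⟩ := (ZMod.intCast_eq_intCast_iff_dvd_sub _ _ _).1 (congrArg re h.symm)
  obtain ⟨v, e'⟩ := (ZMod.intCast_eq_intCast_iff_dvd_sub _ _ _).1 (congrArg im h.symm)
  rw [← Nat.cast_pow]
  generalize pp ^ n = k at e e'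
  exact ⟨⟨u, v⟩, QuadraticAlgebra.ext (by simp [e]) (by simp [e'])⟩

theorem cs_rd (h : j ≤ n) (x : Qa a b ℤ) : qm a b (cs h) (rd a b n x) = rd a b j x :=
  QuadraticAlgebra.ext (map_intCast (cs h) _) (map_intCast (cs h) _)

theorem pw_ne (n : ℕ) : (pp : D.O) ^ n ≠ 0 := by
  exact_mod_cast Ep.nat_ne (D := D) (pow_ne_zero n pp_ne)

theorem mp_ne (h : M ≠ 0) (n : ℕ) : D.mp M n ≠ 0 := Ep.nat_ne (mul_ne_zero h (pow_ne_zero n pp_ne))

omit [Pp] in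
theorem act_mul (x y : D.O) (T : Pt A B) : D.act (x * y) T = D.act x (D.act y T) := by
  rw [map_mul]
  rfl

variable (cf : D.Cf)
include cf

theorem pt_rd (β : D.O) : D.pt n (rd _ _ n β) = D.act β (D.tp (pp ^ n)) := by
  rw [Cd.pt, ← sub_eq_zero]
  refine .trans ?_ ((cf.ker _ (pw_ne n) _).2 (rd_dvd (rd_lift (rd _ _ n β))))
  rw [map_sub]
  rfl

theorem pt_add (x y : Qa D.a D.b (Zn n)) : D.pt n (x + y) = D.pt n x + D.pt n y := by
  rw [← rd_lift x, ← rd_lift y, ← map_add, pt_rd cf, pt_rd cf, pt_rd cf, map_add]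
  rfl

/-- the points as a homomorphism -/
def pth (n : ℕ) : Qa D.a D.b (Zn n) →+ Pt A B := AddMonoidHom.mk' (D.pt n) (pt_add cf)

theorem pt_zero : D.pt n 0 = 0 := (pth cf n).map_zero

theorem pt_sub (x y : Qa D.a D.b (Zn n)) : D.pt n (x - y) = D.pt n x - D.pt n y :=
  (pth cf n).map_sub x y

theorem pt_mul (β : D.O) (x : Qa D.a D.b (Zn n)) : D.pt n (rd _ _ n β * x) = D.act β (D.pt n x) := by
  rw [← rd_lift x, ← map_mul, pt_rd cf, pt_rd cf, act_mul]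

theorem pt_tor (x : Qa D.a D.b (Zn n)) : pp ^ n • D.pt n x = 0 := by
  rw [Cd.pt, ← map_nsmul, show pp ^ n • D.tp (pp ^ n) = D.act (pp ^ n) (D.tp (pp ^ n)) by
    rw [← Nat.cast_pow, map_natCast]; rfl, (cf.ker _ (pw_ne n) _).2 dvd_rfl, map_zero]

theorem pt_cs (h : j ≤ n) (x : Qa D.a D.b (Zn n)) :
    pp ^ (n - j) • D.pt n x = D.pt j (qm _ _ (cs h) x) := by
  rw [← rd_lift x, cs_rd, pt_rd cf, pt_rd cf, ← map_nsmul,
    ← cf.dv _ (pw_ne j) _ (pw_ne (n - j)), ← pow_add, Nat.add_sub_cancel' h, ← Nat.cast_pow pp (n - j),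
    map_natCast]
  rfl

variable {χ : D.G →* Qa D.a D.b ℤ_[pp]} {g : D.G} {β μ : D.O}

theorem ak_eq (ps : D.Ps χ) (h : D.Ac (pp ^ n) g β) :
    D.ak (algebraMap (Zn n) _) (qc (toZModPow n) χ) g = rd _ _ n β := by
  have e : ec n g.1 = (D.nm β : ℕ) :=
    Zr.Nrm.ec_eq (cf.det (pp ^ n) g β (pow_ne_zero n pp_ne) (by exact_mod_cast h))
  show algebraMap (Zn n) _ (ec n g.1) * qm _ _ (toZModPow n) (χ g) = _
  rw [e, map_natCast, ← map_natCast (rd D.a D.b n), Ep.nm_eq, map_mul, mul_assoc,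
    mul_comm _ (qm _ _ _ (χ g)), ps n g β h, mul_one]

theorem pt_ga (ps : D.Ps χ) (g : D.G) (x : Qa D.a D.b (Zn n)) :
    D.pt n (D.ak (algebraMap (Zn n) _) (qc (toZModPow n) χ) g * x) = ga g (D.pt n x) := by
  obtain ⟨β, -, h⟩ := cf.ac _ (pw_ne n) g g.2
  rw [ak_eq cf ps h, pt_mul cf, Cd.pt, cf.lin g g.2, h.2, Ep.cm]

/-! ### the extension to the rationals -/

omit [Pp]

theorem c_not : D.c ∉ D.G := (cf.cG _).2 (cf.c2 ▸ one_mem _)

theorem cg_val (g : D.G) : (D.cg g).1 = D.c * g * D.c := by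
  have : D.c * g * D.c ∈ D.G := by
    simpa only [inv_eq_of_mul_eq_one_right cf.c2] using cf.nrm.conj_mem g g.2 D.c
  rw [Cd.cg, dif_pos this]

theorem cg_mul (g h : D.G) : D.cg (g * h) = D.cg g * D.cg h := Subtype.ext <| by
  simp only [Subgroup.coe_mul, cg_val cf, mul_assoc]
  rw [← mul_assoc D.c D.c, cf.c2, one_mul]

theorem cg_cg (g : D.G) : D.cg (D.cg g) = g := Subtype.ext <| by
  simp only [cg_val cf, mul_assoc, cf.c2, mul_one]
  rw [← mul_assoc, cf.c2, one_mul]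

theorem ga_cc (Q : Pt A B) : ga D.c (ga D.c Q) = Q := by rw [← ga_mul, cf.c2, ga_one]

theorem ga_cg (g : D.G) (Q : Pt A B) : ga D.c (ga (D.cg g) Q) = ga g (ga D.c Q) := by
  rw [cg_val cf, ga_mul, ga_mul, ga_cc cf]

theorem two (g : GQ) : ∃ k : D.G, g = k ∨ g = k * D.c := by
  by_cases h : g ∈ D.G
  · exact ⟨⟨g, h⟩, .inl rfl⟩
  · exact ⟨⟨_, (cf.cG g).1 h⟩, .inr (by rw [mul_assoc, cf.c2, mul_one])⟩

omit cf in
theorem xt_G {V : Type} [Zero V] (y : D.G → V) (g : D.G) : D.xt y g = y g := dif_pos g.2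

theorem xt_c {V : Type} [Zero V] (y : D.G → V) (g : D.G) : D.xt y (g * D.c) = y g := by
  have e : g * D.c * D.c = g := by rw [mul_assoc, cf.c2, mul_one]
  have h : g * D.c ∉ D.G := fun k => c_not cf ((mul_mem_cancel_left g.2).1 k)
  rw [Cd.xt, dif_neg h, dif_pos (e.symm ▸ g.2)]
  exact congrArg y (Subtype.ext e)

theorem xt_coc {t : D.G → Pt A B} (h : ∀ g k, t (g * k) = t g + ga g (t k))
    (c : ∀ g, t (D.cg g) = ga D.c (t g)) (g k : GQ) :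
    D.xt t (g * k) = D.xt t g + ga g (D.xt t k) := by
  have e (g k : D.G) : g * D.c * k = (g * D.cg k : D.G) * D.c := by
    simp only [Subgroup.coe_mul, cg_val cf, mul_assoc, cf.c2, mul_one]
  obtain ⟨g, rfl | rfl⟩ := two cf g <;> obtain ⟨k, rfl | rfl⟩ := two cf k
  · rw [← Subgroup.coe_mul, xt_G, xt_G, xt_G, h]
  · rw [← mul_assoc, ← Subgroup.coe_mul, xt_c cf, xt_G, xt_c cf, h]
  · rw [e, xt_c cf, xt_c cf, xt_G, h, c, ga_mul]
  · rw [← mul_assoc, e, mul_assoc, cf.c2, mul_one, xt_G, xt_c cf, xt_c cf, h, c, ga_mul]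

omit cf in
theorem isc (D : Cd A B) : IsConj D.c := ⟨P027M.M.io.toRingHom, D.cc⟩

theorem in_hm {l : ℕ} {P : Ideal (𝓞 Qb)} {i : GQ} {m : D.O} (o : Ov l P) (a : i ∈ D.G)
    (h : Inert P i) (m0 : m ≠ 0) (b : D.j m ∉ P) : i ∈ D.Hm m := by
  have := Ep.dom (D := D)
  have := D.pid
  obtain ⟨π, p, c, -⟩ := cf.bel l P o
  obtain ⟨ζ, u, t⟩ := cf.mt π P 0 i ⟨p, o.2.1, c, a, fun x => by simpa using h x⟩
  exact (cf.hm m m0 i).2 ⟨ζ, u, by
    simpa using t m m0 (p.irreducible.coprime_iff_not_dvd.2 fun ⟨c', e⟩ => b (by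
      rw [e, map_mul]; exact P.mul_mem_right _ c)).symm⟩

end Vale.Agent.P014X.Pz1

namespace Vale.Agent.P014X.Pz1

open Vale.Agent.P022 (Qb GQ IsConj)
open Vale.Agent.P027M.S (Inert)
open Vale.Agent.P022E.GW (Ov Fb)
open Vale.Agent.P022K.G2 (In)
open Vale.Agent.P014U
open Vale.Agent.P014U.Dr (Zn)
open Vale.Agent.P014U.Bt (Z0 Gp dd)
open Vale.Agent.P004F (hq)
open P004M.TE (Pt ga ga_mul ga_one)
open P027M.K (TM)
open PadicInt (toZModPow)

variable [Pp] {A B : ℤ} {D : Cd A B} {n j N M s n' j' : ℕ} {χ : D.G →* Qa D.a D.b ℤ_[pp]}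
  {g : D.G} {μ : D.O}

variable (D) in
/-- the conductor is large enough for the level -/
def Lv (χ : D.G →* Qa D.a D.b ℤ_[pp]) (M n n' : ℕ) : Prop :=
  2 ≤ n' ∧ D.Tr (D.mp M n') (qc (toZModPow n) χ)

theorem ad (fm : D.Fm N M) (gs : D.Ga M s g) (h : 2 ≤ n') : D.Ad pp s (D.mp M n') := by
  refine ⟨mp_ne fm.ne _, ?_, ?_⟩
  · exact_mod_cast Nat.cast_dvd_cast (α := D.O) ((pow_dvd_pow pp h).mul_left M)
  · exact_mod_cast Nat.Coprime.cast (R := D.O) (show s.Coprime (6 * (M * pp ^ n')) from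
      .mul_right (gs.cop.coprime_dvd_right ⟨M * pp, by ring⟩) (.mul_right
        (gs.cop.coprime_dvd_right ⟨6 * pp, by ring⟩)
        ((gs.cop.coprime_dvd_right ⟨6 * M, by ring⟩).pow_right _)))

theorem ex_gp (D : Cd A B) :
    ∃ v, (X4M.TE.mt (hq D.el) D.c).mulVec v = v ∧ ∃ i, IsUnit (v i) := by
  obtain ⟨γ, G⟩ := Bt.ex_gp D.el (isc D)
  let b := X4M.TE.bs (hq D.el)
  refine ⟨b.repr γ, (LinearMap.toMatrix_mulVec_repr b b _ γ).trans (by rw [G.1]), ?_⟩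
  by_contra! k
  obtain ⟨v, hv⟩ := (PadicInt.norm_lt_one_iff_dvd _).1 (PadicInt.not_isUnit_iff.1 (k 0))
  obtain ⟨w, hw⟩ := (PadicInt.norm_lt_one_iff_dvd _).1 (PadicInt.not_isUnit_iff.1 (k 1))
  refine absurd (TM.cp_eq_zero_iff.2 ⟨b.equivFun.symm ![v, w], b.ext_elem
    (Fin.forall_fin_two.2 ⟨?_, ?_⟩)⟩) G.2 <;> simp [hv, hw]

theorem tr_zm {γ : X4M.TE.Tm A B} (G : Gp A B D.c γ) {Q : Pt A B} (h : pp ^ j • Q = 0) :
    ∃ k : ℕ, Q + ga D.c Q = k • TM.cp j γ := by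
  obtain ⟨x, rfl⟩ := TM.exists_cp (X4M.TE.hdiv (hq D.el)) h
  obtain ⟨a, ha⟩ := G.line D.el (isc D) (x := x + X4M.TE.rho A B D.c x) (by
    rw [map_add, ← Module.End.mul_apply, ← map_mul, X4M.TE.conj_sq (hq D.el) (isc D), map_one,
      add_comm]
    rfl)
  exact ⟨_, by rw [← TM.cp_smul, ← ha, map_add, X4M.TE.cp_rho]⟩

variable (cf : D.Cf)
include cf

theorem ex_n (cg : D.Cg N) (fm : D.Fm N M) (ps : D.Ps χ) :
    ∃ n₀, ∀ n n', n + n₀ ≤ n' → Lv D χ M n n' := by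
  obtain ⟨k, hk⟩ := fm.dv
  refine ⟨k + 2, fun n n' le => ⟨by omega, fun g h => ?_⟩⟩
  rw [cg.hf _ (mp_ne fm.ne _) (Nat.cast_dvd_cast
    (hk.trans (mul_dvd_mul_left M (pow_dvd_pow pp (by omega)))))] at h
  have e : D.mp M n' = pp ^ n * (M * pp ^ (n' - n) : ℕ) := by
    rw [Cd.mp, ← Nat.cast_pow, ← Nat.cast_mul, mul_left_comm, ← pow_add,
      Nat.add_sub_cancel' (by omega)]
  have a : D.Ac (D.mp M n') g 1 := ⟨h.1, h.2.trans (by rw [map_one]; rfl)⟩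
  have := ps n g 1 (Ep.ac_dvd cf (e ▸ mp_ne fm.ne _) (e ▸ a))
  rwa [star_one, map_one, mul_one] at this

theorem unr (fm : D.Fm N M) {i : GQ} (h : i ∈ In (Sb M : Finset ℕ)) : ∃ l P, Ov l P ∧ l ≠ pp ∧
    Inert P i ∧ i ∈ D.G ∧ ∀ n', i ∈ D.Hm (D.mp M n') := by
  obtain ⟨l, a, P, o, c⟩ := h
  have ne : l ≠ pp := fun e => a (e ▸ Finset.mem_insert_self _ _)
  obtain ⟨φ, f⟩ : ∃ φ, Fb l P φ := P022D.W.exists_phi o.1 o.2.1 o.2.2
  have k := (cf.spl l P φ o (fun d => a (fm.disc l o.1 d)) f).1 i c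
  refine ⟨l, P, o, ne, c, k, fun n' => in_hm cf o k c (mp_ne fm.ne _) (Ep.nP o (.mul_left ?_ ?_))⟩
  · exact (o.1.coprime_iff_not_dvd.2 fun d =>
      a (Finset.mem_insert_of_mem (Nat.mem_primeFactors.2 ⟨o.1, d, fm.ne⟩))).symm
  · exact ((Nat.coprime_primes pp_prime o.1).2 ne.symm).pow_left _

variable (rw : D.Rw) (fm : D.Fm N M) (ps : D.Ps χ) (gs : D.Ga M s g)
include rw fm ps gs

theorem y_coc (L : Lv D χ M n n') (g k : D.G) : D.yE χ μ s (D.mp M n') n (g * k) =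
    D.yE χ μ s (D.mp M n') n g + ga g (D.yE χ μ s (D.mp M n') n k) := by
  rw [Cd.yE, (rw.co n s _ _ _ _ (ad fm gs L.1) L.2).coc, mul_add, pt_add cf, mul_left_comm,
    pt_ga cf ps]
  rfl

theorem z_coc (L : Lv D χ M n n') (g k : GQ) : D.zE χ μ s (D.mp M n') n (g * k) =
    D.zE χ μ s (D.mp M n') n g + ga g (D.zE χ μ s (D.mp M n') n k) :=
  xt_coc cf (fun g k => by
    rw [cg_mul cf, y_coc cf rw fm ps gs L, y_coc cf rw fm ps gs L, map_add, map_add, ga_cg cf]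
    abel) (fun g => by rw [cg_cg cf, map_add, ga_cc cf, add_comm]) g k

/-- **the zeta element is a framed cocycle** -/
theorem zmem (L : Lv D χ M n n') : D.zE χ μ s (D.mp M n') n ∈ Z0 A B (Sb M) D.c ∧
    pp ^ n • D.zE χ μ s (D.mp M n') n = 0 := by
  have co := z_coc (μ := μ) cf rw fm ps gs L
  have tor (g) : pp ^ n • D.zE χ μ s (D.mp M n') n g = 0 := by
    obtain ⟨g, rfl | rfl⟩ := two cf g
    · rw [Cd.zE, xt_G, nsmul_add, ← map_nsmul, Cd.yE, Cd.yE, pt_tor cf, pt_tor cf, map_zero, add_zero]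
    · rw [Cd.zE, xt_c cf, nsmul_add, ← map_nsmul, Cd.yE, Cd.yE, pt_tor cf, pt_tor cf, map_zero,
        add_zero]
  have z0 (g : D.G) (h : D.zc s (D.mp M n') (algebraMap (Zn n) _) (qc (toZModPow n) χ) g = 0)
      (h' : D.zc s (D.mp M n') (algebraMap (Zn n) _) (qc (toZModPow n) χ) (D.cg g) = 0) :
      D.zE χ μ s (D.mp M n') n g = 0 := by
    rw [Cd.zE, xt_G, Cd.yE, Cd.yE, h, h', mul_zero, pt_zero cf, map_zero, add_zero]
  obtain ⟨W, o, w⟩ := (rw.co n s _ _ (algebraMap (Zn n) _) _ (ad fm gs L.1) L.2).lc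
  refine ⟨⟨(IsLocallyConstant.iff_eventually_eq _).2 fun g₀ => ?_, co, ⟨n, tor⟩, fun i h => ?_, ?_⟩,
    funext tor⟩
  · have o' : IsOpen {x : GQ | x ∈ D.G ∧ x ∈ W ∧ D.c * x * D.c ∈ W} :=
      cf.opn.inter (o.inter (o.preimage (f := fun x => D.c * x * D.c) (by fun_prop)))
    filter_upwards [(o'.preimage (continuous_const_mul g₀⁻¹)).mem_nhds
      (show g₀ ∈ _ by simp [cf.c2, one_mem])] with x hx
    have := co g₀ (g₀⁻¹ * x)
    have e : D.zE χ μ s (D.mp M n') n (g₀⁻¹ * x) = 0 :=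
      z0 ⟨_, hx.1⟩ (w _ hx.2.1) (w _ (by rw [cg_val cf]; exact hx.2.2))
    rwa [mul_inv_cancel_left, e, map_zero, add_zero] at this
  · have u (i : D.G) (h : i.1 ∈ In (Sb M : Finset ℕ)) :
        D.zc s (D.mp M n') (algebraMap (Zn n) _) (qc (toZModPow n) χ) i = 0 :=
      let ⟨l, P, o, ne, c, _, m⟩ := unr cf fm h
      rw.unr n s _ _ _ _ l P i (ad fm gs L.1) L.2 o ne c (m _)
    obtain ⟨-, -, -, -, -, k, -⟩ := unr cf fm h
    refine z0 ⟨i, k⟩ (u _ h) (u _ ?_)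
    rw [cg_val cf]
    simpa only [inv_eq_of_mul_eq_one_right cf.c2] using P022K.G2.Hb.in_conj h D.c
  · have e := co 1 1
    have e' := xt_c cf (fun g => D.yE χ μ s (D.mp M n') n g +
      ga D.c (D.yE χ μ s (D.mp M n') n (D.cg g))) 1
    rw [mul_one, ga_one, left_eq_add] at e
    rw [Subgroup.coe_one, one_mul] at e'
    exact e'.trans ((xt_G (D := D) _ 1).symm.trans e)

omit ps in
theorem zc_cmp (h : j ≤ n) (L : Lv D χ M n n') (L' : Lv D χ M j j') :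
    D.Ch (D.ak (algebraMap (Zn j) _) (qc (toZModPow j) χ))
      (fun g => qm _ _ (cs h) (D.zc s (D.mp M n') (algebraMap (Zn n) _) (qc (toZModPow n) χ) g))
      (D.zc s (D.mp M j') (algebraMap (Zn j) _) (qc (toZModPow j) χ)) := by
  have c (y) : cs h (toZModPow n y) = toZModPow j y :=
    DFunLike.congr_fun (PadicInt.zmod_cast_comp_toZModPow j n h) y
  have e1 : (qm D.a D.b (cs h)).toMonoidHom.comp (qc (toZModPow n) χ) = qc (toZModPow j) χ :=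
    MonoidHom.ext fun g => QuadraticAlgebra.ext (c _) (c _)
  have e2 : (qm D.a D.b (cs h)).comp (algebraMap (Zn n) _) = (algebraMap (Zn j) _).comp (cs h) :=
    RingHom.ext fun x => QuadraticAlgebra.ext rfl (map_zero (cs h))
  have t : D.Tr (D.mp M n') (qc (toZModPow j) χ) := fun g k => by
    rw [← e1, MonoidHom.comp_apply, L.2 g k, map_one]
  have dv {a b : ℕ} (le : a ≤ b) (a2 : 2 ≤ a) (t : D.Tr (D.mp M a) (qc (toZModPow j) χ)) :=
    rw.dv j s _ (D.mp M b) _ (algebraMap (Zn j) _) _ (ad fm gs a2) (ad fm gs (a2.trans le))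
      (Nat.cast_dvd_cast (mul_dvd_mul_left M (pow_dvd_pow pp le))) (fun π p d => by
        simp only [Cd.mp, Nat.cast_mul, Nat.cast_pow] at d ⊢
        exact (p.dvd_or_dvd d).elim (·.mul_right _) fun d =>
          ((p.dvd_of_dvd_pow d).trans (dvd_pow_self _ (by omega))).mul_left _) t
  obtain ⟨w, hw⟩ := rw.lev n j h s _ _ (algebraMap (Zn j) _) _ (ad fm gs L.1) t
  simp only [rw.map n s _ _ _ _ _ _ _ (mp_ne fm.ne n'), e1, e2]
  rcases le_total n' j' with le | le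
  · obtain ⟨v, hv⟩ := dv le L.1 t
    exact ⟨w - v, fun g => by linear_combination hw g - hv g⟩
  · obtain ⟨v, hv⟩ := dv le L'.1 L'.2
    exact ⟨w + v, fun g => by linear_combination hw g + hv g⟩

/-- **compatibility of the zeta elements** -/
theorem zcmp {γ : X4M.TE.Tm A B} (G : Gp A B D.c γ) (h : j ≤ n) (L : Lv D χ M n n')
    (L' : Lv D χ M j j') : pp ^ (n - j) • D.zE χ μ s (D.mp M n') n - D.zE χ μ s (D.mp M j') j ∈
      AddSubgroup.zmultiples (dd A B (TM.cp j γ)) := by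
  obtain ⟨w, hw⟩ := zc_cmp cf rw fm gs h L L'
  obtain ⟨k, hk⟩ := tr_zm G (pt_tor cf (rd _ _ j μ * w))
  generalize hQ : D.pt j (rd _ _ j μ * w) = Q at hk
  have y (g : D.G) : pp ^ (n - j) • D.yE χ μ s (D.mp M n') n g - D.yE χ μ s (D.mp M j') j g =
      ga g Q - Q := by
    rw [Cd.yE, Cd.yE, pt_cs cf h, map_mul, cs_rd, ← pt_sub cf, ← mul_sub, hw, ← hQ, ← pt_ga cf ps,
      ← pt_sub cf]
    exact congrArg _ (by ring)
  have t (g : D.G) : pp ^ (n - j) • (D.yE χ μ s (D.mp M n') n g +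
      ga D.c (D.yE χ μ s (D.mp M n') n (D.cg g))) - (D.yE χ μ s (D.mp M j') j g +
      ga D.c (D.yE χ μ s (D.mp M j') j (D.cg g))) = ga g (Q + ga D.c Q) - (Q + ga D.c Q) := by
    rw [nsmul_add, add_sub_add_comm, ← map_nsmul, ← map_sub, y, y, map_sub, ga_cg cf, map_add,
      add_sub_add_comm]
  refine ⟨(k : ℤ), funext fun g => ?_⟩
  show ((k : ℤ) • dd A B _) g = pp ^ (n - j) • D.zE χ μ s _ n g - D.zE χ μ s _ j g
  rw [natCast_zsmul, ← map_nsmul, ← hk, Bt.dd_apply]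
  obtain ⟨g, rfl | rfl⟩ := two cf g
  · rw [Cd.zE, Cd.zE, xt_G, xt_G, t]
  · rw [Cd.zE, Cd.zE, xt_c cf, xt_c cf, t, ga_mul, map_add (ga D.c), ga_cc cf, add_comm (ga D.c Q)]

end Vale.Agent.P014X.Pz1
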