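import Vale.Agent.P014X.Fm.Psi
import Vale.Agent.P014X.Cm.Cf1
import Vale.Agent.P014U.Pp.Lcb

/-! # P014X: coordinates of the points of order a power of the prime -/

set_option autoImplicit false
set_option linter.all false

open QuadraticAlgebra Function
open scoped Classical

noncomputable section

namespace Vale.Agent.P014X.Pts

open Vale.Agent.P022 (Qb GQ)
open Vale.Agent.P014U
open Vale.Agent.P014U.Dr (Zn)
open Vale.Agent.P014U.Pp (ec)
open P004M.TE (Pt ga ga_mul ga_one)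
open PadicInt (toZModPow)
open Cf0 Fm.Psi

variable [Pp] {A B : ℤ} (D : Cd A B)

/-- the order modulo `pp ^ n` -/
abbrev On (n : ℕ) : Type := Qa D.a D.b (Zn n)

/-- the reduction -/
abbrev rd (n : ℕ) : D.O →+* On D n := qm _ _ (Int.castRingHom (Zn n))

/-- the action on the points killed by `pp ^ n` -/
abbrev Ph (χ : D.G →* Qa D.a D.b ℤ_[pp]) (n : ℕ) : D.G →* On D n :=
  D.ak (algebraMap (Zn n) _) (qc (toZModPow n) χ)

variable {D} {n j : ℕ} {χ : D.G →* Qa D.a D.b ℤ_[pp]}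

theorem rd_lift (x : On D n) : rd D n ⟨x.re.val, x.im.val⟩ = x := by
  have := NeZero.mk (pow_ne_zero n pp_ne)
  exact QuadraticAlgebra.ext (by simp [qm]) (by simp [qm])

theorem rd_sur (x : On D n) : ∃ y, rd D n y = x := ⟨_, rd_lift x⟩

theorem rd_eq {x y : D.O} : rd D n x = rd D n y ↔ (pp : D.O) ^ n ∣ x - y :=
  qm_eq.trans (by rw [Nat.cast_pow])

theorem pt_rd (x : D.O) : D.pt n (rd D n x) = D.act x (D.tp (pp ^ n)) :=
  (act_eq D (pw_ne n)).2 (rd_eq.1 (rd_lift _))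

variable (D n) in
/-- the coordinates are additive -/
def pH : On D n →+ Pt A B := AddMonoidHom.mk' (D.pt n) fun x y => by
  obtain ⟨x, rfl⟩ := rd_sur x
  obtain ⟨y, rfl⟩ := rd_sur y
  rw [← map_add, pt_rd, pt_rd, pt_rd, map_add]
  rfl

theorem pH_ap (x : On D n) : pH D n x = D.pt n x := rfl

theorem pt_inj : Injective (D.pt n) := fun x y e => by
  obtain ⟨x, rfl⟩ := rd_sur x
  obtain ⟨y, rfl⟩ := rd_sur y
  rw [pt_rd, pt_rd] at e
  exact rd_eq.2 ((act_eq D (pw_ne n)).1 e)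

theorem pt_mul (e : D.O) (x : On D n) : D.pt n (rd D n e * x) = D.act e (D.pt n x) := by
  obtain ⟨x, rfl⟩ := rd_sur x
  rw [← map_mul, pt_rd, pt_rd, act_mul]

omit [Pp] in
theorem act_nat (k : ℕ) (T : Pt A B) : D.act k T = k • T := by
  rw [map_natCast]
  rfl

theorem pt_nat (k : ℕ) (x : On D n) : D.pt n (k • x) = k • D.pt n x := map_nsmul (pH D n) k x

theorem pt_smul (k : Zn n) (x : On D n) : D.pt n (k • x) = k.val • D.pt n x := by
  have := NeZero.mk (pow_ne_zero n pp_ne)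
  rw [← pt_nat, ← Nat.cast_smul_eq_nsmul (Zn n), ZMod.natCast_zmod_val]

theorem on_tor (x : On D n) : pp ^ n • x = 0 := by
  rw [← Nat.cast_smul_eq_nsmul (Zn n), ZMod.natCast_self, zero_smul]

theorem pt_tor (x : On D n) : pp ^ n • D.pt n x = 0 := by
  rw [← pt_nat, on_tor]
  exact (pH D n).map_zero

theorem pt_sur {T : Pt A B} (h : pp ^ n • T = 0) : ∃ x, D.pt n x = T := by
  obtain ⟨x, e⟩ := (zero_iff D (pw_ne n)).1 (show D.act (pp ^ n) T = 0 by
    rw [← Nat.cast_pow, act_nat, h])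
  exact ⟨_, (pt_rd x).trans e.symm⟩

theorem pt_lev (le : j ≤ n) (x : On D n) : pp ^ (n - j) • D.pt n x =
    D.pt j (qm _ _ (ZMod.castHom (pow_dvd_pow pp le) (Zn j)) x) := by
  obtain ⟨x, rfl⟩ := rd_sur x
  obtain ⟨k, rfl⟩ := Nat.exists_eq_add_of_le le
  rw [show qm _ _ (ZMod.castHom (pow_dvd_pow pp le) (Zn j)) (rd D _ x) = rd D j x from
    QuadraticAlgebra.ext (map_intCast _ _) (map_intCast _ _), pt_rd, pt_rd, Nat.add_sub_cancel_left,
    ← dv D _ (pw_ne j) _ (pw_ne k), ← pow_add, ← act_nat, Nat.cast_pow, ← act_mul, ← act_mul,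
    mul_comm]

theorem rd_star (x : D.O) : rd D n (star x) = star (rd D n x) := qm_star _ _

theorem ec_ac {g : GQ} {β : D.O} (a : D.Ac (pp ^ n) g β) :
    algebraMap (Zn n) (On D n) (ec n g) = rd D n β * star (rd D n β) := by
  rw [P014U.Pp.Lcb.ec_eq (det D (pp ^ n) g β (pow_ne_zero n pp_ne) (by rwa [Nat.cast_pow])),
    map_natCast, ← rd_star, ← map_mul, ← nm_star, map_natCast]

theorem ph_eq (ps : D.Ps χ) {g : D.G} {β : D.O} (a : D.Ac (pp ^ n) g β) :
    Ph D χ n g = rd D n β := by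
  change algebraMap (Zn n) (On D n) (ec n g) * qm _ _ (toZModPow n) (χ g) = _
  rw [ec_ac a, ← rd_star, mul_assoc, mul_comm (rd D n (star β)), ps n g β a, mul_one]

theorem ga_pt (ps : D.Ps χ) (g : D.G) (x : On D n) :
    ga g (D.pt n x) = D.pt n (Ph D χ n g * x) := by
  obtain ⟨β, a⟩ := ac_ex (pw_ne (D := D) n) g.2
  rw [ph_eq ps a, pt_mul, ac_all (pw_ne n) a (by rw [← Nat.cast_pow, act_nat, pt_tor])]

theorem ga_c (x : On D n) : ga D.c (D.pt n x) = D.pt n (rd D n D.η * star x) := by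
  obtain ⟨x, rfl⟩ := rd_sur x
  rw [← rd_star, ← map_mul, pt_rd, pt_rd, sem D _ (c_not D), ctp D _ (pw_ne n), ← act_mul, star_pow,
    star_natCast, mul_comm]

omit [Pp] in
theorem cg_val (g : D.G) : (D.cg g).1 = D.c * g * D.c := by
  have : D.c * g * D.c ∈ D.G := by
    simpa only [inv_eq_of_mul_eq_one_right (c2 D)] using (nrm D).conj_mem g g.2 D.c
  rw [Cd.cg, dif_pos this]

omit [Pp] in
theorem cg_mul (g h : D.G) : D.cg (g * h) = D.cg g * D.cg h := Subtype.ext <| by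
  simp only [Subgroup.coe_mul, cg_val, mul_assoc]
  rw [← mul_assoc D.c D.c, c2, one_mul]

omit [Pp] in
theorem cg_cg (g : D.G) : D.cg (D.cg g) = g := Subtype.ext <| by
  simp only [cg_val, mul_assoc, c2, mul_one]
  rw [← mul_assoc, c2, one_mul]

theorem eta_star : rd D n D.η * star (rd D n D.η) = 1 := pt_inj <| by
  have := ga_c (D := D) (n := n) (rd D n D.η * star 1)
  rw [← ga_c, ← ga_mul, c2, ga_one] at this
  simpa using this.symm

theorem ac_cg {g : D.G} {β : D.O} (a : D.Ac (pp ^ n) g β) : D.Ac (pp ^ n) (D.cg g) (star β) := by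
  refine ⟨(D.cg g).2, ?_⟩
  have k : ∀ T, pp ^ n • T = 0 → ga g T = D.act β T := fun T h =>
    ac_all (pw_ne n) a (by rw [← Nat.cast_pow, act_nat, h])
  rw [cg_val, ga_mul, ga_mul, k _ (by
    rw [← map_nsmul, ← act_nat, Nat.cast_pow, (ker D _ (pw_ne n) _).2 dvd_rfl, map_zero]),
    sem D _ (c_not D), ← ga_mul, c2, ga_one]

theorem ph_cg (ps : D.Ps χ) (g : D.G) : Ph D χ n (D.cg g) = star (Ph D χ n g) := by
  obtain ⟨β, a⟩ := ac_ex (pw_ne (D := D) n) g.2
  rw [ph_eq ps a, ph_eq ps (ac_cg a), rd_star]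

theorem cj (ps : D.Ps χ) : D.Cj χ := fun g => qm_ext fun n => by
  obtain ⟨β, a⟩ := ac_ex (pw_ne (D := D) n) g.2
  have h1 := ps n _ _ (ac_cg a)
  have h2 := congrArg star (ps n g β a)
  rw [star_mul', ← qm_star, ← qm_star, star_one] at h2
  exact left_inv_eq_right_inv h1 ((mul_comm _ _).trans h2)

/-- the conductor -/
theorem tr (ps : D.Ps χ) {N : ℕ} (cg : D.Cg N) {m : D.O} (m0 : m ≠ 0) (d : (N : D.O) ∣ m)
    (d' : (pp : D.O) ^ n ∣ m) : D.Tr m (qc (toZModPow n) χ) := fun g h => by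
  rw [cg.hf m m0 d] at h
  simpa using ps n g 1 (ac_dvd m0 d' ((mem_Hf D).1 h))

theorem tr_mp (ps : D.Ps χ) {N M : ℕ} (cg : D.Cg N) (fm : D.Fm N M) : ∃ n₀, 2 ≤ n₀ ∧ ∀ n n',
    n + n₀ ≤ n' → D.Tr (D.mp M n') (qc (toZModPow n) χ) := by
  obtain ⟨k, d⟩ := fm.dv
  refine ⟨k + 2, by omega, fun n n' le => tr ps cg
    (nat_ne (mul_ne_zero fm.ne (pow_ne_zero _ pp_ne))) (Nat.cast_dvd_cast (d.trans
      (mul_dvd_mul_left M (pow_dvd_pow _ (by omega))))) ?_⟩
  rw [← Nat.cast_pow]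
  exact Nat.cast_dvd_cast ((pow_dvd_pow _ (by omega)).mul_left M)

theorem pt_iff {T : Pt A B} : (∃ x, D.pt n x = T) ↔ pp ^ n • T = 0 :=
  ⟨fun ⟨x, e⟩ => e ▸ pt_tor x, pt_sur⟩

omit [Pp] in
theorem eta_int : D.η * star D.η = 1 := by
  obtain ⟨x, e⟩ := (eu D).exists_right_inv
  have := Nat.eq_one_of_mul_eq_one_right ((nm_mul D _ _).symm.trans
    ((congrArg D.nm e).trans (by simp [Cd.nm])))
  rw [← nm_star, this, Nat.cast_one]

theorem cj_map {a b : ℤ} {R S : Type} [CommRing R] [CommRing S] {ξ : D.G →* Qa a b R} (h : D.Cj ξ)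
    (f : R →+* S) : D.Cj (qc f ξ) := fun g => (congrArg (qm a b f) (h g)).trans (qm_star f _)

theorem cj_n (ps : D.Ps χ) : D.Cj (qc (toZModPow n) χ) := cj_map (cj ps) _

/-! ### eigenlines -/

section

omit [Pp]

variable {a b : ℤ} {R : Type} [CommRing R]

/-- primitive vectors -/
def Pv (x : Qa a b R) : Prop := IsUnit x.re ∨ IsUnit x.im

/-- **the eigenline** -/
theorem line (h2 : IsUnit (2 : R)) {u γ x : Qa a b R} (hu : IsUnit u) (e : u * star γ = γ)
    (p : Pv γ) (h : u * star x = x) : ∃ k : R, x = k • γ := by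
  have k : star x * γ = star γ * x := hu.mul_left_cancel (by
    rw [← mul_assoc, ← mul_assoc, e, h, mul_comm])
  have k' : x.re * γ.im = x.im * γ.re := h2.mul_left_cancel (by
    have := congrArg im k
    simp only [im_mul, re_star, im_star] at this
    linear_combination this)
  obtain ⟨v, hv⟩ | ⟨v, hv⟩ := p
  · refine ⟨x.re * v⁻¹, QuadraticAlgebra.ext ?_ ?_⟩
    · rw [re_smul, smul_eq_mul, ← hv, Units.inv_mul_cancel_right]
    · rw [im_smul, smul_eq_mul, mul_right_comm, k', ← hv, Units.mul_inv_cancel_right]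
  · refine ⟨x.im * v⁻¹, QuadraticAlgebra.ext ?_ ?_⟩
    · rw [re_smul, smul_eq_mul, mul_right_comm, ← k', ← hv, Units.mul_inv_cancel_right]
    · rw [im_smul, smul_eq_mul, ← hv, Units.inv_mul_cancel_right]

end

theorem unit_int {k : ℤ} (h : ¬ (pp : ℤ) ∣ k) : IsUnit (k : Zn n) :=
  (ZMod.coe_int_isUnit_iff_isCoprime k _).2 (by
    rw [Nat.cast_pow]
    exact ((Nat.prime_iff_prime_int.1 Fact.out).irreducible.coprime_iff_not_dvd.2 h).pow_left)

theorem unit_two : IsUnit (2 : Zn n) := by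
  exact_mod_cast unit_int (n := n) (k := (2 : ℕ)) fun h => Pp.odd ((Nat.prime_dvd_prime_iff_eq
    Fact.out Nat.prime_two).1 (Int.natCast_dvd_natCast.1 h))

theorem line_int {a b : ℤ} {u γ x : Qa a b (Zn n)} (hu : IsUnit u) (e : u * star γ = γ)
    (p : Pv γ) (h : u * star x = x) : ∃ k : ℤ, x = k • γ := by
  obtain ⟨k, rfl⟩ := line unit_two hu e p h
  obtain ⟨k, rfl⟩ := ZMod.intCast_surjective k
  exact ⟨k, Int.cast_smul_eq_zsmul _ _ _⟩

theorem pv_rd {μ : D.O} (h : ¬ (pp : D.O) ∣ μ) : Pv (rd D n μ) :=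
  (not_and_or.1 (mt dvd_iff.2 h)).imp unit_int unit_int

theorem unit_eta : IsUnit (rd D n D.η) := (eu D).map _

/-- the multiplier spans the minus line -/
theorem mu_pt {μ : D.O} (h : D.Mu μ) :
    -rd D n D.η * star (rd D n μ) = rd D n μ ∧ Pv (rd D n μ) :=
  ⟨by rw [← rd_star, neg_mul, ← map_mul, mul_comm, h.1, map_neg, neg_neg], pv_rd h.2⟩

/-- the generator of the plus line -/
theorem gp_pt {γ : X4M.TE.Tm A B} (h : Bt.Gp A B D.c γ) (n : ℕ) :
    ∃ y, D.pt n y = P027M.K.TM.cp n γ ∧ rd D n D.η * star y = y ∧ Pv y := by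
  obtain ⟨y, e⟩ := pt_sur (D := D) (P027M.K.TM.pow_smul_cp γ n)
  refine ⟨y, e, pt_inj (by rw [← ga_c, e, ← X4M.TE.cp_rho, h.1]), ?_⟩
  obtain ⟨y, rfl⟩ := rd_sur y
  rcases n with _ | n
  · exact .inl (@isUnit_of_subsingleton _ _ (ZMod.subsingleton_iff.2 (pow_zero _)) _)
  refine pv_rd fun ⟨z, d⟩ => h.2 ?_
  rw [← P027M.K.TM.cp_add γ 1 n, add_comm, ← e, d, map_mul, map_natCast, ← nsmul_eq_mul, pt_nat,
    smul_smul, ← pow_succ, pt_tor]

end Vale.Agent.P014X.Pts
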