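import Vale.Agent.P014X.St2
import Vale.Agent.P014X.Cm.Cf0

/-! # P014X: the character of the Tate module and the Artin symbol (rows `PSI`, `GAX`) -/

set_option autoImplicit false
set_option linter.all false

open QuadraticAlgebra
open scoped Classical

noncomputable section

namespace Vale.Agent.P014X.Fm

open Vale.Agent.P022 (Qb GQ)
open Vale.Agent.P014U
open Vale.Agent.P014U.Dr (Zn)
open P004M.TE (Pt ga)
open PadicInt (toZModPow)
open Cf0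

variable [Pp]

namespace Psi

variable {A B : ℤ} {D : Cd A B} {m m' β : D.O} {g : GQ}

theorem ac_dvd (h : m' ≠ 0) (d : m ∣ m') (a : D.Ac m' g β) : D.Ac m g β := by
  obtain ⟨x, rfl⟩ := d
  refine ⟨a.1, ?_⟩
  rw [← dv D m (left_ne_zero_of_mul h) x (right_ne_zero_of_mul h), lin D g a.1, a.2, ← act_mul,
    ← act_mul, mul_comm x β]

theorem nat_ne {n : ℕ} (h : n ≠ 0) : (n : D.O) ≠ 0 := fun e =>
  h (by exact_mod_cast congrArg QuadraticAlgebra.re e)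

theorem pw_ne (n : ℕ) : (pp : D.O) ^ n ≠ 0 := by
  exact_mod_cast nat_ne (D := D) (pow_ne_zero n (Fact.out : pp.Prime).ne_zero)

theorem dvd_iff {a b : ℤ} {n : ℕ} {x : Qa a b ℤ} :
    (n : Qa a b ℤ) ∣ x ↔ (n : ℤ) ∣ x.re ∧ (n : ℤ) ∣ x.im :=
  ⟨fun ⟨y, e⟩ => ⟨⟨y.re, by simp [e]⟩, ⟨y.im, by simp [e]⟩⟩, fun ⟨⟨u, e⟩, ⟨v, e'⟩⟩ =>
    ⟨⟨u, v⟩, QuadraticAlgebra.ext (by simp [e]) (by simp [e'])⟩⟩

theorem qm_eq {a b : ℤ} {n : ℕ} {x y : Qa a b ℤ} :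
    qm a b (Int.castRingHom (ZMod n)) x = qm a b (Int.castRingHom (ZMod n)) y ↔
      (n : Qa a b ℤ) ∣ x - y := by
  rw [dvd_iff, QuadraticAlgebra.ext_iff]
  exact and_congr ((ZMod.intCast_eq_intCast_iff_dvd_sub _ _ _).trans dvd_sub_comm)
    ((ZMod.intCast_eq_intCast_iff_dvd_sub _ _ _).trans dvd_sub_comm)

theorem qm_star {a b : ℤ} {R S : Type} [CommRing R] [CommRing S] (f : R →+* S) (x : Qa a b R) :
    qm a b f (star x) = star (qm a b f x) :=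
  QuadraticAlgebra.ext (by simp [qm]) (by simp [qm])

theorem qm_ext {a b : ℤ} {x y : Qa a b ℤ_[pp]}
    (h : ∀ n, qm a b (toZModPow n) x = qm a b (toZModPow n) y) : x = y :=
  QuadraticAlgebra.ext (PadicInt.ext_of_toZModPow.1 fun n => congrArg re (h n))
    (PadicInt.ext_of_toZModPow.1 fun n => congrArg im (h n))

theorem ex_lim (g : D.G) : ∃ x : Qa D.a D.b ℤ_[pp], ∀ (n : ℕ) β, D.Ac (pp ^ n) g β →
    qm _ _ (toZModPow n) x = qm _ _ (Int.castRingHom (Zn n)) β := by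
  choose f hf using fun n : ℕ => ac_ex (pw_ne (D := D) n) g.2
  have c (n : ℕ) := dvd_iff.1 (show ((pp ^ n : ℕ) : D.O) ∣ f (n + 1) - f n by
    exact_mod_cast ac_uniq (pw_ne n) (ac_dvd (pw_ne _) (pow_dvd_pow _ n.le_succ) (hf _)) (hf n))
  have c1 (n : ℕ) : (pp : ℤ) ^ n ∣ (f (n + 1)).re - (f n).re := by exact_mod_cast (c n).1
  have c2 (n : ℕ) : (pp : ℤ) ^ n ∣ (f (n + 1)).im - (f n).im := by exact_mod_cast (c n).2
  choose x hx using (⟨_, PadicInt.toZModPow_ofIntSeq_of_pow_dvd_sub _ pp c1⟩ :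
    ∃ x, ∀ n, toZModPow n x = (f n).re)
  choose y hy using (⟨_, PadicInt.toZModPow_ofIntSeq_of_pow_dvd_sub _ pp c2⟩ :
    ∃ x, ∀ n, toZModPow n x = (f n).im)
  refine ⟨⟨x, y⟩, fun n β h => .trans (b := qm _ _ (Int.castRingHom (Zn n)) (f n))
    (QuadraticAlgebra.ext (hx n) (hy n)) (qm_eq.2 ?_)⟩
  exact_mod_cast ac_uniq (pw_ne n) (hf n) h

/-- the character of the Tate module -/
theorem ex_ch (D : Cd A B) : ∃ ψ : D.G →* Qa D.a D.b ℤ_[pp], ∀ (n : ℕ) (g : D.G) β,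
    D.Ac (pp ^ n) g β → qm _ _ (toZModPow n) (ψ g) = qm _ _ (Int.castRingHom (Zn n)) β := by
  choose F hF using ex_lim (D := D)
  refine ⟨⟨⟨F, qm_ext fun n => ?_⟩, fun g h => qm_ext fun n => ?_⟩, fun n g => hF g n⟩
  · rw [hF 1 n 1 ac_one, map_one, map_one]
  · obtain ⟨β, a⟩ := ac_ex (pw_ne (D := D) n) g.2
    obtain ⟨γ, b⟩ := ac_ex (pw_ne (D := D) n) h.2
    rw [map_mul, hF g n _ a, hF h n _ b, hF (g * h) n _ (ac_mul a b), map_mul]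

theorem closed (h : m ≠ 0) (T : Set D.O) : IsClosed {g | ∃ β ∈ T, D.Ac m g β} := by
  refine ⟨isOpen_iff_forall_mem_open.2 fun g n => ⟨(fun x => x⁻¹ * g) ⁻¹' D.Hf m,
    fun x k ⟨β, b, a⟩ => n ⟨β, b, ?_⟩, (oH D m h).preimage (by fun_prop), by simp⟩⟩
  simpa using ac_mul a (mem_Hf D |>.1 k)

end Psi

open Psi

theorem psi : PSI := fun A B D _ => by
  obtain ⟨ψ, h⟩ := ex_ch D
  refine ⟨⟨⟨fun g => star (ψ g⁻¹), by simp⟩, fun g k => by simp [mul_comm]⟩, fun n g β a => ?_⟩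
  change qm _ _ _ (star (ψ g⁻¹)) * _ = 1
  rw [qm_star, qm_star, ← h n g β a, ← star_mul, ← map_mul, ← map_mul, mul_inv_cancel, map_one,
    map_one, star_one]

theorem gax : GAX := fun A B D cf M s M0 lt cop => by
  have ne (n : ℕ) : D.mp M n ≠ 0 :=
    nat_ne (mul_ne_zero M0 (pow_ne_zero n (Fact.out : pp.Prime).ne_zero))
  obtain ⟨g, hg⟩ := IsCompact.nonempty_iInter_of_sequence_nonempty_isCompact_isClosed
    (fun n => {g | ∃ β ∈ {β : D.O | ∃ ζ, IsUnit ζ ∧ ζ * s = β}, D.Ac (D.mp M n) g β})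
    (fun n g ⟨β, b, a⟩ => ⟨β, b, ac_dvd (ne _) (Nat.cast_dvd_cast
      (mul_dvd_mul_left M (pow_dvd_pow _ n.le_succ))) a⟩)
    (fun n => let ⟨g, ζ, u, a⟩ := cf.onto _ (ne n) s (Nat.Coprime.cast (.mul_right
        (cop.coprime_dvd_right ⟨6 * pp, by ring⟩)
        ((cop.coprime_dvd_right ⟨6 * M, by ring⟩).pow_right n)))
      ⟨g, _, ⟨ζ, u, rfl⟩, a⟩) (closed (ne 0) _).isCompact fun n => closed (ne n) _
  rw [Set.mem_iInter] at hg
  exact ⟨⟨g, (hg 0).choose_spec.2.1⟩, lt, cop, fun n =>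
    let ⟨_, ⟨ζ, u, e⟩, a⟩ := hg n; ⟨ζ, u, e ▸ a⟩⟩

end Vale.Agent.P014X.Fm
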