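import Vale.Agent.P014X.Fm.St
import Vale.Agent.P014X.Fm.Crk

/-! # P014X, block FAM: the row `ANX` -/

set_option autoImplicit false
set_option linter.all false

open IsLocalRing
open scoped Classical

noncomputable section

namespace Vale.Agent.P014X.Fm

open Vale.Agent.P014U
open PadicInt (toZModPow)
open Pow (pz Jq pw pz_fin)

variable [Pp]

namespace Ax

variable {k : ℕ} (C : Cr k)

/-- the exponent -/
def ex (k : ℕ) (s : Multiplicative ℤ_[pp]) : ℕ := (toZModPow (k + 1) s.toAdd).val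

/-- the powers of the root of unity -/
def zt : Multiplicative ℤ_[pp] →* C.O where
  toFun s := C.pb.gen ^ ex k s
  map_one' := by simp [ex]
  map_mul' s t := by
    rw [← pow_add]
    refine pow_eq_pow_of_modEq ((ZMod.natCast_eq_natCast_iff _ _ _).1 ?_) C.pw
    simp [ex]

theorem ex_dvd {s : Multiplicative ℤ_[pp]} {j : ℕ} (le : j ≤ k + 1) :
    pp ^ j ∣ ex k s ↔ (pp : ℤ_[pp]) ^ j ∣ s.toAdd := by
  rw [← ZMod.natCast_eq_zero_iff, ← Ideal.mem_span_singleton, ← PadicInt.ker_toZModPow,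
    RingHom.mem_ker, ← PadicInt.zmod_cast_comp_toZModPow j (k + 1) le, RingHom.comp_apply,
    ZMod.castHom_apply, ex, ZMod.natCast_val]

variable {a b : ℤ}

theorem hp : (pp : C.O) ∈ maximalIdeal C.O := C.mi ▸ Ideal.mem_span_singleton.2 C.dvp

theorem h1 : algebraMap C.O (Qa a b C.O) C.pb.gen - 1 ∈ Jq a b (maximalIdeal C.O) :=
  ⟨C.mi ▸ Ideal.mem_span_singleton.2 (dvd_of_eq (by simp [QuadraticAlgebra.re_one])),
    by simp [QuadraticAlgebra.im_one]⟩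

theorem pz_eq [IsAdicComplete (maximalIdeal C.O) C.O] (s : Multiplicative ℤ_[pp]) :
    pz (maximalIdeal C.O) (algebraMap C.O (Qa a b C.O) C.pb.gen) s.toAdd =
      algebraMap C.O _ (zt C s) := by
  rw [pz_fin (hp C) (h1 C) (k := k + 1) (n := ex k s) (by rw [← map_pow, C.pw, map_one])
    (ZMod.natCast_zmod_val _).symm, ← map_pow]
  rfl

variable {C} {A B : ℤ} {D : Cd A B} {M : ℕ} {χ : D.G →* Qa a b C.O} (x : Bd D C a b M χ)

theorem can {r : C.O} (h : r • x.lam = x.lam) : r = 1 :=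
  (isUnit_of_mul_isUnit_left x.lu).mul_right_cancel
    ((congrArg QuadraticAlgebra.im h).trans (one_mul _).symm)

theorem one {g : D.G} (h : x.φ g = 1) : x.φ₁ g = 1 := can x (by rw [← x.lx, h, mul_one])

theorem cub (g : D.G) : x.φ₁ g ^ pp = 1 := by
  rw [← map_pow]
  refine one x ?_
  rw [map_pow]
  obtain e | ⟨e, u, v⟩ := x.gx.cub g
  · rw [e, one_pow]
  · rw [e]
    linear_combination (x.φ g - 1) * (x.φ g * v - u)

theorem pw1 (g : D.G) : ∃ j, x.φ₁ g = C.pb.gen ^ (pp ^ k * j) := by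
  have : NeZero pp := ⟨pp_ne⟩
  obtain ⟨j, -, e⟩ := (C.prim.pow (pow_pos pp_pos _) (pow_succ pp k)).eq_pow_of_pow_eq_one (cub x g)
  exact ⟨j, by rw [pow_mul, e]⟩

end Ax

open Ax

/-- **row ANX** -/
theorem anx (grp : GRP) (cpl : CPL) : ANX := by
  intro A B D k C a b M χ x
  have := (cpl k C).2.2.1
  obtain ⟨n, n1, n2⟩ := x.gx.ord
  obtain ⟨I, hI, i1, i2, i3⟩ := grp D.G C.O a b x.θ n n1 n2 x.gx.idx fun g => ⟨_, (x.gx.cj g).1⟩
  obtain ⟨n₀, t⟩ := x.gx.tr (k + 1)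
  let ξ : D.G →* Qa a b C.O := x.φ * (pw (hp C) (h1 C)).comp x.ep
  have e : ∀ g, ξ g = x.φ g * algebraMap C.O _ (zt C (x.ep g)) := fun g =>
    congrArg (x.φ g * ·) (pz_eq C _)
  let ξ₁ : D.G →* C.O := x.φ₁ * (zt C).comp x.ep
  have e₁ : ∀ g, ξ₁ g = x.φ₁ g * C.pb.gen ^ ex k (x.ep g) := fun _ => rfl
  have hθ : x.θ ∈ I := (hI _).2 ⟨1, 0, fun g => by simp⟩
  have key : ∀ J : Finset (D.G →* Qa a b C.O), (J = I ∨ ∃ ι : D.G, (∀ f, f ∈ J ↔ f ∈ I ∧ f ι = -1) ∧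
      (∀ f ∈ I, f ι = 1 ∨ f ι = -1) ∧ ξ₁ ι = 1 ∧ J.Nonempty) →
      ∃ y : D.An C a b M, y.J = J ∧ y.ξ = ξ := fun J hJ => by
    refine ⟨⟨I, J, ξ, ξ₁, x.lam, n₀, (hI _).2 ⟨0, 0, fun g => by simp⟩, fun f m f' m' => ?_, i1, i2,
      i3, fun f m g => ?_, fun g => ?_, fun g => ?_, x.lu, fun g => ?_, ?_, fun f m g h => ?_,
      fun g h => ?_, fun l m P o => ?_, hJ⟩, rfl, rfl⟩
    · obtain ⟨u, v, c⟩ := (hI f).1 m
      obtain ⟨u', v', c'⟩ := (hI f').1 m'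
      exact (hI _).2 ⟨u + u', v + v', fun g => by rw [MonoidHom.mul_apply, c, c']; ring⟩
    · obtain ⟨u, v, c⟩ := (hI f).1 m
      rw [c, c, (x.gx.cj g).1, star_mul', star_pow, star_pow]
    · rw [e, e, (x.gx.cj g).2.1, (x.gx.cj g).2.2.1, star_mul']
      exact congrArg _ (QuadraticAlgebra.ext (by simp) (by simp))
    · rw [e, ← mul_assoc, x.lx, mul_comm, ← Algebra.smul_def, smul_smul, mul_comm]
      rfl
    · obtain ⟨j, c⟩ := pw1 x g
      exact ⟨_, by rw [e₁, c, ← pow_add]⟩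
    · obtain ⟨g, u⟩ := x.gx.on
      obtain ⟨j, c⟩ := pw1 x g
      have : NeZero (pp ^ (k + 1)) := ⟨pow_ne_zero _ pp_ne⟩
      have nd : ¬ pp ∣ pp ^ k * j + ex k (x.ep g) := fun d => by
        have := (ex_dvd (s := x.ep g) (j := 1) (by omega)).1 (by
          rw [pow_one]
          exact (Nat.dvd_add_right ((dvd_pow_self _ (by have := x.gx.k1; omega)).mul_right j)).1 d)
        rw [pow_one] at this
        exact PadicInt.irreducible_p.not_isUnit (isUnit_of_dvd_unit this u)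
      obtain ⟨m, -, d⟩ := (C.prim.pow_of_coprime _ (((Nat.Prime.coprime_iff_not_dvd pp_prime).2
        nd).symm.pow_right _)).eq_pow_of_pow_eq_one C.pw
      exact ⟨g ^ m, by rw [map_pow, e₁, c, ← pow_add, d]⟩
    · obtain ⟨u, v, c⟩ := (hI f).1 m
      rw [c, (t g h).1, star_one, one_pow, one_pow, one_mul]
    · rw [e, (t g h).2.1, one_mul, show zt C (x.ep g) = 1 from
        (C.prim.pow_eq_one_iff_dvd _).2 ((ex_dvd le_rfl).2 (t g h).2.2.1), map_one]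
    · obtain ⟨g, d, c⟩ := x.gx.ns l m P o
      refine ⟨g ^ pp, pow_mem d _, fun z => c ((ex_dvd k.le_succ).1 ?_)⟩
      rw [map_pow, e₁, mul_pow, cub, one_mul, ← pow_mul, C.prim.pow_eq_one_iff_dvd, pow_succ] at z
      exact Nat.dvd_of_mul_dvd_mul_right pp_pos z
  obtain u | ⟨⟨ι, c1, c2, c3⟩, -⟩ := x.gx.sg
  · obtain ⟨y, y1, y2⟩ := key I (.inl rfl)
    exact ⟨y, fun f m => ⟨(hI f).1 (y1 ▸ m), .inl u⟩, y1 ▸ hθ, fun g => y2 ▸ rfl⟩
  · have mθ : x.θ ∈ I.filter fun f => f ι = -1 := Finset.mem_filter.2 ⟨hθ, c1⟩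
    have sg : ∀ f ∈ I, f ι = 1 ∨ f ι = -1 := fun f m => by
      obtain ⟨u, v, c⟩ := (hI f).1 m
      rw [c, c1, star_neg, star_one, ← pow_add]
      exact neg_one_pow_eq_or _ _
    obtain ⟨y, y1, y2⟩ := key (I.filter fun f => f ι = -1) (.inr ⟨ι, fun f => Finset.mem_filter,
      sg, by rw [e₁, one x c2, c3]; simp [ex], _, mθ⟩)
    refine ⟨y, fun f m => ?_, y1 ▸ mθ, fun g => y2 ▸ rfl⟩
    obtain ⟨m, z⟩ := Finset.mem_filter.1 (y1 ▸ m)
    obtain ⟨u, v, c⟩ := (hI f).1 m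
    exact ⟨⟨u, v, c⟩, .inr fun g d => by rw [c, d, ← c1, ← c, z, c1]⟩

end Vale.Agent.P014X.Fm
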