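import Vale.Agent.P014X.Fm.St
import Vale.Agent.P022E.GW.Hyp
import Vale.Agent.P022K.Cheb.Main

/-! # P014X: auxiliary primes which split completely -/

set_option autoImplicit false
set_option linter.all false

open NumberField

namespace Vale.Agent.P014X.Fm

open Vale.Agent.P022 (Qb GQ)
open Vale.Agent.P022D.W (dec)
open Vale.Agent.P022E.GW (Ov Fb)

/-- a prime with prescribed Frobenius element, unramified in the field of `W` -/
theorem ex_fr (u : GQ) {W : Subgroup GQ} (hW : IsOpen (W : Set GQ)) (T : Finset ℕ) :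
    ∃ l Q φ, l ∉ T ∧ Ov l Q ∧ Fb l Q φ ∧ u⁻¹ * φ ∈ W ∧
      (∀ P i, Ov l P → P027M.S.Inert P i → i ∈ W) ∧
      ∀ g ∈ dec Q, ∃ k : ℕ, ∃ a ∈ W, ∃ b ∈ W, g = a * φ ^ k * b := by
  classical
  obtain ⟨R, -, hR⟩ := P022E.GW.Hy.ex_ram hW
  obtain ⟨l, φ, hl, m, ⟨Q, p1, p2, f⟩, i⟩ := P022K.Cheb.exists_fr (g := u)
    (hW.preimage (continuous_mul_left u⁻¹)) (by simp [one_mem]) (T ∪ R)
  rw [Finset.mem_union, not_or] at m
  refine ⟨l, Q, φ, m.1, ⟨hl, p1, p2⟩, f, i, fun P s o a => hR l m.2 P o s a, fun g hg => ?_⟩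
  obtain ⟨k, s, a, hs, ha, e⟩ := P022D.W.dec_gen hl p1 p2 f hg W hW
  exact ⟨k, a, ha, s, hR l m.2 Q ⟨hl, p1, p2⟩ s hs, e⟩

/-- a prime which splits completely in the field of `W` -/
theorem ex_spl {W : Subgroup GQ} (hW : IsOpen (W : Set GQ)) (T : Finset ℕ) :
    ∃ l Q, l ∉ T ∧ Ov l Q ∧ ∀ g ∈ dec Q, g ∈ W := by
  obtain ⟨l, Q, φ, a, b, -, c, -, d⟩ := ex_fr 1 hW T
  refine ⟨l, Q, a, b, fun g hg => ?_⟩
  obtain ⟨k, x, hx, y, hy, rfl⟩ := d g hg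
  exact mul_mem (mul_mem hx (pow_mem (by simpa using c) k)) hy

open P014U in
theorem aux [Pp] : AUX := by
  intro A B D N M₀ F G h0
  have d0 : (D.b ^ 2 + 4 * D.a).natAbs ≠ 0 := by have := D.neg; omega
  have p0 : (pp : D.O) ≠ 0 := fun e => pp_ne (by simpa using congrArg QuadraticAlgebra.re e)
  obtain ⟨l, Q, a, o, b⟩ := ex_spl (F.oH _ p0) {pp}
  have n0 : N * M₀ * (D.b ^ 2 + 4 * D.a).natAbs * l ≠ 0 :=
    mul_ne_zero (mul_ne_zero (mul_ne_zero G.ne h0) d0) o.1.ne_zero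
  obtain ⟨n, M, c, e⟩ := Nat.exists_eq_pow_mul_and_not_dvd n0 pp one_lt.ne'
  rw [mul_comm (pp ^ n)] at e
  have M0 : M ≠ 0 := left_ne_zero_of_mul (e ▸ n0)
  have k : ∀ q : ℕ, q.Prime → q ≠ pp → q ∣ N * M₀ * (D.b ^ 2 + 4 * D.a).natAbs * l →
      q ∈ M.primeFactors := fun q hq ne d => Nat.mem_primeFactors.2 ⟨hq,
    (hq.dvd_mul.1 (e ▸ d)).resolve_right fun k =>
      ne ((Nat.prime_dvd_prime_iff_eq hq Fact.out).1 (hq.dvd_of_dvd_pow k)), M0⟩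
  refine ⟨M, ⟨M0, c, ⟨n, e ▸ ((dvd_mul_right _ _).mul_right _).mul_right _⟩, fun q hq d => ?_⟩,
    ⟨n, e ▸ ((dvd_mul_left _ _).mul_right _).mul_right _⟩,
    l, k l o.1 (by simpa using a) (dvd_mul_left _ _), Q, o, b⟩
  by_cases z : q = pp
  · exact z ▸ Finset.mem_insert_self _ _
  · exact Finset.mem_insert_of_mem (k q hq z (((Int.natCast_dvd.1 d).mul_left _).mul_right _))

end Vale.Agent.P014X.Fm
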