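import Vale.Agent.P014X.Fm.St
import Vale.Agent.P014X.Fm.Crk

/-! # P014X, block FAM: the decomposition over the cyclotomic integers (helper12) -/

set_option autoImplicit false
set_option linter.all false

open NumberField IsLocalRing
open scoped Classical

noncomputable section

namespace Vale.Agent.P014X.Fm

open Vale.Agent.P014U
open PadicInt (toZModPow toZMod)
open Pow (pz Jq)

variable [Pp]

namespace Bx

theorem gx_map {A B : ℤ} {D : Cd A B} {T T' : Type} [CommRing T] [StarRing T] [CommRing T']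
    [StarRing T'] {M k : ℕ} {θ φ : D.G →* T} {ep em : D.G →* Multiplicative ℤ_[pp]}
    (h : Gx D M k θ φ ep em) (e : T →+* T') (st : ∀ x, e (star x) = star (e x)) :
    Gx D M k (e.toMonoidHom.comp θ) (e.toMonoidHom.comp φ) ep em := by
  have a : ∀ (f : D.G →* T) g, (e.toMonoidHom.comp f) g = e (f g) := fun _ _ => rfl
  have o : ∀ {x : T}, x = 1 → e x = 1 := fun b => by rw [b, map_one]
  have n : ∀ {x : T}, x = -1 → e x = -1 := fun b => by rw [b, map_neg, map_one]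
  refine ⟨h.k1, ?_, fun g => ?_, fun g => ?_, fun j => ?_, ?_, fun l m P i v w => ?_,
    fun l P P' i v v' w => ?_, ?_, h.inf, ?_, ?_, h.on, h.ns⟩
  · obtain ⟨m, b, c⟩ := h.ord
    exact ⟨m, b, fun g => by rw [a, ← map_pow, o (c g)]⟩
  · rcases h.cub g with b | ⟨b, c, d⟩
    · exact .inl (o b)
    · exact .inr ⟨b, by rw [a, ← st, ← map_mul, o c], by rw [a, ← st, ← map_add, n d]⟩
  · obtain ⟨b, c, d⟩ := h.cj g
    exact ⟨by rw [a, a, b, st], by rw [a, a, c, st], d⟩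
  · obtain ⟨m, b⟩ := h.tr j
    exact ⟨m, fun g c => ⟨o (b g c).1, o (b g c).2.1, (b g c).2.2⟩⟩
  · exact (@Subgroup.finiteIndex_of_le _ _ θ.ker _ ⟨h.idx⟩ fun g d => o d).index_ne_zero
  · obtain ⟨b, c, d⟩ := h.ine l m P i v w
    exact ⟨b, c, by rw [a, ← st, ← map_mul, o d]⟩
  · obtain ⟨i', b, c⟩ := h.cnj l P P' i v v' w
    exact ⟨i', b, c.imp (fun d => by rw [a, a, d]) fun d => by rw [a, a, d, st]⟩
  · refine h.sg.imp id fun ⟨⟨ι, b, c, d⟩, f⟩ => ⟨⟨ι, n b, o c, d⟩, fun l m => (f l m).imp id ?_⟩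
    exact fun ⟨P, i, v, w, s⟩ => ⟨P, i, v, w, n s⟩
  · obtain ⟨P, t, g₁, g₂, v, b, c, d, ⟨f₁, f₂, f₃⟩, s₁, s₂, s₃⟩ := h.opn
    exact ⟨P, t, g₁, g₂, v, b, c, d, ⟨o f₁, o f₂, f₃⟩, o s₁, o s₂, s₃⟩
  · obtain ⟨l, m, Q, v, b⟩ := h.aux
    exact ⟨l, m, Q, v, fun g c => (b g c).imp fun _ d => ⟨o d.1, d.2⟩⟩

variable {k : ℕ} {C : Cr k} {a b : ℤ}

theorem inj {A B : ℤ} {D : Cd A B} {e : Qa D.a D.b ℤ_[pp] →+* Qa a b C.O} (h : D.Em C e) :
    Function.Injective e := by
  obtain ⟨y, s⟩ := h.bas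
  intro u v c
  exact congrFun (s.1 (a₁ := fun _ => u) (a₂ := fun _ => v) (by simp only [c])) ⟨0, C.dim_pos⟩

theorem pm : (pp : C.O) ∈ maximalIdeal C.O := by
  rw [C.mi, Ideal.mem_span_singleton]
  exact C.dvp

theorem sm_J {I : Ideal C.O} {x : C.O} (h : x ∈ I) (z : Qa a b C.O) : x • z ∈ Jq a b I :=
  ⟨I.mul_mem_right _ h, I.mul_mem_right _ h⟩

theorem nat_sm (n : ℕ) (z : Qa a b C.O) : (n : Qa a b C.O) * z = (n : C.O) • z := by
  rw [Algebra.smul_def, map_natCast]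

end Bx

open Bx in
theorem bdx (sml : SML) (cpl : CPL) : BDX := by
  intro A B D M χ x k C a b e lam ev gx du em lu hev
  have := (cpl k C).2.2.1
  obtain ⟨w, hw⟩ := C.dvp
  have k2 : 2 ≤ pp ^ k := (one_lt_pow₀ one_lt (by have := gx.k1; omega))
  obtain ⟨z, hz⟩ : ∃ z, e x.y - 1 = (C.pb.gen - 1) ^ (2 * pp ^ k) • z := by
    refine sml k C a b _ _ (pp - 1) du (by have := one_lt; omega) ?_
    obtain ⟨v, hv⟩ := x.sm
    obtain ⟨u, hu⟩ := C.ass.dvd
    refine ⟨u ^ 2 • e v, ?_⟩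
    have c := congrArg e hv
    rw [map_pow, map_sub, map_one, map_mul, map_pow, map_natCast, ← Nat.cast_pow, nat_sm,
      Nat.cast_pow, hu, C.dim] at c
    rw [c, smul_smul]
    congr 1
    ring
  have y1 : e x.y - 1 ∈ Jq a b (maximalIdeal C.O) := by
    rw [hz]
    refine sm_J (Ideal.pow_mem_of_mem _ ?_ _ (by omega)) _
    rw [C.mi]
    exact Ideal.mem_span_singleton_self _
  have p1 : (1 + pp : Qa a b C.O) - 1 ∈ Jq a b (maximalIdeal C.O) := by
    rw [add_sub_cancel_left, ← mul_one (pp : Qa a b C.O), nat_sm]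
    exact sm_J pm _
  refine ⟨
    { y := e x.y
      z := (C.pb.gen - 1) ^ (pp ^ k - 2) • z
      w := w
      k1 := gx.k1
      du := du
      hw := hw.symm
      hz := ?_
      yn := ?_
      ne := ?_
      θ := _
      φ := _
      φ₁ := ev.comp (x.φ.comp χ.toHomUnits)
      ep := _
      em := _
      lam := lam
      gx := gx_map gx e em.st
      lu := lu
      lx := fun g => hev _ ?_
      eq := fun g => ?_ }⟩
  · rw [hz, smul_smul, ← pow_add]
    congr 2
    omega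
  · rw [← em.st, ← map_mul]
    simpa using congrArg (fun u : (Qa D.a D.b ℤ_[pp])ˣ => e u) x.yn
  · rw [← em.st]
    exact fun c => x.ne (Units.ext (inj em c))
  · by_cases c : (pp : ℤ) ∣ D.b ^ 2 + 4 * D.a
    · exact .inl c
    · exact .inr (by rw [x.unr c]; rfl)
  · refine Pow.eq_of (I := maximalIdeal C.O) fun j => ?_
    set u := χ.toHomUnits g
    obtain ⟨v, hv⟩ := x.apx u (j + 1) _ _ (ZMod.natCast_zmod_val _).symm
      (ZMod.natCast_zmod_val _).symm
    have c := congrArg e hv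
    rw [map_sub, map_mul, map_mul, map_mul, map_pow, map_pow, x.h₁, map_add, map_one, map_natCast,
      map_mul, map_pow, map_natCast, ← Nat.cast_pow, nat_sm, Nat.cast_pow] at c
    have m := sm_J (Ideal.pow_mem_pow (pm (C := C)) (j + 1)) (e v)
    rw [← c] at m
    have le := Pow.Jq_mono (a := a) (b := b)
      (Ideal.pow_le_pow_right (I := maximalIdeal C.O) (j + 1).le_succ)
    have s := le (Pow.pz_val pm p1 (x.ep u).toAdd (j + 1))
    have t := le (Pow.pz_val pm y1 (x.em u).toAdd (j + 1))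
    have r := sub_mem (sub_mem m (Ideal.mul_mem_left _
      (e (x.θ u) * e (x.φ u) * pz (maximalIdeal C.O) (e x.y) (x.em u).toAdd) s))
      (Ideal.mul_mem_left _ (e (x.θ u) * e (x.φ u) *
        (1 + pp) ^ (toZModPow (j + 1) (x.ep u).toAdd).val) t)
    refine (congrArg (· ∈ _) ?_).mp r
    change _ = e u - e (x.θ u) * e (x.φ u) * pz _ _ (x.ep u).toAdd * pz _ _ (x.em u).toAdd
    ring

end Vale.Agent.P014X.Fm
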