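import Vale.Agent.P014X.St2

/-! # P014X, row COR: the ring of the roots of unity (helper35) -/

set_option autoImplicit false
set_option linter.all false

open Polynomial IsLocalRing

noncomputable section

namespace Vale.Agent.P014X

open Vale.Agent.P014U

namespace Cor

variable (p k : ℕ) [hp : Fact p.Prime]

/-- the polynomial -/
abbrev F : ℤ_[p][X] := cyclotomic (p ^ (k + 1)) ℤ_[p]

theorem mon : (F p k).Monic := cyclotomic.monic _ _

theorem deg : 0 < (F p k).natDegree := by
  rw [natDegree_cyclotomic]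
  exact Nat.totient_pos.2 (pow_pos hp.out.pos _)

theorem irr : Irreducible (F p k) := by
  have E := cyclotomic_prime_pow_comp_X_add_one_isEisensteinAt (p := p) k
  have d1 : (X + 1 : ℤ_[p][X]).natDegree = 1 := by rw [← C_1, natDegree_X_add_C]
  have d0 : (X + 1 : ℤ[X]).natDegree = 1 := by rw [← C_1, natDegree_X_add_C]
  have m : ((F p k).comp (X + 1)).Monic :=
    (mon p k).comp (by rw [← C_1]; exact monic_X_add_C _) (by rw [d1]; exact one_ne_zero)
  have e : (F p k).comp (X + 1) =
      ((cyclotomic (p ^ (k + 1)) ℤ).comp (X + 1)).map (Int.castRingHom ℤ_[p]) := by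
    rw [map_comp, map_cyclotomic_int]
    simp
  have dg : ((F p k).comp (X + 1)).natDegree = (F p k).natDegree := by
    rw [natDegree_comp, d1, mul_one]
  have G : ((F p k).comp (X + 1)).IsEisensteinAt (maximalIdeal ℤ_[p]) := by
    refine m.isEisensteinAt_of_mem_of_notMem (maximalIdeal.isMaximal _).ne_top (fun {n} h => ?_) ?_
    · have h' : n < ((cyclotomic (p ^ (k + 1)) ℤ).comp (X + 1)).natDegree := by
        rw [natDegree_comp, d0, mul_one, natDegree_cyclotomic]
        rwa [dg, natDegree_cyclotomic] at h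
      obtain ⟨c, hc⟩ := Ideal.mem_span_singleton.1 (E.mem h')
      rw [e, coeff_map, hc, PadicInt.maximalIdeal_eq_span_p, Ideal.mem_span_singleton]
      exact ⟨c, by simp⟩
    · rw [coeff_zero_eq_eval_zero, eval_comp, eval_add, eval_X, eval_one, zero_add,
        eval_one_cyclotomic_prime_pow, PadicInt.maximalIdeal_eq_span_p, Ideal.span_singleton_pow,
        Ideal.mem_span_singleton]
      rintro ⟨c, hc⟩
      have : (p : ℤ_[p]) * (1 - p * c) = 0 := by linear_combination hc
      rcases mul_eq_zero.1 this with a | a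
      · exact PadicInt.prime_p.ne_zero a
      · exact PadicInt.prime_p.not_unit (IsUnit.of_mul_eq_one c (by linear_combination -a))
  have I := G.irreducible inferInstance m.isPrimitive (dg ▸ deg p k)
  have : (F p k).comp (X + 1) = algEquivAevalXAddC (1 : ℤ_[p]) (F p k) := by
    simp [algEquivAevalXAddC, comp_eq_aeval]
  rw [this] at I
  exact (MulEquiv.irreducible_iff (algEquivAevalXAddC (1 : ℤ_[p])).toMulEquiv).1 I

/-- the ring -/
abbrev O : Type := AdjoinRoot (F p k)

instance dom : IsDomain (O p k) := AdjoinRoot.isDomain_of_prime (irr p k).prime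

instance fin : Module.Finite ℤ_[p] (O p k) := (AdjoinRoot.powerBasis' (mon p k)).finite

instance noe : IsNoetherianRing (O p k) := IsNoetherianRing.of_finite ℤ_[p] _

/-- the residue map -/
def rs : O p k →+* ZMod p := AdjoinRoot.lift PadicInt.toZMod 1 (by
  rw [eval₂_at_one, eval_one_cyclotomic_prime_pow]
  simp)

theorem sub (g : ℤ_[p][X]) : AdjoinRoot.root (F p k) - 1 ∣
    AdjoinRoot.mk (F p k) g - algebraMap ℤ_[p] _ (g.eval 1) := by
  have := sub_dvd_eval_sub (AdjoinRoot.root (F p k)) 1 (g.map (algebraMap ℤ_[p] (O p k)))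
  rwa [eval_map_algebraMap, AdjoinRoot.aeval_eq, eval_one_map] at this

theorem dvp : AdjoinRoot.root (F p k) - 1 ∣ (p : O p k) := by
  have := sub p k (F p k)
  rw [AdjoinRoot.mk_self, eval_one_cyclotomic_prime_pow, map_natCast, zero_sub] at this
  exact dvd_neg.1 this

theorem ker : RingHom.ker (rs p k) = Ideal.span {AdjoinRoot.root (F p k) - 1} := by
  ext x
  obtain ⟨g, rfl⟩ := AdjoinRoot.mk_surjective x
  rw [RingHom.mem_ker, Ideal.mem_span_singleton]
  constructor
  · intro h
    rw [rs, AdjoinRoot.lift_mk, eval₂_at_one, ← RingHom.mem_ker, PadicInt.ker_toZMod,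
      PadicInt.maximalIdeal_eq_span_p, Ideal.mem_span_singleton] at h
    have a := (dvp p k).trans (by simpa using map_dvd (algebraMap ℤ_[p] (O p k)) h)
    simpa using dvd_add (sub p k g) a
  · rintro ⟨c, hc⟩
    rw [hc, map_mul, map_sub, map_one, rs, AdjoinRoot.lift_root, sub_self, zero_mul]

theorem mx : (Ideal.span {AdjoinRoot.root (F p k) - 1}).IsMaximal :=
  ker p k ▸ RingHom.ker_isMaximal_of_surjective _ (ZMod.ringHom_surjective _)

theorem rt : AdjoinRoot.root (F p k) ^ p ^ (k + 1) = 1 := by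
  have := (AdjoinRoot.mk_eq_zero (f := F p k)).2 (cyclotomic.dvd_X_pow_sub_one (p ^ (k + 1)) ℤ_[p])
  rw [map_sub, map_pow, AdjoinRoot.mk_X, map_one] at this
  exact sub_eq_zero.1 this

theorem un (I : Ideal (O p k)) (h : I.IsMaximal) : I = Ideal.span {AdjoinRoot.root (F p k) - 1} := by
  refine ((mx p k).eq_of_le h.ne_top ?_).symm
  rw [Ideal.span_singleton_le_iff_mem]
  have a : (p : O p k) ∈ I := by
    have m := Ideal.isMaximal_comap_of_isIntegral_of_isMaximal (R := ℤ_[p]) I
    have : (p : ℤ_[p]) ∈ I.comap (algebraMap ℤ_[p] (O p k)) := by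
      rw [eq_maximalIdeal m, PadicInt.maximalIdeal_eq_span_p]
      exact Ideal.mem_span_singleton_self _
    simpa using this
  refine h.isPrime.mem_of_pow_mem (p ^ (k + 1)) ?_
  obtain ⟨c, hc⟩ := exists_add_pow_prime_pow_eq hp.out (AdjoinRoot.root (F p k) - 1) 1 (k + 1)
  rw [sub_add_cancel, rt, one_pow] at hc
  rw [show (AdjoinRoot.root (F p k) - 1) ^ p ^ (k + 1) =
    p * -((AdjoinRoot.root (F p k) - 1) * c) by linear_combination -hc]
  exact I.mul_mem_right _ a

instance loc : IsLocalRing (O p k) :=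
  IsLocalRing.of_unique_max_ideal ⟨_, mx p k, fun I h => un p k I h⟩

theorem mi : maximalIdeal (O p k) = Ideal.span {AdjoinRoot.root (F p k) - 1} :=
  un p k _ inferInstance

theorem ne : AdjoinRoot.root (F p k) - 1 ≠ 0 := fun h => by
  have a := dvp p k
  rw [h, zero_dvd_iff] at a
  refine PadicInt.prime_p (p := p).ne_zero (AdjoinRoot.of.injective_of_degree_ne_zero
    (f := F p k) (natDegree_pos_iff_degree_pos.1 (deg p k)).ne' ?_)
  rw [map_natCast, a, map_zero]

instance dvr : IsDiscreteValuationRing (O p k) := by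
  have a : (maximalIdeal (O p k)).IsPrincipal := ⟨_, mi p k⟩
  refine ((IsDiscreteValuationRing.TFAE (O p k) fun h => ne p k ?_).out 0 4).2 a
  have := isField_iff_maximalIdeal_eq.1 h
  rwa [mi, Ideal.span_singleton_eq_bot] at this

theorem mp : minpoly ℤ_[p] (AdjoinRoot.root (F p k)) = F p k := by
  have i : IsIntegral ℤ_[p] (AdjoinRoot.root (F p k)) := Algebra.IsIntegral.isIntegral _
  have : Module.IsTorsionFree ℤ_[p] (O p k) :=
    AdjoinRoot.noZeroSMulDivisors_of_prime_of_degree_ne_zero (irr p k).prime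
      (natDegree_pos_iff_degree_pos.1 (deg p k)).ne'
  exact eq_of_monic_of_associated (minpoly.monic i) (mon p k) ((minpoly.irreducible i).associated_of_dvd
    (irr p k) (minpoly.isIntegrallyClosed_dvd i (by rw [AdjoinRoot.aeval_eq, AdjoinRoot.mk_self])))

end Cor

variable [Pp]

/-- **the ring exists** -/
theorem cor0 : COR := fun k =>
  ⟨{ O := Cor.O pp k, pb := AdjoinRoot.powerBasis' (Cor.mon pp k), π := Cor.rs pp k
     min := Cor.mp pp k
     irr := (IsDiscreteValuationRing.irreducible_iff_uniformizer _).2 (Cor.mi pp k) }⟩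

end Vale.Agent.P014X
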