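import Vale.Agent.P022D.L2b.Ps

/-! # P014X: completeness of finite extensions of the `p`-adic integers, evaluation of series -/

set_option autoImplicit false
set_option linter.all false

open IsLocalRing

noncomputable section

namespace Vale.Agent.P014X.Cpl

/-- a discrete valuation ring which is finite free over the `p`-adic integers is complete -/
theorem cpl {p : ℕ} [Fact p.Prime] {O : Type} [CommRing O] [IsDomain O]
    [IsDiscreteValuationRing O] [Algebra ℤ_[p] O] {ι : Type} [Fintype ι]
    (b : Module.Basis ι ℤ_[p] O) (π : O →+* ZMod p) : IsAdicComplete (maximalIdeal O) O := by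
  have hp : (p : O) ∈ maximalIdeal O := fun h => by simpa using h.map π
  have : Module.Free ℤ_[p] O := .of_basis b
  have h0 : (p : O) ≠ 0 := by
    rw [← map_natCast (algebraMap ℤ_[p] O), Ne, FaithfulSMul.algebraMap_eq_zero_iff]
    exact Nat.cast_ne_zero.2 (Fact.out : p.Prime).ne_zero
  obtain ⟨ϖ, hϖ⟩ := IsDiscreteValuationRing.exists_irreducible O
  obtain ⟨e, he⟩ := IsDiscreteValuationRing.associated_pow_irreducible h0 hϖ
  have k1 : ∀ n x, x ∈ maximalIdeal O ^ ((e + 1) * n) → (p : O) ^ n ∣ x := fun n x hx => by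
    rw [hϖ.maximalIdeal_eq, Ideal.span_singleton_pow, Ideal.mem_span_singleton, pow_mul] at hx
    exact (pow_dvd_pow_of_dvd (he.dvd.trans (pow_dvd_pow ϖ e.le_succ)) n).trans hx
  have k2 : ∀ n x, (p : O) ^ n ∣ x ↔ ∀ i, (p : ℤ_[p]) ^ n ∣ b.repr x i := fun n x => by
    refine ⟨?_, fun h => ?_⟩
    · rintro ⟨y, rfl⟩ i
      rw [← map_natCast (algebraMap ℤ_[p] O), ← map_pow, ← Algebra.smul_def, map_smul]
      exact Dvd.intro _ rfl
    · rw [← b.sum_repr x]
      refine Finset.dvd_sum fun i _ => ?_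
      rw [Algebra.smul_def, ← map_natCast (algebraMap ℤ_[p] O), ← map_pow]
      exact (map_dvd _ (h i)).mul_right _
  refine { prec' := fun f hf => ?_ }
  simp only [SModEq.sub_mem, smul_eq_mul, Ideal.mul_top] at hf ⊢
  have h2 : ∀ i, ∃ L : ℤ_[p], ∀ n, (p : ℤ_[p]) ^ n ∣ b.repr (f ((e + 1) * n)) i - L := fun i => by
    obtain ⟨L, hL⟩ := IsPrecomplete.prec' (I := maximalIdeal ℤ_[p])
      (fun n => b.repr (f ((e + 1) * n)) i) fun {m n} hmn => by
        have := (k2 m _).1 (k1 m _ (hf (Nat.mul_le_mul_left (e + 1) hmn))) i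
        rw [SModEq.sub_mem, smul_eq_mul, Ideal.mul_top, PadicInt.maximalIdeal_eq_span_p,
          Ideal.span_singleton_pow, Ideal.mem_span_singleton]
        simpa using this
    refine ⟨L, fun n => ?_⟩
    have := hL n
    rwa [SModEq.sub_mem, smul_eq_mul, Ideal.mul_top, PadicInt.maximalIdeal_eq_span_p,
      Ideal.span_singleton_pow, Ideal.mem_span_singleton] at this
  choose L hL using h2
  refine ⟨b.equivFun.symm L, fun n => ?_⟩
  obtain ⟨y, hy⟩ : (p : O) ^ n ∣ f ((e + 1) * n) - b.equivFun.symm L := (k2 n _).2 fun i => by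
    have : b.repr (b.equivFun.symm L) i = L i := congrFun (b.equivFun.apply_symm_apply L) i
    rw [map_sub, Finsupp.sub_apply, this]
    exact hL i n
  have h3 := Ideal.add_mem _ (hf (Nat.le_mul_of_pos_left n e.succ_pos))
    (hy ▸ Ideal.mul_mem_right y _ (Ideal.pow_mem_pow hp n))
  rwa [sub_add_sub_cancel] at h3

/-- evaluation of power series at an element of the maximal ideal -/
theorem ev {O : Type} [CommRing O] [IsLocalRing O] [IsAdicComplete (maximalIdeal O) O] {x : O}
    (hx : ¬ IsUnit x) : ∃ e : PowerSeries O →+* O,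
      (∀ a, e (PowerSeries.C a) = a) ∧ e PowerSeries.X = x := by
  have H : (Polynomial.X - Polynomial.C x).IsDistinguishedAt (maximalIdeal O) := by
    refine ⟨⟨fun {n} hn => ?_⟩, Polynomial.monic_X_sub_C x⟩
    rw [Polynomial.natDegree_X_sub_C, Nat.lt_one_iff] at hn
    subst hn
    simpa using hx
  let e : PowerSeries O →ₐ[O] O := ((Polynomial.quotientSpanXSubCAlgEquiv x).toAlgHom.comp
    H.algEquivQuotient.symm.toAlgHom).comp (Ideal.Quotient.mkₐ O _)
  have k : ∀ q : Polynomial O, e q = q.eval x := fun q => by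
    have : H.algEquivQuotient (Ideal.Quotient.mk _ q) = Ideal.Quotient.mk _ (q : PowerSeries O) :=
      rfl
    show Polynomial.quotientSpanXSubCAlgEquiv x
      (H.algEquivQuotient.symm (Ideal.Quotient.mk _ (q : PowerSeries O))) = _
    rw [← this, AlgEquiv.symm_apply_apply, Polynomial.quotientSpanXSubCAlgEquiv_mk]
  refine ⟨e.toRingHom, fun a => ?_, ?_⟩
  · simpa using k (Polynomial.C a)
  · simpa using k Polynomial.X

theorem ser {O : Type} [CommRing O] [IsLocalRing O] [IsNoetherianRing O]
    (h : IsAdicComplete (maximalIdeal O) O) :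
    IsAdicComplete (maximalIdeal (PowerSeries O)) (PowerSeries O) :=
  Vale.Agent.P022D.L2b.isAdicCompleteV (σ := Unit) h

end Vale.Agent.P014X.Cpl
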