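import Vale.Agent.P014X.St2
import Vale.Agent.P014X.Fm.Cpl0

/-! # P014X: row CPL -/

set_option autoImplicit false
set_option linter.all false

namespace Vale.Agent.P014X

open Vale.Agent.P014U

variable [Pp]

theorem cpl : CPL := fun k C => by
  have h := Cpl.cpl C.pb.basis C.π
  obtain ⟨e, h1, h2⟩ := Cpl.ev C.irr.not_isUnit
  exact ⟨inferInstance, Cpl.ser h, h, e, ⟨h1, h2 ▸ C.irr.not_isUnit⟩, h2⟩

end Vale.Agent.P014X
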