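import Vale.Agent.P014X.Fm.Pow

/-! # P014X: logarithms in the completed order -/

set_option autoImplicit false
set_option linter.all false

open PadicInt IsLocalRing QuadraticAlgebra

noncomputable section

namespace Vale.Agent.P014X.Str

open Vale.Agent.P014U Vale.Agent.P014X.Pow

theorem bin {R : Type} [CommRing R] (y : R) (n : ℕ) : ∃ q, (1 + y) ^ n =
    1 + n * y + n.choose 2 * y ^ 2 + n.choose 3 * y ^ 3 + y ^ 4 * q := by
  induction n with
  | zero => exact ⟨0, by simp⟩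
  | succ n ih =>
    obtain ⟨q, e⟩ := ih
    refine ⟨q * (1 + y) + n.choose 3, ?_⟩
    rw [pow_succ, e, Nat.choose_succ_succ' n 1, Nat.choose_succ_succ' n 2, Nat.choose_one_right]
    push_cast
    ring

variable [Pp] {a b : ℤ}

/-- the completed order -/
abbrev T (a b : ℤ) : Type := Qa a b ℤ_[pp]

/-- the maximal ideal -/
abbrev I : Ideal ℤ_[pp] := maximalIdeal ℤ_[pp]

theorem hp : ((pp : ℕ) : ℤ_[pp]) ∈ I := by
  rw [I, maximalIdeal_eq_span_p]
  exact Ideal.mem_span_singleton_self _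

theorem dv_iff {U : T a b} {k : ℕ} :
    (pp : T a b) ^ k ∣ U ↔ (pp : ℤ_[pp]) ^ k ∣ U.re ∧ (pp : ℤ_[pp]) ^ k ∣ U.im := by
  rw [← algebraMap_dvd_iff, map_pow, map_natCast]

theorem jq {U : T a b} {k : ℕ} : U ∈ Jq a b (I ^ k) ↔ (pp : T a b) ^ k ∣ U := by
  rw [dv_iff, mem_Jq, I, maximalIdeal_eq_span_p, Ideal.span_singleton_pow,
    Ideal.mem_span_singleton, Ideal.mem_span_singleton]

theorem jq1 {U : T a b} : U ∈ Jq a b I ↔ (pp : T a b) ∣ U := by
  simpa using jq (U := U) (k := 1)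

theorem p0 : (pp : T a b) ≠ 0 := fun h => by
  simpa [pp_ne] using congrArg re h

theorem pc {U V : T a b} (h : (pp : T a b) * U = pp * V) : U = V := by
  have e : ((pp : ℕ) : ℤ_[pp]) ≠ 0 := Nat.cast_ne_zero.2 pp_ne
  refine QuadraticAlgebra.ext (mul_left_cancel₀ e ?_) (mul_left_cancel₀ e ?_)
  · simpa using congrArg re h
  · simpa using congrArg im h

theorem pcd {U : T a b} {k j : ℕ} (h : (pp : T a b) ^ (k + j) ∣ pp ^ k * U) :
    (pp : T a b) ^ j ∣ U := by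
  induction k with
  | zero => simpa using h
  | succ k ih =>
    obtain ⟨q, e⟩ := h
    exact ih ⟨q, pc (by linear_combination e)⟩

theorem up (z : T a b) (j : ℕ) :
    ∃ w, (1 + pp * z : T a b) ^ pp ^ j = 1 + pp ^ (j + 1) * (z + pp * w) := by
  induction j with
  | zero => exact ⟨0, by simp⟩
  | succ j ih =>
    obtain ⟨w, e⟩ := ih
    obtain ⟨q, f⟩ := bin ((pp : T a b) ^ (j + 1) * (z + pp * w)) pp
    obtain ⟨c, g⟩ := pp_prime.dvd_choose_self two_ne_zero two_lt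
    rw [pow_succ pp, pow_mul, e, f, g]
    refine ⟨w + c * pp ^ j * (z + pp * w) ^ 2 + pp.choose 3 * pp ^ (2 * j) * (z + pp * w) ^ 3 +
      pp ^ (3 * j + 1) * (z + pp * w) ^ 4 * q, ?_⟩
    push_cast
    ring

/-- the structure map -/
abbrev C : ℤ_[pp] →+* T a b := algebraMap _ _

theorem lin (z : T a b) (x : ℤ_[pp]) (j : ℕ) : (pp : T a b) ^ (j + 2) ∣
    pz I (1 + (pp : T a b) * z) ((pp : ℤ_[pp]) ^ j * x) -
      (1 + (pp : T a b) ^ (j + 1) * (C x * z)) := by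
  have p : (1 + pp * z : T a b) - 1 ∈ Jq a b I := jq1.2 ⟨z, by ring⟩
  obtain ⟨w, e⟩ := up z j
  obtain ⟨q, f⟩ := jq.1 (pz_val hp (one_pow' p (pp ^ j)) x (j + 1))
  rw [pz_pow hp p, e, Nat.cast_pow] at f
  obtain ⟨r, g⟩ : ∃ r : ℤ_[pp], x = (toZModPow (j + 1) x).val + pp * r := by
    have : x - (toZModPow (j + 1) x).val ∈ RingHom.ker (toZModPow (j + 1)) := by
      rw [RingHom.mem_ker, map_sub, map_natCast, ZMod.natCast_zmod_val, sub_self]
    rw [ker_toZModPow, Ideal.mem_span_singleton] at this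
    obtain ⟨r, g⟩ := (dvd_pow_self _ j.succ_ne_zero).trans this
    exact ⟨r, by linear_combination g⟩
  generalize (toZModPow (j + 1) x).val = n at f g
  obtain ⟨s, k⟩ := sq_dvd_add_pow_sub_sub ((pp : T a b) ^ (j + 1) * (z + pp * w)) 1 n
  refine ⟨q + (pp : T a b) ^ j * (z + (pp : T a b) * w) ^ 2 * s + (n : T a b) * w - C r * z, ?_⟩
  rw [one_pow, one_pow] at k
  have g' := congrArg (C (a := a) (b := b)) g
  rw [map_add, map_mul, map_natCast, map_natCast] at g'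
  linear_combination f + k - (pp : T a b) ^ (j + 1) * z * g'

/-- `δ` -/
abbrev δ : T a b := dl a b ℤ_[pp]

theorem δ_sq {R : Type} [CommRing R] : dl a b R ^ 2 = ((b ^ 2 + 4 * a : ℤ) : Qa a b R) :=
  QuadraticAlgebra.ext (by simp [dl, sq]; ring) (by simp [dl, sq]; ring)

theorem δ_star {R : Type} [CommRing R] : star (dl a b R) = -dl a b R :=
  QuadraticAlgebra.ext (by simp [dl]; ring) (by simp [dl])

theorem C_star (t : ℤ_[pp]) : star (C t : T a b) = C t :=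
  QuadraticAlgebra.ext (by simp) (by simp)

theorem C_dvd {t : ℤ_[pp]} (h : (pp : ℤ_[pp]) ∣ t) : (pp : T a b) ∣ C t := by
  simpa using map_dvd (C (a := a) (b := b)) h

theorem un1 {U : T a b} (h : (pp : T a b) ∣ U - 1) : IsUnit U := by
  have := pz_neg hp (jq1.2 h) 1
  rw [pz_one hp (jq1.2 h)] at this
  exact .of_mul_eq_one _ this

theorem ex_y (t : ℤ_[pp]) (h : (pp : ℤ_[pp]) ∣ t ^ 2 * (b ^ 2 + 4 * a : ℤ)) : ∃ y : T a b,
    y * (1 - C t * δ) = 1 + C t * δ ∧ y * star y = 1 ∧ IsUnit (1 - C t * δ : T a b) := by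
  have e : (1 - C t * δ : T a b) * (1 + C t * δ) - 1 = -C (t ^ 2 * (b ^ 2 + 4 * a : ℤ)) := by
    rw [map_mul, map_pow, map_intCast, ← δ_sq]
    ring
  have u : IsUnit ((1 - C t * δ : T a b) * (1 + C t * δ)) := un1 (e ▸ (C_dvd h).neg_right)
  obtain ⟨v, hv⟩ := isUnit_of_mul_isUnit_left u
  have s : star (1 - C t * δ : T a b) = 1 + C t * δ := by
    rw [star_sub, star_one, star_mul', δ_star, mul_neg, sub_neg_eq_add, C_star]
  have y1 : (1 + C t * δ) * v⁻¹.1 * (1 - C t * δ) = 1 + C t * δ := by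
    rw [← hv, Units.inv_mul_cancel_right]
  refine ⟨_, y1, u.mul_right_cancel ?_, hv ▸ v.isUnit⟩
  have y2 := congrArg star y1
  rw [star_mul', s, ← s, star_star, s] at y2
  generalize (1 + C t * δ) * v⁻¹.1 = y at y1 y2
  linear_combination star y * (1 + C t * δ) * y1 + (1 + C t * δ) * y2

theorem ex_y1 : ∃ y : T a b, y * (1 - (pp : T a b) * δ) = 1 + (pp : T a b) * δ ∧ y * star y = 1 ∧
    ∃ w : T a b, y = 1 + (pp : T a b) * (2 * δ + (pp : T a b) * w) := by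
  obtain ⟨y, h1, h2, -⟩ := ex_y (a := a) (b := b) pp ⟨_, by rw [sq, mul_assoc]⟩
  rw [map_natCast] at h1
  exact ⟨y, h1, h2, δ ^ 2 * (1 + y), by linear_combination (1 + (pp : T a b) * δ) * h1⟩

variable (a b) in
/-- the generator of the elements of norm one which are congruent to one -/
def y₁ : T a b := ex_y1.choose

theorem y₁_eq : y₁ a b * (1 - (pp : T a b) * δ) = 1 + (pp : T a b) * δ := ex_y1.choose_spec.1

theorem y₁_star : y₁ a b * star (y₁ a b) = 1 := ex_y1.choose_spec.2.1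

theorem n₀ : (1 + pp : T a b) - 1 ∈ Jq a b I := jq1.2 (by simp)

theorem n₁ : y₁ a b - 1 ∈ Jq a b I := jq1.2 (by
  obtain ⟨w, e⟩ : ∃ w : T a b, y₁ a b = _ := ex_y1.choose_spec.2.2
  exact ⟨_, by rw [e, add_sub_cancel_left]⟩)

/-- the exponential -/
def Ex (x : T a b) : T a b := pz I (1 + pp) x.re * pz I (y₁ a b) x.im

variable {x x' v : T a b} {j : ℕ}

theorem Ex_add (x x' : T a b) : Ex (x + x') = Ex x * Ex x' := by
  rw [Ex, re_add, im_add, pz_add hp n₀, pz_add hp n₁, Ex, Ex]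
  ring

theorem Ex_zero : Ex (0 : T a b) = 1 := by
  rw [Ex, re_zero, im_zero, pz_zero hp n₀, pz_zero hp n₁, one_mul]

theorem Ex_neg (x : T a b) : Ex x * Ex (-x) = 1 := by rw [← Ex_add, add_neg_cancel, Ex_zero]

theorem Ex_pow (n : ℕ) (x : T a b) : Ex ((n : T a b) * x) = Ex x ^ n := by
  induction n with
  | zero => simpa using Ex_zero
  | succ n ih => rw [Nat.cast_succ, add_one_mul, Ex_add, ih, pow_succ]

theorem Ex_star (x : T a b) : star (Ex x) = Ex ⟨x.re, -x.im⟩ := by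
  have e : pz I (y₁ a b) x.im * pz I (star (y₁ a b)) x.im = 1 := by
    rw [← pz_mul hp n₁ (n1_star n₁), y₁_star, ← pz_zero hp (n₀ (a := a) (b := b)), pz_pz hp n₀,
      zero_mul]
  rw [Ex, star_mul', pz_star hp n₀, pz_star hp n₁, star_add, star_one, star_natCast, Ex]
  linear_combination pz I (1 + (pp : T a b)) x.re * (pz I (y₁ a b) (-x.im) * e -
    pz I (star (y₁ a b)) x.im * pz_neg hp n₁ x.im)

theorem Ex_lin (x : T a b) (j : ℕ) : (pp : T a b) ^ (j + 2) ∣ Ex ((pp : T a b) ^ j * x) -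
    (1 + (pp : T a b) ^ (j + 1) * (C x.re + C x.im * (2 * δ))) := by
  obtain ⟨w, e⟩ : ∃ w : T a b, y₁ a b = _ := ex_y1.choose_spec.2.2
  obtain ⟨q, f⟩ := lin (1 : T a b) x.re j
  obtain ⟨r, g⟩ := lin (2 * δ + (pp : T a b) * w : T a b) x.im j
  have c : (pp : T a b) ^ j * x = (pp : ℤ_[pp]) ^ j • x := by
    rw [Algebra.smul_def, map_pow, map_natCast]
  rw [mul_one, sub_eq_iff_eq_add] at f
  rw [← e, sub_eq_iff_eq_add] at g
  rw [c, Ex, re_smul, im_smul, smul_eq_mul, smul_eq_mul, f, g]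
  exact ⟨q * ((pp : T a b) ^ (j + 2) * r +
      (1 + (pp : T a b) ^ (j + 1) * (C x.im * (2 * δ + (pp : T a b) * w)))) +
    r * (1 + (pp : T a b) ^ (j + 1) * C x.re) + C x.im * w +
    (pp : T a b) ^ j * C x.re * (C x.im * (2 * δ + (pp : T a b) * w)), by ring⟩

theorem Ex_dvd (h : (pp : T a b) ^ j ∣ x) : (pp : T a b) ^ (j + 1) ∣ Ex x - 1 := by
  obtain ⟨x, rfl⟩ := h
  obtain ⟨q, f⟩ := Ex_lin x j
  exact ⟨(pp : T a b) * q + (C x.re + C x.im * (2 * δ)), by linear_combination f⟩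

theorem u4 : IsUnit (4 : ℤ_[pp]) := by
  rw [show (4 : ℤ_[pp]) = 2 * 2 by norm_num]
  exact unit_two.mul unit_two

theorem co_re (x : T a b) : (C x.re + C x.im * (2 * δ) : T a b) = ⟨x.re - 2 * b * x.im, 4 * x.im⟩ :=
  QuadraticAlgebra.ext (by simp [dl]; ring) (by simp [dl]; ring)

theorem dvd_Ex (h : (pp : T a b) ^ (j + 1) ∣ Ex x - 1) : (pp : T a b) ^ j ∣ x := by
  induction j with
  | zero => simp
  | succ j ih =>
    obtain ⟨x, rfl⟩ := ih ((pow_dvd_pow _ (Nat.le_succ _)).trans h)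
    have := dvd_sub h (Ex_lin x j)
    rw [sub_sub_sub_cancel_left, add_sub_cancel_left, co_re] at this
    obtain ⟨h1, h2⟩ := dv_iff.1 (pcd (j := 1) this)
    have h3 := u4.dvd_mul_left.1 h2
    rw [pow_succ]
    refine mul_dvd_mul_left _ ?_
    rw [← pow_one (pp : T a b)]
    exact dv_iff.2 ⟨by simpa using dvd_add h1 (h3.mul_left (2 * b)), h3⟩

theorem Ex_cong (h : (pp : T a b) ^ (j + 1) ∣ Ex x - Ex x') : (pp : T a b) ^ j ∣ x - x' := by
  refine dvd_Ex ?_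
  rw [sub_eq_add_neg x, Ex_add, ← Ex_neg x', ← sub_mul]
  exact h.mul_right _

theorem Ex_inj (h : Ex x = Ex x') : x = x' :=
  eq_of (I := I) fun k => jq.2 (Ex_cong (by simp [h]))

theorem Ex_apx (h : (pp : T a b) ∣ v - 1) (j : ℕ) : ∃ x, (pp : T a b) ^ (j + 1) ∣ v - Ex x := by
  induction j with
  | zero => exact ⟨0, by simpa [Ex_zero] using h⟩
  | succ j ih =>
    obtain ⟨x, w, e⟩ := ih
    obtain ⟨i, hi⟩ := u4.exists_left_inv
    have c := co_re (⟨(w * Ex (-x)).re + 2 * b * (i * (w * Ex (-x)).im), i * (w * Ex (-x)).im⟩ : T a b)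
    rw [add_sub_cancel_right, ← mul_assoc 4, mul_comm 4, hi, one_mul, mk_eta] at c
    obtain ⟨q, f⟩ := Ex_lin (⟨(w * Ex (-x)).re + 2 * b * (i * (w * Ex (-x)).im),
      i * (w * Ex (-x)).im⟩ : T a b) j
    rw [c] at f
    generalize (⟨_, _⟩ : T a b) = t at f
    refine ⟨x + (pp : T a b) ^ j * t, -(Ex x * q), ?_⟩
    rw [Ex_add]
    linear_combination e - Ex x * f - (pp : T a b) ^ (j + 1) * w * Ex_neg x

theorem Ex_sur (h : (pp : T a b) ∣ v - 1) : ∃ x, Ex x = v := by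
  choose x hx using Ex_apx h
  obtain ⟨X, hX⟩ := ex_lim (I := I) (fun k => x (k + 1)) fun m n le => jq.2 (Ex_cong (by
    simpa using dvd_sub ((pow_dvd_pow _ (by omega)).trans (hx (n + 1))) (hx (m + 1))))
  refine ⟨X, eq_of (I := I) fun k => jq.2 ?_⟩
  have := (Ex_dvd (jq.1 (hX k))).mul_left (Ex (x (k + 1)))
  rw [mul_sub, ← Ex_add, add_sub_cancel, mul_one] at this
  exact (pow_dvd_pow _ (Nat.le_succ _)).trans (by simpa using dvd_sub this (hx (k + 1)))

theorem Ex_one (x : T a b) : (pp : T a b) ∣ Ex x - 1 := by simpa using Ex_dvd (j := 0) (x := x)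

end Vale.Agent.P014X.Str
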