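import Vale.Agent.P014X.Fm.St
import Vale.Agent.P014X.Fm.Log

/-! # P014X, block FAM: the units of the completed order (row DEC) -/

set_option autoImplicit false
set_option linter.all false

open PadicInt IsLocalRing QuadraticAlgebra

noncomputable section

namespace Vale.Agent.P014X.Str

open Vale.Agent.P014U Vale.Agent.P014X.Pow
open Multiplicative (ofAdd)

variable [Pp] {a b : ℤ} {z : T a b}

theorem fer (r : ℤ_[pp]) : (pp : ℤ_[pp]) ∣ r ^ pp - r := by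
  rw [← Ideal.mem_span_singleton, ← maximalIdeal_eq_span_p, ← ker_toZMod, RingHom.mem_ker, map_sub,
    map_pow, ZMod.pow_card, sub_self]

theorem coo (z : T a b) : ∃ r s, z = C r + C s * δ := by
  obtain ⟨i, hi⟩ := unit_two.exists_left_inv
  exact ⟨z.re + b * (i * z.im), i * z.im, QuadraticAlgebra.ext (by simp [dl]; ring)
    (by simp [dl]; linear_combination -z.im * hi)⟩

/-- the discriminant -/
abbrev dd (a b : ℤ) : ℤ_[pp] := (b ^ 2 + 4 * a : ℤ)

theorem δ2 : (δ : T a b) ^ 2 = C (dd a b) := by rw [δ_sq, map_intCast]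

theorem hodd : pp = 2 * (pp / 2) + 1 := (Nat.two_mul_div_two_add_one_of_odd pp_odd).symm

theorem frob (r s : ℤ_[pp]) : (pp : T a b) ∣
    (C r + C s * δ : T a b) ^ pp - (C r + C (s * dd a b ^ (pp / 2)) * δ) := by
  obtain ⟨q, e⟩ := exists_add_pow_prime_eq pp_prime (C r : T a b) (C s * δ)
  obtain ⟨r', e1⟩ := C_dvd (a := a) (b := b) (fer r)
  obtain ⟨s', e2⟩ := C_dvd (a := a) (b := b) (fer s)
  have e3 : (δ : T a b) ^ pp = C (dd a b) ^ (pp / 2) * δ := by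
    rw [← δ2, ← pow_mul, ← pow_succ, ← hodd]
  rw [map_sub, map_pow] at e1 e2
  rw [e, mul_pow, e3, map_mul, map_pow]
  exact ⟨r' + s' * C (dd a b) ^ (pp / 2) * δ + C r * (C s * δ) * q, by
    linear_combination e1 + C (dd a b) ^ (pp / 2) * δ * e2⟩

theorem frob2 (r s : ℤ_[pp]) : (pp : T a b) ∣
    (C r + C s * δ : T a b) ^ pp ^ 2 - (C r + C (s * dd a b ^ (pp - 1)) * δ) := by
  have := dvd_add ((frob (a := a) (b := b) r s).trans (sub_dvd_pow_sub_pow _ _ pp))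
    (frob r (s * dd a b ^ (pp / 2)))
  rwa [sub_add_sub_cancel, ← pow_mul, ← sq, mul_assoc s, ← pow_add,
    show pp / 2 + pp / 2 = pp - 1 by have := hodd; omega] at this

/-- the exponent -/
abbrev hh : ℕ := pp ^ 2 - 1

theorem hh1 : hh + 1 = pp ^ 2 := Nat.sub_add_cancel (pow_pos pp_pos 2)

theorem hh0 : ¬ pp ∣ hh := fun h => pp_prime.ne_one (Nat.dvd_one.1
  ((Nat.dvd_add_right h).1 (hh1 ▸ dvd_pow_self pp two_ne_zero)))

theorem hhu : IsUnit (hh : ℤ_[pp]) := PadicInt.isUnit_iff.2 (le_antisymm (norm_le_one _)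
  (not_lt.1 fun h => hh0 (Int.natCast_dvd_natCast.1 ((norm_int_lt_one_iff_dvd _).1 h))))

theorem fer' (r : ℤ_[pp]) : (pp : ℤ_[pp]) ∣ r * (r ^ (pp - 1) - 1) := by
  rw [mul_sub, ← pow_succ', Nat.sub_add_cancel pp_pos, mul_one]
  exact fer r

theorem expo (u : (T a b)ˣ) : (pp : T a b) ∣ (u.1 ^ pp) ^ hh - 1 := by
  obtain ⟨r, s, e⟩ := coo u.1
  have h1 := e ▸ frob (a := a) (b := b) r s
  have h2 := dvd_add (h1.trans (sub_dvd_pow_sub_pow _ _ (pp ^ 2))) (frob2 r (s * dd a b ^ (pp / 2)))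
  have h3 : (pp : T a b) ∣ C (s * dd a b ^ (pp / 2) * (dd a b ^ (pp - 1) - 1)) * δ := by
    refine (C_dvd ?_).mul_right _
    obtain ⟨k, hk⟩ : ∃ k, pp / 2 = k + 1 := ⟨pp / 2 - 1, by have := hodd; have := two_lt; omega⟩
    rw [hk, pow_succ, mul_assoc, mul_assoc]
    exact ((fer' _).mul_left _).mul_left _
  refine (u ^ pp).isUnit.dvd_mul_left.1 ?_
  rw [Units.val_pow_eq_pow_val, mul_sub, ← pow_succ', hh1]
  convert dvd_sub (dvd_add h2 h3) h1 using 1
  simp only [map_mul, map_sub, map_one]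
  ring

theorem Ex_rt {x x' : T a b} {n : ℕ} (h : IsUnit (n : ℤ_[pp]) ∨ n = pp) (e : Ex x ^ n = Ex x' ^ n) :
    x = x' := by
  rw [← Ex_pow, ← Ex_pow] at e
  rcases h with h | rfl
  · exact (map_natCast C n ▸ h.map C).mul_left_cancel (Ex_inj e)
  · exact pc (Ex_inj e)

theorem exl (u : (T a b)ˣ) : ∃ x : T a b, Ex x ^ hh = (u.1 ^ pp) ^ hh := by
  obtain ⟨x, e⟩ := Ex_sur (expo u)
  obtain ⟨i, hi⟩ := hhu.exists_right_inv
  refine ⟨C i * x, ?_⟩
  rw [← Ex_pow, ← mul_assoc, ← map_natCast C, ← map_mul, hi, map_one, one_mul, e]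

/-- the logarithm of the power -/
def lg (u : (T a b)ˣ) : T a b := (exl u).choose

variable {u v : (T a b)ˣ} {x : T a b}

theorem lg_spec (u : (T a b)ˣ) : Ex (lg u) ^ hh = (u.1 ^ pp) ^ hh := (exl u).choose_spec

theorem lg_eq (h : Ex x ^ hh = (u.1 ^ pp) ^ hh) : lg u = x :=
  Ex_rt (.inl hhu) ((lg_spec u).trans h.symm)

theorem lg_mul (u v : (T a b)ˣ) : lg (u * v) = lg u + lg v := lg_eq (by
  rw [Ex_add, mul_pow, lg_spec, lg_spec, Units.val_mul, mul_pow, mul_pow])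

theorem lg_one : lg (1 : (T a b)ˣ) = 0 := lg_eq (by simp [Ex_zero])

theorem lg_star (u : (T a b)ˣ) : lg (star u) = ⟨(lg u).re, -(lg u).im⟩ := lg_eq (by
  rw [← Ex_star, ← star_pow, lg_spec, Units.coe_star, star_pow, star_pow])

/-- the part of order prime to `pp` -/
def th : (T a b)ˣ →* T a b where
  toFun u := (u.1 ^ pp * Ex (-lg u)) ^ pp
  map_one' := by simp [lg_one, Ex_zero]
  map_mul' u v := by
    rw [lg_mul, neg_add, Ex_add, Units.val_mul]
    ring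

theorem th_ap (u : (T a b)ˣ) : th u = (u.1 ^ pp * Ex (-lg u)) ^ pp := rfl

theorem th0 (u : (T a b)ˣ) : (u.1 ^ pp * Ex (-lg u)) ^ hh = 1 := by
  rw [mul_pow, ← lg_spec, ← mul_pow, Ex_neg, one_pow]

theorem th_ord (u : (T a b)ˣ) : th u ^ hh = 1 := by
  rw [th_ap, ← pow_mul, mul_comm pp, pow_mul, th0, one_pow]

theorem th_pow (u : (T a b)ˣ) : th u ^ pp * Ex (lg u) = u.1 ^ pp := by
  rw [th_ap, ← pow_mul, ← sq, ← hh1, pow_succ, th0, one_mul, mul_assoc, mul_comm (Ex _), Ex_neg, mul_one]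

theorem th_star (u : (T a b)ˣ) : th (star u) = star (th u) := by
  rw [th_ap, th_ap, star_pow, star_mul', star_pow, Ex_star, lg_star, Units.coe_star]
  rfl

theorem th_of (h : u.1 ^ pp = Ex x) : lg u = x ∧ th u = 1 := by
  have e := lg_eq (u := u) (x := x) (by rw [h])
  refine ⟨e, ?_⟩
  rw [th_ap, e, h, Ex_neg, one_pow]

/-- the other part -/
def un : (T a b)ˣ →* T a b where
  toFun u := u.1 * th u ^ (hh - 1)
  map_one' := by simp
  map_mul' u v := by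
    rw [map_mul, Units.val_mul]
    ring

theorem un_ap (u : (T a b)ˣ) : un u = u.1 * th u ^ (hh - 1) := rfl

theorem hh2 : hh - 1 + 1 = hh := Nat.sub_add_cancel (Nat.pos_of_ne_zero fun h => hh0 (h ▸ dvd_zero _))

theorem th_un (u : (T a b)ˣ) : th u * un u = u := by
  rw [un_ap, mul_left_comm, ← pow_succ', hh2, th_ord, mul_one]

theorem un_pow (u : (T a b)ˣ) : un u ^ pp = Ex (lg u) :=
  (((Group.isUnit u).map th).pow pp).mul_left_cancel (by rw [th_pow, ← mul_pow, th_un])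

theorem un_star (u : (T a b)ˣ) : un (star u) = star (un u) := by
  rw [un_ap, un_ap, star_mul', star_pow, th_star, Units.coe_star]

theorem sq1 (h : (pp : T a b) ∣ z - 1) : (pp : T a b) ^ 2 ∣ z ^ pp - 1 :=
  jq.1 (pw_p (k := 0) hp (jq.2 (by simpa using h)))

theorem Ex_nm (x : T a b) : Ex x * star (Ex x) = Ex ⟨2 * x.re, 0⟩ := by
  rw [Ex_star, ← Ex_add, two_mul]
  exact congrArg Ex (QuadraticAlgebra.ext rfl (add_neg_cancel _))

theorem un_nm (u : (T a b)ˣ) : (pp : T a b) ∣ un u * star (un u) - 1 := by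
  have := dvd_sub (Ex_one ⟨2 * (lg u).re, 0⟩) (C_dvd (a := a) (b := b) (fer (un u).norm))
  rw [← Ex_nm, ← un_pow, star_pow, ← mul_pow, map_sub, map_pow, algebraMap_norm_eq_mul_star] at this
  simpa using this

theorem lg_re (u : (T a b)ˣ) : (pp : ℤ_[pp]) ∣ (lg u).re := by
  have := sq1 (un_nm u)
  rw [mul_pow, ← star_pow, un_pow, Ex_nm] at this
  simpa using unit_two.dvd_mul_left.1 (dv_iff.1 (dvd_Ex this)).1

/-! ### the three cases -/

theorem unr (h : ¬ (pp : ℤ) ∣ b ^ 2 + 4 * a) (e : (pp : T a b) ∣ z ^ pp - 1) : (pp : T a b) ∣ z - 1 := by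
  obtain ⟨r, s, rfl⟩ := coo z
  have u : IsUnit (dd a b) := PadicInt.isUnit_iff.2 (le_antisymm (norm_le_one _)
    (not_lt.1 fun k => h ((norm_int_lt_one_iff_dvd _).1 k)))
  have h1 := (C_dvd (a := a) (b := b) ((u.dvd_mul_left.1 (fer' _)).mul_left s)).mul_right δ
  have h2 := (dvd_pow_self _ two_ne_zero).trans (sq1 e)
  rw [← pow_mul, ← sq] at h2
  convert dvd_sub (dvd_sub h2 (frob2 r s)) h1 using 1
  simp only [map_mul, map_sub, map_one]
  ring

theorem re1 {r s : ℤ_[pp]} (h : (pp : ℤ_[pp]) ∣ dd a b)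
    (e : (pp : T a b) ∣ (C r + C s * δ : T a b) ^ pp - 1) : (pp : ℤ_[pp]) ∣ r - 1 := by
  have h1 : (pp : T a b) ∣ C (s * dd a b ^ (pp / 2)) * δ := (C_dvd ((h.trans (dvd_pow_self _ (by
    have := hodd; have := two_lt; omega))).mul_left s)).mul_right _
  have := dvd_sub (dvd_sub e (frob r s)) h1
  rw [sub_sub_sub_cancel_left, sub_right_comm, add_sub_cancel_right, ← map_one C, ← map_sub,
    ← map_natCast C] at this
  exact algebraMap_dvd_iff_dvd.1 this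

theorem three (h : pp = 3) (d : b ^ 2 + 4 * a = -pp) (e : (pp : T a b) ∣ z ^ pp - 1) :
    (pp : T a b) ^ 2 ∣ z ^ pp - 1 := by
  obtain ⟨r, s, rfl⟩ := coo z
  have d1 : dd a b = -pp := by rw [dd, d]; simp
  obtain ⟨ρ, e1⟩ := re1 (d1 ▸ dvd_rfl.neg_right) e
  obtain ⟨σ, e2⟩ := C_dvd (a := a) (b := b) (fer s)
  have e3 := δ2 (a := a) (b := b)
  have e1 := congrArg (C (a := a) (b := b)) e1
  rw [map_sub, map_mul, map_one, map_natCast] at e1
  rw [map_sub, map_pow] at e2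
  rw [d1, map_neg, map_natCast] at e3
  have e4 : ∀ y : T a b, y ^ pp = y ^ 3 := fun y => by rw [← h]
  have e5 : (pp : T a b) = 3 := by rw [show (3 : T a b) = (3 : ℕ) from rfl, ← h]
  rw [e4]
  rw [e4] at e2
  rw [e5] at e1 e2 e3 ⊢
  clear e
  generalize C (a := a) (b := b) r = R, C (a := a) (b := b) s = S, C (a := a) (b := b) ρ = P at *
  obtain rfl : R = 1 + 3 * P := by linear_combination e1
  exact ⟨P + 3 * P ^ 2 + 3 * P ^ 3 - (1 + 3 * P) * S ^ 2 + (S * (2 * P + 3 * P ^ 2) - σ) * δ, by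
    linear_combination (3 * (1 + 3 * P) * S ^ 2 + S ^ 3 * δ) * e3 - 3 * δ * e2⟩

theorem ram (h : 3 < pp) (d : (pp : ℤ_[pp]) ∣ dd a b) (e : (pp : T a b) ^ 2 ∣ z ^ pp - 1) :
    (pp : T a b) ∣ z - 1 := by
  obtain ⟨r, s, rfl⟩ := coo z
  have r1 := C_dvd (a := a) (b := b) (re1 d ((dvd_pow_self _ two_ne_zero).trans e))
  rw [map_sub, map_one] at r1
  obtain ⟨i, hi⟩ := (un1 r1).exists_left_inv
  obtain ⟨q, e1⟩ := bin (i * C s * δ : T a b) pp
  obtain ⟨c2, e2⟩ := pp_prime.dvd_choose_self two_ne_zero two_lt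
  obtain ⟨c3, e3⟩ := pp_prime.dvd_choose_self three_ne_zero h
  obtain ⟨t, e4⟩ := δ2 (a := a) (b := b) ▸ C_dvd (a := a) (b := b) d
  have e5 : (C r + C s * δ : T a b) = C r * (1 + i * C s * δ) := by
    linear_combination -(C s * δ) * hi
  have e6 : (pp : T a b) ^ 2 ∣ (1 + i * C s * δ) ^ pp - 1 := by
    convert dvd_sub e ((sq1 r1).mul_right ((1 + i * C s * δ) ^ pp)) using 1
    rw [e5, mul_pow]
    ring
  have e7 : (pp : T a b) ^ (1 + 1) ∣ (pp : T a b) ^ 1 * (i * C s * δ) := by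
    rw [e1, e2, e3] at e6
    convert dvd_sub e6 (dvd_mul_right _ (((c2 : T a b) + (c3 : T a b) * (i * C s * δ)) *
      (i * C s) ^ 2 * t + (i * C s) ^ 4 * t ^ 2 * q)) using 1
    push_cast
    linear_combination -((pp : T a b) * (c2 + c3 * (i * C s * δ)) * (i * C s) ^ 2 +
      (i * C s) ^ 4 * q * (δ ^ 2 + pp * t)) * e4
  rw [e5]
  convert dvd_add r1 ((pow_one (pp : T a b) ▸ pcd e7).mul_left (C r)) using 1
  ring

theorem Ex1 : Ex (1 : T a b) = 1 + pp := by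
  rw [Ex, re_one, im_one, pz_one hp n₀, pz_zero hp n₁, mul_one]

theorem Ex2 : Ex (⟨0, 1⟩ : T a b) = y₁ a b := by
  rw [Ex, pz_one hp n₁, pz_zero hp n₀, one_mul]

/-- the quotient -/
def qt {c : ℤ_[pp]} (c0 : c ≠ 0) (f : (T a b)ˣ → ℤ_[pp]) (m : ∀ u v, f (u * v) = f u + f v)
    (d : ∀ u, c ∣ f u) : (T a b)ˣ →* Multiplicative ℤ_[pp] :=
  MonoidHom.mk' (fun u => ofAdd (d u).choose) fun u v => by
    rw [← ofAdd_add]
    refine congrArg _ (mul_left_cancel₀ c0 ?_)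
    rw [mul_add, ← (d u).choose_spec, ← (d v).choose_spec, ← (d _).choose_spec, m]

theorem qt_eq {c : ℤ_[pp]} (c0 : c ≠ 0) (f : (T a b)ˣ → ℤ_[pp]) (m d) (u : (T a b)ˣ) :
    c * (qt c0 f m d u).toAdd = f u := (d u).choose_spec.symm

theorem pn : ((pp : ℕ) : ℤ_[pp]) ≠ 0 := Nat.cast_ne_zero.2 pp_ne

theorem ex_e {c : ℤ_[pp]} (c0 : c ≠ 0) (d : ∀ u : (T a b)ˣ, c ∣ (lg u).im) :
    ∃ ep em : (T a b)ˣ →* Multiplicative ℤ_[pp],
      ∀ u, lg u = ⟨pp * (ep u).toAdd, c * (em u).toAdd⟩ :=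
  ⟨qt pn (fun u => (lg u).re) (fun u v => by rw [lg_mul, re_add]) lg_re,
    qt c0 (fun u => (lg u).im) (fun u v => by rw [lg_mul, im_add]) d,
    fun u => by rw [qt_eq, qt_eq]⟩

theorem tz {x : ℤ_[pp]} {j m : ℕ} (h : toZModPow j x = m) : (pp : ℤ_[pp]) ^ j ∣ x - m := by
  rw [← Ideal.mem_span_singleton, ← ker_toZModPow, RingHom.mem_ker, map_sub, h, map_natCast,
    sub_self]

theorem mk (y : (T a b)ˣ) (t c c' : ℤ_[pp]) (t0 : t ≠ 0) (yt : y.1 * (1 - C t * δ) = 1 + C t * δ)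
    (yn : y.1 * star y.1 = 1) (sm : (pp : T a b) ^ 2 ∣ (y.1 - 1) ^ (pp - 1)) (cc : c * c' = pp)
    (yc : y.1 ^ pp = Ex ⟨0, c⟩) (ep em : (T a b)ˣ →* Multiplicative ℤ_[pp])
    (e : ∀ u, lg u = ⟨pp * (ep u).toAdd, c * (em u).toAdd⟩) (φ : (T a b)ˣ →* T a b)
    (cub : ∀ u, φ u = 1 ∨ pp = 3 ∧ φ u * star (φ u) = 1 ∧ φ u + star (φ u) = -1)
    (unr : ¬ (pp : ℤ) ∣ b ^ 2 + 4 * a → φ = 1) (st : ∀ u, φ (star u) = star (φ u))
    (φ1 : ∀ u : (T a b)ˣ, (pp : T a b) ∣ u.1 - 1 → φ u = 1) (φy : φ y = 1)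
    (rg : ∀ u (m n : ℕ) z, z * (φ u * (1 + pp) ^ m * y.1 ^ n) = un u →
      (pp : T a b) ^ 2 ∣ z ^ pp - 1 → (pp : T a b) ∣ z - 1) : Nonempty (Fm.Dc a b) := by
  have c0 : c ≠ 0 := left_ne_zero_of_mul (cc ▸ pn)
  obtain ⟨Y, hY⟩ := un1 (jq1.1 (n₀ (a := a) (b := b)))
  have ev : ∀ u (x₁ x₂ : ℤ_[pp]), lg u = ⟨pp * x₁, c * x₂⟩ → ep u = ofAdd x₁ ∧ em u = ofAdd x₂ :=
    fun u x₁ x₂ h => by
      rw [e u] at h
      have h1 : (ep u).toAdd = x₁ := mul_left_cancel₀ pn (congrArg re h)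
      have h2 : (em u).toAdd = x₂ := mul_left_cancel₀ c0 (congrArg im h)
      exact ⟨congrArg ofAdd h1, congrArg ofAdd h2⟩
  have ex : ∀ (u : (T a b)ˣ) x, u.1 = Ex x →
      th u = 1 ∧ ep u = ofAdd x.re ∧ em u = ofAdd (c' * x.im) := fun u x h => by
    obtain ⟨h1, h2⟩ := th_of (u := u) (by rw [h, ← Ex_pow])
    exact ⟨h2, ev u _ _ (h1.trans (QuadraticAlgebra.ext (by simp) (by simp [← mul_assoc, cc])))⟩
  have φp : ∀ u, φ u ^ pp = 1 := fun u => by
    rcases cub u with h | ⟨h, h1, h2⟩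
    · rw [h, one_pow]
    · rw [show φ u ^ pp = φ u ^ 3 by rw [← h]]
      linear_combination (φ u ^ 2 - φ u) * h2 + (1 - φ u) * h1
  refine ⟨⟨th, φ, ep, em, y, Y, hY, Units.ext yn, fun h => ?_, sm, fun u j m n h1 h2 => ?_,
    ⟨hh, hh0, th_ord⟩, cub, unr, fun u => ⟨th_star u, st u, ev _ (ep u).toAdd (-(em u).toAdd) (by
      rw [lg_star, e u, mul_neg])⟩, fun u j h => ?_, ?_, ?_, fun u h => ?_⟩⟩
  · have h1 := congrArg star yt
    rw [star_mul', ← Units.coe_star, ← h, star_sub, star_add, star_one, star_mul', C_star,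
      δ_star] at h1
    have h2 : (2 : T a b) * y = 2 * 1 := by linear_combination yt + h1
    have u2 : IsUnit (2 : T a b) := by simpa [map_ofNat] using unit_two.map (C (a := a) (b := b))
    rw [u2.mul_left_cancel h2] at yt
    have h3 : (C t * δ + C t * δ : T a b) = 0 := by linear_combination -yt
    simpa [dl, t0, ← two_mul] using congrArg im h3
  · rcases j with _ | j
    · simp
    obtain ⟨z, hz⟩ : (φ u * (1 + pp) ^ m * y.1 ^ n) ∣ un u :=
      ((((Group.isUnit u).map φ).mul ((hY ▸ Y.isUnit).pow m)).mul (y.isUnit.pow n)).dvd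
    have z1 : Ex (lg u) = Ex ((pp : T a b) * (m : T a b) + (n : T a b) * (⟨0, c⟩ : T a b)) * z ^ pp := by
      rw [← un_pow, hz, Ex_add, Ex_pow n, ← yc, ← mul_one ((m : ℕ) : T a b), Ex_pow, Ex_pow,
        Ex1, mul_pow, mul_pow, mul_pow, φp u]
      ring
    have z2 : (pp : T a b) ^ (j + 2) ∣ z ^ pp - 1 := by
      have := Ex_dvd (x := lg u + -((pp : T a b) * (m : T a b) + (n : T a b) * (⟨0, c⟩ : T a b))) (j := j + 1) (dv_iff.2 ⟨by
        simpa [e u, ← sub_eq_add_neg, ← mul_sub] using (tz h1).mul_left pp, by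
        simpa [e u, ← sub_eq_add_neg, mul_comm _ c, ← mul_sub] using (tz h2).mul_left c⟩)
      rwa [Ex_add, z1, mul_right_comm, Ex_neg, one_mul] at this
    obtain ⟨x, rfl⟩ := Ex_sur (rg u m n z (by rw [hz, mul_comm])
      ((pow_dvd_pow _ (by omega)).trans z2))
    rw [← Ex_pow] at z2
    have z3 := Ex_dvd (pcd (k := 1) (j := j) (by simpa [add_comm] using dvd_Ex z2))
    rw [← th_un u, hz, hY]
    convert z3.mul_left (th u * φ u * (1 + pp) ^ m * y.1 ^ n) using 1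
    ring
  · have h0 := (dvd_pow_self _ j.succ_ne_zero).trans h
    obtain ⟨x, hx⟩ := Ex_sur h0
    obtain ⟨h1, h2, h3⟩ := ex u x hx.symm
    obtain ⟨h4, h5⟩ := dv_iff.1 (dvd_Ex (hx ▸ h))
    exact ⟨h1, h2 ▸ h4, h3 ▸ h5.mul_left _, φ1 u h0⟩
  · obtain ⟨h1, h2, h3⟩ := ex Y 1 (hY.trans Ex1.symm)
    exact ⟨h1, φ1 Y (by simp [hY]), h2, by simpa using h3⟩
  · obtain ⟨h1, h2⟩ := th_of yc
    exact ⟨h2, φy, ev y 0 1 (by simpa using h1)⟩
  · refine isOfFinOrder_iff_pow_eq_one.2 ⟨pp * hh, Nat.mul_pos pp_pos (hh2 ▸ Nat.succ_pos _),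
      Units.ext ?_⟩
    have : lg (u * star u) = 0 := by
      rw [lg_mul, lg_star, e u, h]
      exact QuadraticAlgebra.ext (by simp) (by simp)
    rw [Units.val_pow_eq_pow_val, pow_mul, ← lg_spec, this, Ex_zero, one_pow, Units.val_one]

theorem decA (h : ¬ (pp : ℤ) ∣ b ^ 2 + 4 * a ∨ pp = 3 ∧ b ^ 2 + 4 * a = -pp) :
    Nonempty (Fm.Dc a b) := by
  have q : ∀ z : T a b, (pp : T a b) ∣ z ^ pp - 1 → (pp : T a b) ^ 2 ∣ z ^ pp - 1 := fun z e =>
    h.elim (fun h => sq1 (unr h e)) fun h => three h.1 h.2 e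
  obtain ⟨ep, em, e⟩ := ex_e (a := a) (b := b) pn fun u => by
    have := (dv_iff.1 (dvd_Ex (un_pow u ▸ q _ (un_pow u ▸ Ex_one _)))).2
    rwa [pow_one] at this
  let l : (T a b)ˣ → T a b := fun u => ⟨(ep u).toAdd, (em u).toAdd⟩
  have e' : ∀ u, lg u = (pp : T a b) * l u := fun u =>
    (e u).trans (QuadraticAlgebra.ext (by simp [l]) (by simp [l]))
  have lm : ∀ u v, l (u * v) = l u + l v := fun u v => pc (by rw [mul_add, ← e', ← e', ← e', lg_mul])
  have ls : ∀ u, l (star u) = ⟨(l u).re, -(l u).im⟩ := fun u => pc (by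
    rw [← e', lg_star, e']
    exact QuadraticAlgebra.ext (by simp) (by simp))
  let φ : (T a b)ˣ →* T a b :=
    { toFun := fun u => un u * Ex (-l u)
      map_one' := by
        rw [pc (U := l 1) (V := 0) (by rw [← e', lg_one, mul_zero])]
        simp [Ex_zero]
      map_mul' := fun u v => by
        rw [lm, neg_add, Ex_add, map_mul]
        ring }
  have φ0 : ∀ u, φ u = un u * Ex (-l u) := fun _ => rfl
  have φp : ∀ u, φ u ^ pp = Ex 0 ^ pp := fun u => by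
    rw [φ0, mul_pow, un_pow, e', Ex_pow, ← mul_pow, Ex_neg, Ex_zero]
  have φe : ∀ u, (pp : T a b) ∣ φ u - 1 → φ u = 1 := fun u k => by
    obtain ⟨x, hx⟩ := Ex_sur k
    have : x = 0 := Ex_rt (.inr rfl) (hx ▸ φp u)
    rw [← hx, this, Ex_zero]
  have φ1 : ∀ u : (T a b)ˣ, (pp : T a b) ∣ u.1 - 1 → φ u = 1 := fun u k => φe u (by
    obtain ⟨x, hx⟩ := Ex_sur k
    have := th_un u
    rw [(th_of (u := u) (by rw [← hx, ← Ex_pow])).2, one_mul] at this
    rw [φ0, this]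
    exact jq1.1 (one_mul' (jq1.2 k) (jq1.2 (Ex_one _))))
  have ur : ¬ (pp : ℤ) ∣ b ^ 2 + 4 * a → ∀ u, φ u = 1 := fun k u =>
    φe u (unr k (by simp [φp, Ex_zero]))
  obtain ⟨y, hy⟩ := un1 (jq1.1 (n₁ (a := a) (b := b)))
  have y1 : (pp : T a b) ∣ y.1 - 1 := hy ▸ jq1.1 n₁
  refine mk y pp pp 1 pn (by rw [map_natCast, hy, y₁_eq]) (hy ▸ y₁_star)
    (pow_dvd_pow_of_dvd_of_le y1 (by have := two_lt; omega)) (mul_one _) (by
      rw [hy, ← Ex2, ← Ex_pow]
      exact congrArg Ex (QuadraticAlgebra.ext (by simp) (by simp))) ep em e φ (fun u => ?_)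
    (fun k => MonoidHom.ext (ur k)) (fun u => by
      rw [φ0, φ0, un_star, ls, star_mul', Ex_star]
      rfl) φ1 (φ1 y y1) fun u m n z k _ => ?_
  · refine h.elim (fun k => .inl (ur k u)) fun k => or_iff_not_imp_left.2 fun n => ⟨k.1, ?_⟩
    have h3 : φ u ^ 3 = 1 := by rw [← k.1, φp, Ex_zero, one_pow]
    have h1 : φ u * star (φ u) = 1 := by
      obtain ⟨x, hx⟩ := Ex_sur (v := φ u * star (φ u)) (by
        rw [φ0, star_mul', mul_mul_mul_comm, Ex_nm]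
        exact jq1.1 (one_mul' (jq1.2 (un_nm u)) (jq1.2 (Ex_one _))))
      have : x = 0 := Ex_rt (.inr rfl) (by
        rw [hx, mul_pow, ← star_pow, φp, Ex_zero, one_pow, star_one, mul_one])
      rw [← hx, this, Ex_zero]
    obtain ⟨r, s, k⟩ := coo (φ u)
    have h4 : φ u + star (φ u) + 1 = C (2 * r + 1) := by
      rw [k, star_add, star_mul', C_star, C_star, δ_star, map_add, map_mul, map_ofNat, map_one]
      ring
    have h5 : (2 * r + 1) • (φ u - 1) = 0 := by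
      rw [Algebra.smul_def, ← h4]
      linear_combination star (φ u) * h3 - (φ u ^ 2 - 1) * h1
    have h6 : 2 * r + 1 = 0 := by_contra fun z => n (sub_eq_zero.1 (QuadraticAlgebra.ext
      ((mul_eq_zero.1 (congrArg re h5)).resolve_left z)
      ((mul_eq_zero.1 (congrArg im h5)).resolve_left z)))
    exact ⟨h1, by rw [eq_neg_iff_add_eq_zero, h4, h6, map_zero]⟩
  · have w := jq1.1 (one_mul' (one_mul' (jq1.2 (Ex_one (-l u))) (one_pow' n₀ m))
      (one_pow' (jq1.2 y1) n))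
    have k1 : z * (Ex (-l u) * (1 + pp) ^ m * y.1 ^ n) = 1 :=
      ((Group.isUnit u).map un).mul_left_cancel (by rw [φ0] at k; linear_combination k)
    convert (w.mul_left z).neg_right using 1
    linear_combination k1

theorem decB (h : 3 < pp) (d : b ^ 2 + 4 * a = -pp) : Nonempty (Fm.Dc a b) := by
  have d1 : dd a b = -pp := by rw [dd, d]; simp
  have d2 : (pp : ℤ_[pp]) ∣ dd a b := d1 ▸ dvd_rfl.neg_right
  have d3 : (δ : T a b) ^ 2 = -pp := by rw [δ2, d1, map_neg, map_natCast]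
  obtain ⟨Y, y1, y2, -⟩ := ex_y (a := a) (b := b) 1 (by simpa using d2)
  obtain ⟨y, rfl⟩ := IsUnit.of_mul_eq_one _ y2
  have y3 : y.1 - 1 = δ * (1 + y.1) := by
    rw [map_one] at y1
    linear_combination y1
  have y4 : (pp : T a b) ^ 2 ∣ (y.1 - 1) ^ 4 := ⟨(1 + y.1) ^ 4, by
    rw [y3]
    linear_combination (δ ^ 2 - pp) * (1 + y.1) ^ 4 * d3⟩
  have p5 : 4 ≤ pp - 1 := by have := hodd; omega
  have y5 : (pp : T a b) ∣ y.1 ^ pp - 1 := by
    obtain ⟨q, k⟩ := exists_add_pow_prime_eq pp_prime (1 : T a b) (y.1 - 1)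
    rw [add_sub_cancel, one_pow, add_assoc] at k
    rw [k, add_sub_cancel_left]
    exact dvd_add (((dvd_pow_self _ two_ne_zero).trans y4).trans (pow_dvd_pow _ (by omega)))
      (((dvd_mul_right _ _).mul_right _).mul_right _)
  obtain ⟨x, hx⟩ := Ex_sur y5
  have x0 : x = ⟨0, x.im⟩ := by
    have := Ex_nm x
    rw [hx, star_pow, ← mul_pow, y2, one_pow, ← Ex_zero] at this
    exact QuadraticAlgebra.ext (by simpa using congrArg re (Ex_inj this)) rfl
  have xu : IsUnit x.im := by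
    by_contra k
    have k1 := Ex_dvd (x := x) (j := 1) (dv_iff.2 ⟨by rw [x0]; simp, by
      simpa [← Ideal.mem_span_singleton, ← maximalIdeal_eq_span_p] using k⟩)
    have k2 := ram h d2 (hx ▸ k1)
    have k3 : (pp : T a b) ^ 1 ∣ 2 * δ := by
      convert dvd_sub k2 (k2.mul_left δ) using 1
      · rw [pow_one]
      · linear_combination -y3
    have k4 := (dv_iff.1 k3).2
    have k5 : (pp : ℤ_[pp]) ∣ 4 := by
      convert k4 using 1 <;> simp [dl]
      norm_num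
    exact (PadicInt.irreducible_p (p := pp)).not_isUnit (isUnit_of_dvd_unit k5 u4)
  obtain ⟨i, hi⟩ := xu.exists_right_inv
  obtain ⟨ep, em, e⟩ := ex_e (a := a) (b := b) xu.ne_zero fun u => xu.dvd
  exact mk y 1 x.im (i * pp) one_ne_zero y1 y2 (y4.trans (pow_dvd_pow _ p5))
    (by rw [← mul_assoc, hi, one_mul]) (by rw [← x0, hx]) ep em e 1 (fun _ => .inl rfl)
    (fun _ => rfl) (fun _ => (star_one _).symm) (fun _ _ => rfl) rfl fun _ _ _ _ _ => ram h d2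

end Vale.Agent.P014X.Str

namespace Vale.Agent.P014X.Fm

open Vale.Agent.P014U

variable [Pp]

/-- **DEC** -/
theorem dec0 : DEC := fun a b h => by
  by_cases d : (pp : ℤ) ∣ b ^ 2 + 4 * a
  · rcases (show 3 ≤ pp from two_lt).eq_or_lt with e | e
    · exact Str.decA (.inr ⟨e.symm, h d⟩)
    · exact Str.decB e (h d)
  · exact Str.decA (.inl d)

end Vale.Agent.P014X.Fm
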