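import Vale.Agent.P014X.Fm.St

/-! # P014X, block FAM: an odd ramified prime is the discriminant -/

set_option autoImplicit false

namespace Vale.Agent.P014X.Fm.Dsc

open QuadraticAlgebra

theorem ex_nm {a b : ℤ} (neg : b ^ 2 + 4 * a < 0) (pid : IsPrincipalIdealRing (QuadraticAlgebra ℤ a b))
    {l : ℕ} (hl : l.Prime) {r : ℤ} (h : (l : ℤ) ∣ r ^ 2 - b * r - a) :
    ∃ x y : ℤ, x ^ 2 + b * x * y - a * y ^ 2 = l := by
  let w : QuadraticAlgebra ℤ a b := ⟨-r, 1⟩
  obtain ⟨π, e⟩ := (pid.principal (Ideal.span {(l : QuadraticAlgebra ℤ a b), w})).principal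
  have h0 {z} (k : z ∈ ({(l : QuadraticAlgebra ℤ a b), w} : Set _)) : π ∣ z :=
    Ideal.mem_span_singleton.1 (e.le (Ideal.subset_span k))
  have h1 : π ∣ l := h0 (by simp)
  have h2 : π ∣ w := h0 (by simp)
  have h3 : π ∈ Ideal.span {(l : QuadraticAlgebra ℤ a b), w} :=
    e ▸ Ideal.mem_span_singleton_self π
  have nd {z : QuadraticAlgebra ℤ a b} (k : z.im = 1 ∨ z.im = -1) :
      ¬ (l : QuadraticAlgebra ℤ a b) ∣ z := fun ⟨u, hu⟩ => by
    have : z.im = l * u.im := by rw [hu]; simp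
    have : (l : ℤ) ∣ 1 := k.elim (fun k => ⟨u.im, k ▸ this⟩) fun k => ⟨-u.im, by linarith⟩
    exact hl.one_lt.ne' (by exact_mod_cast Int.eq_one_of_dvd_one (by positivity) this)
  have n0 : 0 ≤ π.norm := by rw [norm_def]; nlinarith [sq_nonneg (2 * π.re + b * π.im), sq_nonneg π.im]
  obtain ⟨u, hu⟩ := h1
  have n1 : π.norm * u.norm = l ^ 2 := by rw [← map_mul, ← hu, QuadraticAlgebra.norm_natCast]
  have n2 : π.norm.toNat ∣ l ^ 2 := by
    rw [← Int.natCast_dvd_natCast, Int.toNat_of_nonneg n0]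
    exact ⟨u.norm, by exact_mod_cast n1.symm⟩
  obtain ⟨i, hi, n3⟩ := (Nat.dvd_prime_pow hl).1 n2
  have n4 : π.norm = l ^ i := by rw [← Int.toNat_of_nonneg n0, n3]; simp
  refine ⟨π.re, π.im, ?_⟩
  interval_cases i
  · exfalso
    have un : IsUnit π := isUnit_iff_norm_isUnit.2 (by simp [n4])
    obtain ⟨s, t, st⟩ := Ideal.mem_span_pair.1 h3
    refine nd (z := star w) (.inr (by simp [w])) (un.dvd_mul_left.1 ?_)
    obtain ⟨c, hc⟩ := h
    have : w * star w = l * c := by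
      rw [← algebraMap_norm_eq_mul_star, show w.norm = l * c by rw [← hc, norm_def]; simp [w]; ring]
      simp
    exact ⟨s * star w + t * c, by rw [← st]; linear_combination t * this⟩
  · rw [norm_def] at n4
    linear_combination n4
  · exfalso
    have l0 : (l : ℤ) ^ 2 ≠ 0 := pow_ne_zero _ (by exact_mod_cast hl.ne_zero)
    rw [n4] at n1
    have un : IsUnit u := isUnit_iff_norm_isUnit.2 (by
      rw [mul_left_cancel₀ l0 (n1.trans (mul_one _).symm)]; simp)
    exact nd (z := w) (.inl rfl) (hu ▸ un.mul_right_dvd.2 h2)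

theorem core {a b : ℤ} (neg : b ^ 2 + 4 * a < 0) (pid : IsPrincipalIdealRing (QuadraticAlgebra ℤ a b))
    {p : ℕ} (hp : p.Prime) (p2 : 2 < p) (h : (p : ℤ) ∣ b ^ 2 + 4 * a) : b ^ 2 + 4 * a = -p := by
  obtain ⟨m, hm⟩ := hp.odd_of_ne_two p2.ne'
  have hm' : (p : ℤ) = 2 * m + 1 := by exact_mod_cast hm
  have P : Prime (p : ℤ) := Nat.prime_iff_prime_int.1 hp
  have p3 : (3 : ℤ) ≤ p := by exact_mod_cast p2
  obtain ⟨d, hd⟩ := h
  obtain ⟨x, y, e⟩ := ex_nm neg pid hp (r := b * (m + 1)) ⟨(m + 1) ^ 2 * (b ^ 2 * p - d) -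
      (p + 2) * ((b * (m + 1)) ^ 2 - b * (b * (m + 1)) - a), by
    rw [hm'] at hd ⊢
    linear_combination (-(m + 1) ^ 2 : ℤ) * hd⟩
  have q : (2 * x + b * y) ^ 2 = p * (4 + d * y ^ 2) := by linear_combination 4 * e + y ^ 2 * hd
  obtain ⟨t, ht⟩ := P.dvd_of_dvd_pow ⟨_, q⟩
  have q' : p * t ^ 2 = 4 + d * y ^ 2 := mul_left_cancel₀ P.ne_zero (by rw [← q, ht]; ring)
  have d0 : d < 0 := by nlinarith
  have y0 : y ≠ 0 := by
    rintro rfl
    have : (p : ℤ) ∣ 2 ^ 2 := ⟨t ^ 2, by linarith⟩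
    have := Int.le_of_dvd two_pos (P.dvd_of_dvd_pow this)
    omega
  have y1 : 0 < y ^ 2 := by positivity
  have d1 : d = -1 ∨ d = -4 := by
    by_cases t0 : t = 0
    · subst t0
      have : -4 ≤ d := by nlinarith
      have y2 : y ^ 2 ≤ 4 := by nlinarith
      have : -2 ≤ y := by nlinarith
      have : y ≤ 2 := by nlinarith
      interval_cases y <;> omega
    · have : 0 < t ^ 2 := by positivity
      left
      nlinarith
  rcases d1 with rfl | rfl
  · linarith
  · exfalso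
    obtain ⟨c, rfl⟩ : (2 : ℤ) ∣ b := Int.prime_two.dvd_of_dvd_pow (n := 2) ⟨-2 * a - 2 * p, by linarith⟩
    obtain ⟨k, hk⟩ := Int.even_mul_succ_self (a - 1)
    obtain ⟨x, y, e⟩ := ex_nm neg pid Nat.prime_two (r := a) ⟨k - c * a, by push_cast; linarith⟩
    have q : (x + c * y) ^ 2 + p * y ^ 2 = 2 := by
      push_cast at e
      have z : c ^ 2 + a = -p := by linarith
      linear_combination e + y ^ 2 * z
    have : y = 0 := by
      by_contra y0
      nlinarith [sq_nonneg (x + c * y), (by positivity : 0 < y ^ 2)]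
    subst this
    have : -2 < x := by nlinarith
    have : x < 2 := by nlinarith
    interval_cases x <;> simp at q

end Vale.Agent.P014X.Fm.Dsc

namespace Vale.Agent.P014X.Fm

open Vale.Agent.P014U

theorem dsc [Pp] : DSC := fun _ _ D h => Dsc.core D.neg D.pid pp_prime two_lt h

end Vale.Agent.P014X.Fm
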