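import Vale.Agent.P014X.Fm.St
import Vale.Agent.P014X.Fm.Crk

/-! # P014X: the embedding of the completed order (row `EMB`) -/

set_option autoImplicit false
set_option linter.all false

open IsLocalRing Function Module QuadraticAlgebra
open scoped Classical

noncomputable section

namespace Vale.Agent.P014X.Fm

open Vale.Agent.P014U
open Pow (qm_star)

variable [Pp]

namespace Emb

variable {k : ℕ} (C : Cr k) {a b : ℤ}

/-- the Gauss sum -/
theorem ex_sqrt (h : b ^ 2 + 4 * a = -pp) : ∃ s : C.O, s ^ 2 = -pp := by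
  have h3 : pp % 4 = 3 := by
    have := pp_odd
    rw [Nat.odd_iff] at this
    rcases Int.even_or_odd' b with ⟨c, rfl | rfl⟩
    · have : (pp : ℤ) = 4 * (-c ^ 2 - a) := by linear_combination h
      omega
    · have : (pp : ℤ) = 4 * (-c ^ 2 - c - a) - 1 := by linear_combination h
      omega
  have z : IsPrimitiveRoot (C.pb.gen ^ pp ^ k) pp := C.prim.pow (pow_pos pp_pos _) (pow_succ ..)
  have c2 : ringChar (ZMod pp) ≠ 2 := by rw [ZMod.ringChar_zmod_n]; exact pp_ne_two
  have := gaussSum_sq (χ := (quadraticChar (ZMod pp)).ringHomComp (Int.castRingHom C.O))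
    ((MulChar.ringHomComp_ne_one_iff Int.cast_injective).2 (quadraticChar_ne_one c2))
    ((quadraticChar_isQuadratic _).comp _) (AddChar.zmodChar_primitive_of_primitive_root pp z)
  rw [MulChar.ringHomComp_apply, quadraticChar_neg_one c2, ZMod.card, ZMod.χ₄_nat_three_mod_four h3] at this
  exact ⟨_, this.trans (by simp)⟩

variable (h : b ^ 2 + 4 * a = -pp)
include h

theorem nm4 (x : Qa a b ℤ_[pp]) : 4 * x.norm = (2 * x.re + b * x.im) ^ 2 + pp * x.im ^ 2 := by
  have : (b : ℤ_[pp]) ^ 2 + 4 * a = -pp := by simpa using congrArg (Int.cast (R := ℤ_[pp])) h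
  rw [norm_def]; linear_combination -x.im ^ 2 * this

theorem nm0 {x : Qa a b ℤ_[pp]} (e : x.norm = 0) : x = 0 := by
  have k := nm4 h x
  rw [e, mul_zero, eq_comm, add_eq_zero_iff_eq_neg] at k
  have y : x.im = 0 := by
    by_contra n
    have := congrArg PadicInt.valuation k
    rw [← neg_mul, PadicInt.valuation_mul (neg_ne_zero.2 (Nat.cast_ne_zero.2 pp_ne)) (pow_ne_zero _ n),
      PadicInt.valuation_pow, PadicInt.valuation_pow, show (-(pp : ℤ_[pp])).valuation = 1 by
        have := PadicInt.valuation_pow (-(pp : ℤ_[pp])) 2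
        rw [neg_sq, PadicInt.valuation_pow, PadicInt.valuation_p] at this
        omega] at this
    omega
  rw [y] at k
  exact QuadraticAlgebra.ext (by simpa using k) y

theorem dom : IsDomain (Qa a b ℤ_[pp]) :=
  have : NoZeroDivisors (Qa a b ℤ_[pp]) := ⟨fun {x y} e => by
    have := congrArg QuadraticAlgebra.norm e
    rw [map_mul, QuadraticAlgebra.norm_zero] at this
    exact (mul_eq_zero.1 this).imp (nm0 h) (nm0 h)⟩
  NoZeroDivisors.to_isDomain _

theorem nu (x : Qa a b ℤ_[pp]) : ¬ IsUnit x ↔ dl a b ℤ_[pp] ∣ x := by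
  have h' : (b : ℤ_[pp]) ^ 2 + 4 * a = -pp := by simpa using congrArg (Int.cast (R := ℤ_[pp])) h
  have u : ∀ t : ℤ_[pp], ¬ IsUnit t ↔ (pp : ℤ_[pp]) ∣ t := fun t => by
    rw [← mem_nonunits_iff, ← mem_maximalIdeal, PadicInt.maximalIdeal_eq_span_p, Ideal.mem_span_singleton]
  have u4 : IsUnit (4 : ℤ_[pp]) := by convert unit_two.mul unit_two; norm_num
  rw [isUnit_iff_norm_isUnit, u, ← u4.dvd_mul_left, nm4 h, dvd_add_left (dvd_mul_right ..),
    PadicInt.prime_p.dvd_pow_iff_dvd two_ne_zero]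
  obtain ⟨t, ht⟩ := unit_two.exists_left_inv
  refine ⟨fun ⟨c, e⟩ => ⟨⟨t * x.im + t * c * b, -(2 * t * c)⟩, QuadraticAlgebra.ext ?_ ?_⟩,
    fun ⟨y, e⟩ => ⟨-y.im, ?_⟩⟩
  · simp [dl]
    linear_combination t * e + t * c * h' - x.re * ht
  · simp [dl]
    linear_combination -x.im * ht
  · simp [e, dl]
    linear_combination y.im * h'

theorem pid : IsPrincipalIdealRing (Qa a b ℤ_[pp]) := by
  have := dom h
  have : IsLocalRing (Qa a b ℤ_[pp]) := .of_nonunits_add fun x y p q =>
    (nu h _).2 (dvd_add ((nu h _).1 p) ((nu h _).1 q))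
  have : IsNoetherianRing (Qa a b ℤ_[pp]) := .of_finite ℤ_[pp] _
  exact ((tfae_of_isNoetherianRing_of_isLocalRing_of_isDomain _).out 4 0).1
    (show (maximalIdeal (Qa a b ℤ_[pp])).IsPrincipal from ⟨dl a b _, Ideal.ext fun x =>
      (nu h x).trans Ideal.mem_span_singleton.symm⟩)

theorem bas {a' b' : ℤ} (e : Qa a b ℤ_[pp] →+* Qa a' b' C.O)
    (lin : ∀ x : ℤ_[pp], e (algebraMap _ _ x) = algebraMap C.O _ (algebraMap _ _ x)) :
    ∃ y : Fin C.pb.dim → Qa a' b' C.O,
      Bijective fun x : Fin C.pb.dim → Qa a b ℤ_[pp] => ∑ i, e (x i) * y i := by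
  have := dom h
  have := pid h
  let := e.toAlgebra
  have : IsScalarTower ℤ_[pp] (Qa a b ℤ_[pp]) (Qa a' b' C.O) := .of_algebraMap_eq fun x => (lin x).symm
  have : Module.Finite ℤ_[pp] (Qa a' b' C.O) := .trans C.O _
  have : Module.Free ℤ_[pp] (Qa a' b' C.O) := .trans (S := C.O)
  have : Module.Finite (Qa a b ℤ_[pp]) (Qa a' b' C.O) := .of_restrictScalars_finite ℤ_[pp] _ _
  have : Module.IsTorsionFree (Qa a b ℤ_[pp]) (Qa a' b' C.O) := .of_smul_eq_zero fun x y e' =>
    (smul_eq_zero.1 (show x.norm • y = 0 by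
      rw [← algebraMap_smul (Qa a b ℤ_[pp]), algebraMap_norm_eq_mul_star, mul_comm, mul_smul, e',
        smul_zero])).imp_left (nm0 h)
  have r : finrank (Qa a b ℤ_[pp]) (Qa a' b' C.O) = C.pb.dim := by
    have r1 := finrank_mul_finrank ℤ_[pp] (Qa a b ℤ_[pp]) (Qa a' b' C.O)
    have r2 := finrank_mul_finrank ℤ_[pp] C.O (Qa a' b' C.O)
    rw [finrank_eq_two] at r1 r2
    rw [C.pb.finrank] at r2
    omega
  let B := finBasisOfFinrankEq _ _ r
  refine ⟨B, ?_⟩
  rw [show (fun x : Fin C.pb.dim → Qa a b ℤ_[pp] => ∑ i, e (x i) * B i) = B.equivFun.symm from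
    funext fun x => (B.equivFun_symm_apply x).symm]
  exact B.equivFun.symm.bijective

end Emb

open Emb

theorem emb (dsc : DSC) : EMB := fun A B D k C => by
  by_cases d : (pp : ℤ) ∣ D.b ^ 2 + 4 * D.a
  · have h := dsc A B D d
    obtain ⟨s, hs⟩ := ex_sqrt C h
    obtain ⟨t, ht⟩ := C.unit_two.exists_left_inv
    have h' : (D.b : C.O) ^ 2 + 4 * D.a = -pp := by simpa using congrArg (Int.cast (R := C.O)) h
    let f : Qa D.a D.b ℤ_[pp] →ₐ[ℤ_[pp]] C.O := lift ⟨t * (D.b + s), by
      simp only [Algebra.smul_def, map_intCast]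
      linear_combination t ^ 2 * hs - t ^ 2 * h' + (D.a * (t * 2 + 1) + t * D.b * (D.b + s)) * ht⟩
    let e : Qa D.a D.b ℤ_[pp] →+* Qa 0 1 C.O :=
      { toFun := fun x => ⟨f (star x), f x - f (star x)⟩
        map_one' := QuadraticAlgebra.ext (by simp) (by simp)
        map_zero' := QuadraticAlgebra.ext (by simp) (by simp)
        map_add' := fun x y => QuadraticAlgebra.ext (by simp) (by simp; ring)
        map_mul' := fun x y => QuadraticAlgebra.ext (by simp) (by simp; ring) }
    have lin : ∀ x : ℤ_[pp], e (algebraMap _ _ x) = algebraMap C.O _ (algebraMap _ _ x) := fun x => by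
      have : star (algebraMap ℤ_[pp] (Qa D.a D.b ℤ_[pp]) x) = algebraMap _ _ x :=
        QuadraticAlgebra.ext (by simp) (by simp)
      exact QuadraticAlgebra.ext (by simp [e, this]) (by simp [e, this])
    refine ⟨0, 1, e, ω, f.toRingHom.toMonoidHom, by simp,
      ⟨fun x => QuadraticAlgebra.ext (by simp [e]) (by simp [e]), lin, bas C h e lin⟩, by simp [Lu],
      fun u _ => QuadraticAlgebra.ext (by simp [e]) (by simp [e])⟩
  · obtain ⟨t, ht⟩ : ∃ t : ℤ, ¬ (pp : ℤ) ∣ 2 * t + D.b := by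
      by_contra! n
      have := dvd_sub (n 1) (n 0)
      exact not_dvd_two (by exact_mod_cast (show (pp : ℤ) ∣ 2 by simpa using this))
    refine ⟨D.a, D.b, qm _ _ (algebraMap _ _), ⟨t, 1⟩, 1, by exact_mod_cast C.unit_int.2 d,
      ⟨qm_star _, fun x => QuadraticAlgebra.ext (by simp [qm]) (by simp [qm]),
        fun i => algebraMap _ _ (C.pb.basis i), ?_⟩, ?_, fun u n => ?_⟩
    · have k : ∀ x : Fin C.pb.dim → Qa D.a D.b ℤ_[pp], ∑ i, qm _ _ (algebraMap _ C.O) (x i) *
          algebraMap _ _ (C.pb.basis i) = ⟨C.pb.basis.equivFun.symm fun i => (x i).re,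
            C.pb.basis.equivFun.symm fun i => (x i).im⟩ := fun x => by
        generalize C.pb.basis = β
        refine QuadraticAlgebra.ext
          ((map_sum (AddMonoidHom.mk' (re (a := (D.a : C.O)) (b := D.b)) fun _ _ => rfl) ..).trans ?_)
          ((map_sum (AddMonoidHom.mk' (im (a := (D.a : C.O)) (b := D.b)) fun _ _ => rfl) ..).trans ?_) <;>
        simp [qm, Algebra.smul_def]
      refine ⟨fun x x' q => ?_, fun y => ⟨fun i => ⟨C.pb.basis.equivFun y.re i,
        C.pb.basis.equivFun y.im i⟩, (k _).trans (QuadraticAlgebra.ext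
          (C.pb.basis.equivFun.symm_apply_apply _) (C.pb.basis.equivFun.symm_apply_apply _))⟩⟩
      have q := (k x).symm.trans (Eq.trans q (k x'))
      exact funext fun i => QuadraticAlgebra.ext
        (congrFun (C.pb.basis.equivFun.symm.injective (congrArg re q)) i)
        (congrFun (C.pb.basis.equivFun.symm.injective (congrArg im q)) i)
    · have := C.unit_int.2 ht
      simpa [Lu] using this
    · rw [n.resolve_left d]; simp

end Vale.Agent.P014X.Fm
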