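import Vale.Agent.P014X.Fm.St
import Vale.Agent.P014X.Fm.Crk

/-! # P014X, block FAM: the families are good (helper75) -/

set_option autoImplicit false
set_option linter.all false

open IsLocalRing

noncomputable section

namespace Vale.Agent.P014X.Fm

open Vale.Agent.P014U
open Vale.Agent.P014U.X4S.Aq (cz)
open PadicInt (toZMod)
open Pow

variable [Pp] {k : ℕ}

namespace Gfa

variable (C : Cr k) {a b : ℤ}

theorem mem_R {x : C.R} : x ∈ maximalIdeal C.R ↔ C.π (PowerSeries.constantCoeff x) = 0 := by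
  rw [mem_maximalIdeal, mem_nonunits_iff, C.unit_R, not_not]

theorem hp : (pp : C.R) ∈ maximalIdeal C.R := (mem_R C).2 (by simp)

theorem dvd_iff {y : C.R} : PowerSeries.C (C.pb.gen - 1) ∣ y ↔ PowerSeries.map C.π y = 0 := by
  refine ⟨fun ⟨c, h⟩ => ?_, fun h => ?_⟩
  · rw [h, map_mul, PowerSeries.map_C, (C.π_zero _).2 dvd_rfl, map_zero, zero_mul]
  · choose c hc using fun n => (C.π_zero (PowerSeries.coeff n y)).1
      ((PowerSeries.coeff_map ..).symm.trans (by rw [h, map_zero]))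
    exact ⟨PowerSeries.mk c, PowerSeries.ext fun n => by
      rw [PowerSeries.coeff_C_mul, PowerSeries.coeff_mk, hc]⟩

theorem nd_mul {x y : C.R} (h : ¬ PowerSeries.C (C.pb.gen - 1) ∣ x)
    (h' : ¬ PowerSeries.C (C.pb.gen - 1) ∣ y) : ¬ PowerSeries.C (C.pb.gen - 1) ∣ x * y := by
  rw [dvd_iff] at *
  rw [map_mul]
  exact mul_ne_zero h h'

/-- cube roots of unity are residually trivial -/
theorem cub {u : Qa a b C.O} (du : IsUnit (b ^ 2 + 4 * a : C.O))
    (h : u = 1 ∨ pp = 3 ∧ u * star u = 1 ∧ u + star u = -1) :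
    qm a b PowerSeries.C u - 1 ∈ Jq a b (maximalIdeal C.R) := by
  obtain rfl | ⟨h3, h1, h2⟩ := h
  · rw [map_one, sub_self]
    exact zero_mem _
  have e1 := congrArg (fun z => C.π z.re) h1
  have e2 := congrArg (fun z => C.π z.re) h2
  have e3 : (3 : ZMod pp) = 0 := by
    have := ZMod.natCast_self pp
    rwa [show ((pp : ℕ) : ZMod pp) = (3 : ℕ) from congrArg _ h3, Nat.cast_ofNat] at this
  have e4 := (C.unit_iff _).1 du
  simp [QuadraticAlgebra.re_one, map_ofNat] at e1 e2 e4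
  have e5 : C.π u.im = 0 := pow_eq_zero_iff two_ne_zero |>.1 ((mul_eq_zero.1 (show
    ((b : ZMod pp) ^ 2 + 4 * a) * C.π u.im ^ 2 = 0 by
      linear_combination (2 * C.π u.re + b * C.π u.im - 1) * e2 - 4 * e1 - e3)).resolve_left e4)
  refine ⟨(mem_R C).2 ?_, (mem_R C).2 ?_⟩
  · simp [qm, QuadraticAlgebra.re_one]
    linear_combination -e2 + (C.π u.re) * e3 + b * e5
  · simpa [qm, QuadraticAlgebra.im_one] using e5

theorem pz1 {R : Type} [CommRing R] {I : Ideal R} [IsAdicComplete I R] (h : (pp : R) ∈ I)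
    (s : ℤ_[pp]) : pz I (1 : Qa a b R) s = 1 :=
  (pz_fin h (by simp) (k := 0) (n := 0) (one_pow _) (Subsingleton.elim (α := ZMod 1) _ _)).trans
    (pow_zero _)

theorem sm_qm (c : ℤ_[pp]) (u : Qa a b C.O) : algebraMap ℤ_[pp] C.R c • qm a b PowerSeries.C u =
    qm a b PowerSeries.C (algebraMap C.O _ (algebraMap ℤ_[pp] C.O c) * u) :=
  QuadraticAlgebra.ext (by simp [qm, PowerSeries.algebraMap_apply])
    (by simp [qm, PowerSeries.algebraMap_apply])

theorem rs {A B : ℤ} {D : Cd A B} {C : Cr k} {F : D.G →* Qa a b C.R} {g : D.G}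
    (h : F g - 1 ∈ Jq a b (maximalIdeal C.R)) (c : toZMod (cz g : ℤ_[pp]) = 1) : D.Rs F g :=
  ⟨h.1, by simpa [QuadraticAlgebra.im_one] using h.2, c⟩

end Gfa

open Gfa

/-- **the families are good** -/
theorem gfa (un1 : UN1) (umu : UMU) (ubd : UBD) (cpl : CPL) : GFA := by
  intro A B D k C a b M χ x t f F ⟨u, v, hf⟩ hF loc
  have := (cpl k C).2.1
  obtain ⟨p1, p2, s1, s2, -, -⟩ := un1 k C a b x.toUy
  have hp := hp C
  have f1 (g) (h : x.θ g = 1) : f g = 1 := by rw [hf, h, star_one, one_pow, one_pow, one_mul]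
  have n1 (g) (h : x.θ g = 1) : F g - 1 ∈ Jq a b (maximalIdeal C.R) := by
    rw [hF, f1 g h, one_mul]
    exact one_mul' (one_mul' (cub C x.du (x.gx.cub g)) (pz_n1 hp p1 _)) (pz_n1 hp p2 _)
  refine ⟨fun g => ?_, fun j => ?_, loc, fun g h => ?_, ?_, ?_⟩
  · obtain ⟨c1, c2, c3, c4⟩ := x.gx.cj g
    have e : pz (maximalIdeal C.R) x.um (-(x.em g).toAdd) =
        pz (maximalIdeal C.R) (star x.um) (x.em g).toAdd :=
      left_inv_eq_right_inv ((mul_comm _ _).trans (pz_neg hp p2 _))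
        ((pz_mul hp p2 (n1_star p2) _).symm.trans (by rw [s2, pz1 hp]))
    rw [hF, hF, hf, hf, c1, c2, c3, c4, toAdd_inv, e, star_mul', star_mul', pz_star hp p1,
      pz_star hp p2, s1, ← qm_star, star_mul', star_mul', star_pow, star_pow]
  · obtain ⟨n, h⟩ := x.gx.tr j
    refine ⟨n, fun g m => ?_⟩
    obtain ⟨h1, h2, h3, h4⟩ := h g m
    have e := Jq_map (J := ⊥) (t.i j) (fun y m => (t.ker j y).2 m)
      (one_mul' (pz_dvd hp p1 h3) (pz_dvd hp p2 h4))
    rw [map_sub, map_one] at e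
    show qm a b (t.i j) (F g) = 1
    rw [hF, f1 g h1, h2, one_mul, map_one, one_mul]
    exact sub_eq_zero.1 (QuadraticAlgebra.ext e.1 e.2)
  · have s0 : (x.ep g).toAdd ≠ 0 := fun e => h (x.gx.inf g e)
    have c0 : IsUnit (f g * x.φ g) := ((Group.isUnit g).map f).mul ((Group.isUnit g).map x.φ)
    refine nd_mul C (hF g ▸ umu k C a b x.toUy _ _ _ c0 s0) ?_
    rw [hF, ← smul_mul_assoc, ← smul_mul_assoc, sm_qm]
    exact umu k C a b x.toUy _ _ _ ((((cz g.1).isUnit.map _).map _).mul c0) s0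
  · obtain ⟨P, t, g₁, g₂, o, le, d1, d2, ⟨a1, a2, a3, a4, a5⟩, b1, b2, b3, b4, b5⟩ := x.gx.opn
    refine ⟨P, o, fun I pr ne => (ubd k C a b x.toUy I t _ pr ne le a5).elim (fun h => ?_) fun h => ?_⟩
    · refine ⟨g₂, d2, rs (n1 _ b1) (by rw [b5]; exact map_one _), ?_⟩
      have e : F g₂ = x.um ^ pp ^ t := by
        rw [hF, f1 _ b1, b2, b3, b4, one_mul, map_one, one_mul, toAdd_one, pz_zero hp p1, one_mul,
          toAdd_ofAdd, pz_nat hp p2]
      rw [Cd.nn, b5, e, Units.val_one, map_one, one_smul]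
      exact fun m => h ((pr.mem_or_mem m).elim id id)
    · refine ⟨g₁, d1, rs (n1 _ a1) (by simpa using congrArg toZMod a5), ?_⟩
      have e : F g₁ = x.up ^ pp ^ t := by
        rw [hF, f1 _ a1, a2, a3, a4, one_mul, map_one, one_mul, toAdd_one, pz_zero hp p2, mul_one,
          toAdd_ofAdd, pz_nat hp p1]
      rwa [Cd.nn, e]
  · obtain ⟨l, m, Q, o, h⟩ := x.gx.aux
    exact ⟨l, m, Q, o, fun g d => (h g d).imp fun _ e => rs (n1 _ e.1) e.2⟩

end Vale.Agent.P014X.Fm
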