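import Mathlib

/-! # P014X, block FAM: a group of characters with values in a ring with involution -/

set_option autoImplicit false
set_option linter.all false

open scoped Classical

noncomputable section

namespace Vale.Agent.P014X.Fm.Gr

variable {G A : Type} [Group G] [CommRing A] [StarRing A] (θ : G →* A)

/-- the characters generated by `θ` and its conjugate -/
def P (f : G →* A) : Prop := ∃ u v : ℕ, ∀ g, f g = θ g ^ u * star (θ g) ^ v

def mk (u v : ℕ) : G →* A where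
  toFun g := θ g ^ u * star (θ g) ^ v
  map_one' := by simp
  map_mul' g h := by simp only [map_mul, star_mul', mul_pow]; ring

def st (f : G →* A) : G →* A where
  toFun g := star (f g)
  map_one' := by simp
  map_mul' g h := by simp only [map_mul, star_mul']

variable {θ}

theorem P_one : P θ 1 := ⟨0, 0, fun g => by simp⟩

theorem P_self : P θ θ := ⟨1, 0, fun g => by simp⟩

theorem P.mul {f f' : G →* A} (h : P θ f) (h' : P θ f') : P θ (f * f') := by
  obtain ⟨u, v, e⟩ := h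
  obtain ⟨u', v', e'⟩ := h'
  exact ⟨u + u', v + v', fun g => by rw [MonoidHom.mul_apply, e, e']; ring⟩

theorem P.pow {f : G →* A} (h : P θ f) (k : ℕ) : P θ (f ^ k) := by
  induction k with
  | zero => simpa using P_one
  | succ k ih => rw [pow_succ]; exact ih.mul h

theorem P.st {f : G →* A} (h : P θ f) : P θ (st f) := by
  obtain ⟨u, v, e⟩ := h
  refine ⟨v, u, fun g => ?_⟩
  show star (f g) = _
  rw [e, star_mul', star_pow, star_pow, star_star, mul_comm]

theorem P.cg {f : G →* A} (h : P θ f) {g g' : G} (e : θ g = θ g') : f g = f g' := by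
  obtain ⟨u, v, e'⟩ := h
  rw [e', e', e]

theorem P.sg {f : G →* A} (h : P θ f) {g g' : G} (e : θ g' = star (θ g)) :
    f g' = star (f g) := by
  obtain ⟨u, v, e'⟩ := h
  rw [e', e', e, star_mul', star_pow, star_pow]

theorem P.ord {f : G →* A} (h : P θ f) {n : ℕ} (hn : ∀ g, θ g ^ n = 1) : f ^ n = 1 := by
  obtain ⟨u, v, e⟩ := h
  ext g
  have h2 : star (θ g) ^ n = 1 := by rw [← star_pow, hn, star_one]
  rw [MonoidHom.pow_apply, e, mul_pow, ← pow_mul, ← pow_mul, mul_comm u, mul_comm v, pow_mul,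
    pow_mul, hn, h2, one_pow, one_pow, mul_one, MonoidHom.one_apply]

theorem ex_fin {n : ℕ} (n0 : n ≠ 0) (hn : ∀ g, θ g ^ n = 1) :
    ∃ I : Finset (G →* A), ∀ f, f ∈ I ↔ P θ f := by
  refine ⟨(Finset.range n ×ˢ Finset.range n).image fun p => mk θ p.1 p.2, fun f => ?_⟩
  rw [Finset.mem_image]
  constructor
  · rintro ⟨p, -, rfl⟩
    exact ⟨p.1, p.2, fun g => rfl⟩
  · rintro ⟨u, v, e⟩
    refine ⟨(u % n, v % n), ?_, ?_⟩
    · simp [Nat.mod_lt _ (Nat.pos_of_ne_zero n0)]
    · ext g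
      have h2 : star (θ g) ^ n = 1 := by rw [← star_pow, hn, star_one]
      show θ g ^ (u % n) * star (θ g) ^ (v % n) = f g
      rw [e, ← pow_eq_pow_mod u (hn g), ← pow_eq_pow_mod v h2]

/-- the sum over the characters -/
theorem sum_ch (hA : ∀ s x : A, star s = s → x * s = s → x ≠ 1 → s = 0) {n : ℕ} (n0 : n ≠ 0)
    (hn : ∀ g, θ g ^ n = 1) {I : Finset (G →* A)} (hI : ∀ f, f ∈ I ↔ P θ f) (g : G)
    (h : ∃ f ∈ I, f g ≠ 1) : ∑ f ∈ I, f g = 0 := by
  obtain ⟨f₀, h₀, hg⟩ := h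
  have p₀ := (hI _).1 h₀
  have e : f₀ ^ (n - 1) * f₀ = 1 := by
    rw [← pow_succ, Nat.sub_add_cancel (Nat.pos_of_ne_zero n0), p₀.ord hn]
  refine hA _ (f₀ g) ?_ ?_ hg
  · rw [star_sum]
    exact Finset.sum_nbij' st st (fun f hf => (hI _).2 ((hI _).1 hf).st)
      (fun f hf => (hI _).2 ((hI _).1 hf).st) (fun f _ => by ext g; exact star_star _)
      (fun f _ => by ext g; exact star_star _) (fun f _ => rfl)
  · rw [Finset.mul_sum]
    exact Finset.sum_nbij' (fun f => f₀ * f) (fun f => f₀ ^ (n - 1) * f)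
      (fun f hf => (hI _).2 (p₀.mul ((hI _).1 hf)))
      (fun f hf => (hI _).2 ((p₀.pow _).mul ((hI _).1 hf)))
      (fun f _ => by show _ * (_ * _) = _; rw [← mul_assoc, e, one_mul])
      (fun f _ => by show _ * (_ * _) = _; rw [← mul_assoc, mul_comm f₀, e, one_mul])
      (fun f _ => rfl)

/-- a section of the image -/
def sc (θ : G →* A) (h : θ.toHomUnits.range) : G := h.2.choose

theorem sc_eq (h : θ.toHomUnits.range) : θ (sc θ h) = (h.1 : A) := by
  have := h.2.choose_spec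
  rw [← this]; rfl

/-- the sum over the image -/
theorem sum_im (hA : ∀ s x : A, star s = s → x * s = s → x ≠ 1 → s = 0)
    [Fintype θ.toHomUnits.range] (hs : ∀ g, ∃ g', θ g' = star (θ g)) {f : G →* A} (p : P θ f)
    (f1 : f ≠ 1) : ∑ h, f (sc θ h) = 0 := by
  obtain ⟨g₀, hg⟩ : ∃ g, f g ≠ 1 := by
    by_contra hc
    exact f1 (MonoidHom.ext fun g => not_not.1 fun h => hc ⟨g, h⟩)
  choose σ hσ using hs
  let τ : θ.toHomUnits.range → θ.toHomUnits.range := fun h => ⟨_, σ (sc θ h), rfl⟩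
  have τe : ∀ h, ((τ h).1 : A) = star (h.1 : A) := fun h => by
    rw [← sc_eq h, ← hσ]; rfl
  have ττ : ∀ h, τ (τ h) = h := fun h => Subtype.ext (Units.ext (by rw [τe, τe, star_star]))
  refine hA _ (f g₀) ?_ ?_ hg
  · rw [star_sum]
    refine Fintype.sum_equiv ⟨τ, τ, ττ, ττ⟩ _ _ fun h => (p.sg ?_).symm
    show θ (sc θ (τ h)) = _
    rw [sc_eq, sc_eq, τe]
  · rw [Finset.mul_sum]
    refine Fintype.sum_equiv (Equiv.mulLeft (⟨_, g₀, rfl⟩ : θ.toHomUnits.range)) _ _ fun h => ?_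
    rw [← map_mul]
    refine p.cg ?_
    rw [map_mul, sc_eq, sc_eq]; rfl

theorem main [CharZero A] (hA : ∀ s x : A, star s = s → x * s = s → x ≠ 1 → s = 0) {p n : ℕ}
    (hp : p.Prime) (n0 : ¬ p ∣ n) (hn : ∀ g, θ g ^ n = 1) (hi : θ.ker.index ≠ 0)
    (hs : ∀ g, ∃ g', θ g' = star (θ g)) :
    ∃ I : Finset (G →* A), (∀ f, f ∈ I ↔ ∃ u v : ℕ, ∀ g, f g = θ g ^ u * star (θ g) ^ v) ∧
      I.card = (⨅ f ∈ I, f.ker).index ∧ ¬ p ∣ I.card ∧
      ∀ g, (∃ f ∈ I, f g ≠ 1) → ∑ f ∈ I, f g = 0 := by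
  have n1 : n ≠ 0 := by rintro rfl; exact n0 (dvd_zero _)
  obtain ⟨I, hI⟩ := ex_fin n1 hn
  have ei : θ.ker.index = Nat.card θ.toHomUnits.range := by
    rw [← MonoidHom.ker_toHomUnits, Subgroup.index_ker]
  haveI : Finite θ.toHomUnits.range := Nat.finite_of_card_ne_zero (ei ▸ hi)
  letI := Fintype.ofFinite θ.toHomUnits.range
  have ek : (⨅ f ∈ I, f.ker) = θ.ker := by
    refine le_antisymm (iInf₂_le θ ((hI _).2 P_self)) (le_iInf₂ fun f hf g hg => ?_)
    rw [MonoidHom.mem_ker] at hg ⊢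
    rw [((hI _).1 hf).cg (g' := 1) (by rw [hg, map_one]), map_one]
  have ec : I.card = Fintype.card θ.toHomUnits.range := by
    have e1 : ∑ f ∈ I, ∑ h, f (sc θ h) = (Fintype.card θ.toHomUnits.range : A) := by
      rw [Finset.sum_eq_single_of_mem 1 ((hI _).2 P_one)
        fun f hf f1 => sum_im hA hs ((hI _).1 hf) f1]
      simp
    have e2 : ∑ h, ∑ f ∈ I, f (sc θ h) = (I.card : A) := by
      rw [Finset.sum_eq_single_of_mem 1 (Finset.mem_univ _) fun h _ h1 => sum_ch hA n1 hn hI _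
        ⟨θ, (hI _).2 P_self, fun e => h1 (Subtype.ext (Units.ext (by rw [← sc_eq, e]; rfl)))⟩]
      rw [Finset.sum_congr rfl fun f hf => (((hI _).1 hf).cg (g' := 1)
        (by rw [sc_eq, map_one]; rfl)).trans (map_one f)]
      simp
    rw [Finset.sum_comm] at e1
    exact Nat.cast_injective (R := A) (e2.symm.trans e1)
  refine ⟨I, hI, by rw [ek, ei, ec, Nat.card_eq_fintype_card], fun hd => n0 ?_,
    sum_ch hA n1 hn hI⟩
  haveI : Fact p.Prime := ⟨hp⟩
  obtain ⟨x, hx⟩ := exists_prime_orderOf_dvd_card (G := θ.toHomUnits.range) p (ec ▸ hd)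
  rw [← hx]
  refine orderOf_dvd_of_pow_eq_one (Subtype.ext (Units.ext ?_))
  have := hn (sc θ x)
  rw [sc_eq] at this
  simpa using this

theorem qa {R : Type} [CommRing R] [IsDomain R] [CharZero R] (a b : R)
    (s x : QuadraticAlgebra R a b) (h : star s = s) (e : x * s = s) (x1 : x ≠ 1) : s = 0 := by
  have h1 : s.im = 0 := by
    have := congrArg QuadraticAlgebra.im h
    rw [QuadraticAlgebra.im_star] at this
    have h2 : (2 : R) * s.im = 0 := by linear_combination -this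
    exact (mul_eq_zero.1 h2).resolve_left two_ne_zero
  have e1 := congrArg QuadraticAlgebra.re e
  have e2 := congrArg QuadraticAlgebra.im e
  rw [QuadraticAlgebra.re_mul, h1] at e1
  rw [QuadraticAlgebra.im_mul, h1] at e2
  by_contra s0
  have r0 : s.re ≠ 0 := fun r => s0 (QuadraticAlgebra.ext r h1)
  refine x1 (QuadraticAlgebra.ext ?_ ?_)
  · exact mul_right_cancel₀ r0 (by show _ = 1 * s.re; linear_combination e1)
  · exact mul_right_cancel₀ r0 (by show _ = 0 * s.re; linear_combination e2)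

end Vale.Agent.P014X.Fm.Gr
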