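import Vale.Agent.P014X.Fm.St
import Vale.Agent.P014X.Fm.Grp0

/-! # P014X, block FAM: row GRP -/

set_option autoImplicit false
set_option linter.all false

namespace Vale.Agent.P014X.Fm

open Vale.Agent.P014U

variable [Pp]

theorem grp : GRP := fun _ _ _ _ _ _ _ _ _ _ n0 hn hi hs =>
  Gr.main (Gr.qa _ _) pp_prime n0 hn hi hs

end Vale.Agent.P014X.Fm
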