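import Vale.Agent.P014X.Fm.St

/-! # P014X, block FAM: the parts of the character (row `GXX`, helper16) -/

set_option autoImplicit false
set_option linter.all false

open NumberField QuadraticAlgebra
open scoped Classical

noncomputable section

namespace Vale.Agent.P014X.Fm

open Vale.Agent.P022 (Qb GQ)
open Vale.Agent.P022D.W (dec)
open Vale.Agent.P022E.GW (Ov)
open Vale.Agent.P014U
open Vale.Agent.P014U.X4S.Aq (cz)
open PadicInt (toZModPow toZMod)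
open Multiplicative (ofAdd)

variable [Pp]

namespace Gxx

variable {a b : ℤ}

theorem sep {z : ℤ_[pp]} (h : ∀ j, (pp : ℤ_[pp]) ^ j ∣ z) : z = 0 :=
  PadicInt.ext_of_toZModPow.1 fun j => by
    rw [map_zero, ← RingHom.mem_ker, PadicInt.ker_toZModPow, Ideal.mem_span_singleton]
    exact h j

theorem sepq {z : Qa a b ℤ_[pp]} (h : ∀ j, (pp : Qa a b ℤ_[pp]) ^ j ∣ z) : z = 0 := by
  have k (j : ℕ) : (pp : ℤ_[pp]) ^ j ∣ z.re ∧ (pp : ℤ_[pp]) ^ j ∣ z.im := by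
    obtain ⟨y, e⟩ := h j
    rw [← map_natCast (algebraMap ℤ_[pp] (Qa a b ℤ_[pp])), ← map_pow, ← Algebra.smul_def] at e
    exact ⟨⟨_, congrArg re e⟩, _, congrArg im e⟩
  exact QuadraticAlgebra.ext (sep fun j => (k j).1) (sep fun j => (k j).2)

theorem tf {s : Multiplicative ℤ_[pp]} {n : ℕ} (n0 : n ≠ 0) (h : s ^ n = 1) : s = 1 :=
  toAdd_eq_zero.1 ((smul_eq_zero_iff_right n0).1 (congrArg Multiplicative.toAdd h))

theorem nm_of {x : Qa a b ℤ_[pp]} {r : ℤ_[pp]} (h : x * star x = algebraMap _ _ r) : x.norm = r :=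
  algebraMap_injective ((algebraMap_norm_eq_mul_star x).trans h)

variable (x : Dc a b)

theorem tor {u : (Qa a b ℤ_[pp])ˣ} {n : ℕ} (n0 : n ≠ 0) (h : (u : Qa a b ℤ_[pp]) ^ n = 1) :
    x.ep u = 1 ∧ x.em u = 1 :=
  have e : u ^ n = 1 := Units.ext h
  ⟨tf n0 (by rw [← map_pow, e, map_one]), tf n0 (by rw [← map_pow, e, map_one])⟩

theorem neg (h : ¬ (pp : ℤ) ∣ b ^ 2 + 4 * a) {u : (Qa a b ℤ_[pp])ˣ} (e : (u : Qa a b ℤ_[pp]) = -1) :
    x.θ u = -1 ∧ x.φ u = 1 ∧ x.ep u = 1 := by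
  obtain ⟨e1, e2⟩ := tor x two_ne_zero (u := u) (by rw [e, neg_one_sq])
  refine ⟨(sub_eq_zero.1 (sepq fun j => ?_)).symm, by rw [x.unr h]; rfl, e1⟩
  simpa [e, x.unr h] using x.apx u j 0 0 (by simp [e1]) (by simp [e2])

theorem near {u : (Qa a b ℤ_[pp])ˣ} {t : ℕ} (h1 : x.θ u = 1) (h2 : x.φ u = 1)
    (h3 : x.ep u = 1 ∨ x.ep u = ofAdd 1) (h4 : x.em u = 1 ∨ x.em u = ofAdd 1) :
    (pp : Qa a b ℤ_[pp]) ^ t ∣ (u ^ pp ^ t : (Qa a b ℤ_[pp])ˣ) - 1 := by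
  have k {s : Multiplicative ℤ_[pp]} (h : s = 1 ∨ s = ofAdd 1) :
      toZModPow t (s ^ pp ^ t).toAdd = (0 : ℕ) := by
    rw [toAdd_pow, nsmul_eq_mul, map_mul, map_natCast, ZMod.natCast_self, zero_mul, Nat.cast_zero]
  simpa only [map_pow x.θ, map_pow x.φ, h1, h2, one_pow, pow_zero, mul_one] using
    x.apx (u ^ pp ^ t) t 0 0 (map_pow x.ep _ _ ▸ k h3) (map_pow x.em _ _ ▸ k h4)

theorem oa (n : ℕ) : ofAdd (1 : ℤ_[pp]) ^ n = ofAdd (n : ℤ_[pp]) := by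
  rw [← ofAdd_nsmul, nsmul_one]

end Gxx

open Gxx

theorem gxx (dsc : DSC) (psf : PSF) (opn : OPN) : GXX := by
  intro A B D N M χ x cf cg ps fm ax
  have pf := psf A B D N χ cf cg ps
  have ne {l} (h : l ∈ M.primeFactors) : l ≠ pp := fun e => fm.cop (e ▸ Nat.dvd_of_mem_primeFactors h)
  have nm (g : D.G) : χ.toHomUnits g * star (χ.toHomUnits g) =
      Units.map (algebraMap ℤ_[pp] (Qa D.a D.b ℤ_[pp])).toMonoidHom (cz g)⁻¹ := Units.ext <|
    (algebraMap_norm_eq_mul_star (χ g)).symm.trans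
      (congrArg _ (Units.eq_inv_of_mul_eq_one_right (pf.nm g)))
  have inf (g : D.G) (h : x.ep (χ.toHomUnits g) = 1) : IsOfFinOrder (cz g) := by
    have := x.fin _ h
    rwa [nm, (Units.map_injective algebraMap_injective).isOfFinOrder_iff,
      isOfFinOrder_inv_iff] at this
  have dep (g g' : D.G) (h : cz g = cz g') : x.ep (χ.toHomUnits g) = x.ep (χ.toHomUnits g') := by
    have k (g : D.G) := congrArg x.ep (nm g)
    simp only [map_mul, (x.st _).2.2.1] at k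
    refine mul_inv_eq_one.1 (tf two_ne_zero ?_)
    rw [mul_pow, inv_pow, pow_two, pow_two, k, k, h, mul_inv_cancel]
  have ns (l : ℕ) : ∃ k, l.Prime → ∀ P, Ov l P → ∃ g : D.G, g.1 ∈ dec P ∧
      ¬ (pp : ℤ_[pp]) ^ k ∣ (x.ep (χ.toHomUnits g)).toAdd := by
    by_cases hl : l.Prime
    · obtain ⟨c, c1, c2⟩ := pf.ns l hl
      obtain ⟨P₀, o⟩ := pf.ov l hl
      obtain ⟨g₀, -, e⟩ := c2 P₀ o
      obtain ⟨k, hk⟩ := not_forall.1 fun h => c1 (e ▸ inf g₀ (toAdd_eq_zero.1 (sep h)))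
      exact ⟨k, fun _ P o => (c2 P o).imp fun g h =>
        ⟨h.1, by rwa [dep g g₀ (h.2.trans e.symm)]⟩⟩
    · exact ⟨0, fun h => absurd h hl⟩
  choose κ hκ using ns
  obtain ⟨P, o⟩ := pf.ov pp pp_prime
  obtain ⟨t, ht⟩ := opn A B D N χ P cf cg ps o
  obtain ⟨g₁, d1, e1⟩ := ht _ (near x x.g1.1 x.g1.2.1 (.inr x.g1.2.2.1) (.inl x.g1.2.2.2))
  obtain ⟨g₂, d2, e2⟩ := ht _ (near x x.g2.1 x.g2.2.1 (.inl x.g2.2.2.1) (.inr x.g2.2.2.2))
  have u1 : χ.toHomUnits g₁ = x.y₁ ^ pp ^ t := Units.ext e1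
  have u2 : χ.toHomUnits g₂ = x.y ^ pp ^ t := Units.ext e2
  have hf (g : D.G) (h : g.1 ∈ D.Hf pp) : (pp : Qa D.a D.b ℤ_[pp]) ^ 1 ∣ χ g - 1 :=
    pf.hf 1 g (by rwa [pow_one])
  refine ⟨(Sb M).sup κ + t + 1, by omega, x.ord.imp fun n h => ⟨h.1, fun g => h.2 _⟩,
    fun g => x.cub _, fun g => ?_, fun j => ?_, ?_, fun l hl P i o hi => ?_,
    fun l P P' i o o' hi => ?_, ?_, inf, ⟨P, t, g₁, g₂, o, by omega, d1, d2, ?_, ?_⟩, ?_, ?_,
    fun l hl P o => ?_⟩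
  · simp only [MonoidHom.comp_apply, show χ.toHomUnits (D.cg g) = star (χ.toHomUnits g) from
      Units.ext (pf.cj g)]
    exact x.st _
  · obtain ⟨n, hn⟩ := fm.dv
    refine ⟨n + (j + 1), fun g h => ?_⟩
    obtain ⟨a1, a2, a3, a4⟩ := x.cont (χ.toHomUnits g) j ((pow_dvd_pow _ (by omega)).trans (pf.hf _ g
      (pf.hm M _ g fm.ne (hn.trans (mul_dvd_mul_left M (pow_dvd_pow _ (by omega)))) h)))
    exact ⟨a1, a4, a2, a3⟩
  · exact ne_zero_of_dvd_ne_zero pf.idx (Subgroup.index_dvd_of_le fun g h =>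
      (x.cont (χ.toHomUnits g) 0 (hf g h)).1)
  · obtain ⟨a1, a2⟩ := pf.ine l P i (ne hl) o hi
    obtain ⟨b1, b2⟩ := tor x (u := χ.toHomUnits i) (by decide) a1
    refine ⟨b1, b2, ?_⟩
    rw [MonoidHom.comp_apply, ← (x.st _).1, ← map_mul,
      show χ.toHomUnits i * star (χ.toHomUnits i) = 1 from Units.ext a2, map_one]
  · obtain ⟨i', h', e⟩ := pf.cnj l P P' i o o' hi
    refine ⟨i', h', e.imp (fun e => congrArg x.φ (Units.ext e)) fun e => ?_⟩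
    exact (congrArg x.φ (Units.ext e)).trans (x.st (χ.toHomUnits i)).2.1
  · by_cases h : (pp : ℤ) ∣ D.b ^ 2 + 4 * D.a
    · refine .inl fun l hl => pf.ur l fun d => ne hl ?_
      rw [dsc A B D h, dvd_neg, Int.natCast_dvd_natCast] at d
      exact (Nat.prime_dvd_prime_iff_eq (Nat.prime_of_mem_primeFactors hl) pp_prime).1 d
    · refine .inr ⟨?_, fun l hl => ?_⟩
      · obtain ⟨l, l1, d⟩ := pf.ram
        obtain ⟨P, o⟩ := pf.ov l l1
        obtain ⟨i, -, e⟩ := pf.neg l P (fun e => h (e ▸ d)) o d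
        exact ⟨i, neg x h e⟩
      · by_cases d : (l : ℤ) ∣ D.b ^ 2 + 4 * D.a
        · obtain ⟨P, o⟩ := pf.ov l (Nat.prime_of_mem_primeFactors hl)
          obtain ⟨i, hi, e⟩ := pf.neg l P (ne hl) o d
          exact .inr ⟨P, i, o, hi, (neg x h e).1⟩
        · exact .inl (pf.ur l d)
  · simp only [MonoidHom.comp_apply, u1, map_pow, x.g1, one_pow, oa, true_and]
    have := pf.nm g₁
    rwa [e1, Units.val_pow_eq_pow_val, map_pow, x.h₁, nm_of (r := (1 + pp) ^ 2) (by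
      simp [pow_two]), ← pow_mul, mul_comm] at this
  · simp only [MonoidHom.comp_apply, u2, map_pow, x.g2, one_pow, oa, true_and]
    have := pf.nm g₂
    rw [e2, Units.val_pow_eq_pow_val, map_pow, nm_of (r := 1) (by
      rw [map_one]; exact congrArg Units.val x.yn), one_pow, one_mul] at this
    exact Units.ext this
  · obtain ⟨l, hl, Q, o, h⟩ := ax
    refine ⟨l, hl, Q, o, fun g k => ⟨(h g k).1, (x.cont _ 0 (hf ⟨g, _⟩ (h g k))).1, ?_⟩⟩
    obtain ⟨z, e⟩ := hf ⟨g, (h g k).1⟩ (h g k)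
    have := congrArg toZMod (pf.nm ⟨g, (h g k).1⟩)
    rw [eq_add_of_sub_eq e] at this
    simpa [norm_def] using this
  · obtain ⟨g, ζ, z, h⟩ := pf.on
    have u := IsUnit.of_pow_eq_one z (by decide)
    obtain ⟨c, e⟩ := (x.cont (χ.toHomUnits g * u.unit * x.y₁) 1 (by
      rwa [Units.val_mul, x.h₁])).2.1
    rw [map_mul x.ep, map_mul x.ep, (tor x (u := u.unit) (by decide) z).1, mul_one, x.g1.2.2.1, toAdd_mul,
      toAdd_ofAdd, pow_one] at e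
    refine ⟨g, by_contra fun n => PadicInt.not_isUnit_iff.2
      ((PadicInt.norm_lt_one_iff_dvd (1 : ℤ_[pp])).2 ?_) isUnit_one⟩
    exact (dvd_add_right ((PadicInt.norm_lt_one_iff_dvd _).1 (PadicInt.not_isUnit_iff.1 n))).1 ⟨c, e⟩
  · obtain ⟨g, d, n⟩ := hκ l o.1 P o
    exact ⟨g, d, fun h => n ((pow_dvd_pow _ (by have := Finset.le_sup (f := κ) hl; omega)).trans h)⟩

end Vale.Agent.P014X.Fm
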