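import Vale.Agent.P014X.Fm.Mub

/-! # P014X, block FAM: the local types (helper54) -/

set_option autoImplicit false
set_option linter.all false

open NumberField IsLocalRing QuadraticAlgebra
open scoped Classical

noncomputable section

namespace Vale.Agent.P014X.Fm

open Vale.Agent.P027M.S (Inert)
open Vale.Agent.P022E.GW (Ov)
open Vale.Agent.P014U
open Pow

namespace Lc

variable {a b : ℤ} {R : Type} [CommRing R] [IsLocalRing R]

theorem un {u m : Qa a b R} (hu : IsUnit u) (hm : m ∈ Jq a b (maximalIdeal R)) : IsUnit (u + m) := by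
  obtain ⟨v, e⟩ := hu.exists_right_inv
  refine isUnit_of_mul_isUnit_left (y := v) (Mub.unit_of ?_)
  rw [add_mul, e, add_sub_cancel_left]
  exact Ideal.mul_mem_right _ _ hm

theorem un2 {u z : Qa a b R} (hu : IsUnit u) (hm : z * z ∈ Jq a b (maximalIdeal R)) :
    IsUnit (u + z) := by
  refine isUnit_of_mul_isUnit_left (y := u - z) ?_
  rw [show (u + z) * (u - z) = u * u + -(z * z) by ring]
  exact un (hu.mul hu) (neg_mem hm)

/-- elements of norm one and invertible order -/
theorem ord {y : Qa a b R} {n : ℕ} (hn : IsUnit (n : R)) (h : y ^ n = 1) (s : y * star y = 1)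
    (ne : y ≠ 1) : IsUnit (y - 1) := by
  by_contra nu
  have m : (y - 1) * (y - 1) ∈ Jq a b (maximalIdeal R) := by
    have e : (y - 1) * (y - 1) = algebraMap R _ (y - 1).norm * -y := by
      rw [algebraMap_norm_eq_mul_star, star_sub, star_one]
      linear_combination (y - 1) * s
    rw [e]
    exact Ideal.mul_mem_right _ _ (Mub.alg_Jq fun u => nu (isUnit_iff_norm_isUnit.2 u))
  obtain ⟨c, e⟩ : y - 1 ∣ ∑ i ∈ Finset.range n, y ^ i - n := by
    rw [show (n : Qa a b R) = ∑ i ∈ Finset.range n, 1 by simp, ← Finset.sum_sub_distrib]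
    exact Finset.dvd_sum fun i _ => by simpa using sub_dvd_pow_sub_pow y 1 i
  have u : IsUnit ((n : Qa a b R) + (y - 1) * c) := un2 (by simpa using hn.map (algebraMap R _))
    (by rw [mul_mul_mul_comm]; exact Ideal.mul_mem_right _ _ m)
  have z := geom_sum_mul y n
  rw [h, sub_self, sub_eq_iff_eq_add'.1 e, u.mul_right_eq_zero, sub_eq_zero] at z
  exact ne z

end Lc

theorem loc [Pp] : LOC := by
  intro A B D k C a b M χ x f F ⟨u, v, hf⟩ od fq l hl
  obtain ⟨u1, u2, -⟩ := un1' k C a b x.toUy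
  have eF : ∀ P (i : D.G), Ov l P → Inert P i.1 → F i = qm a b PowerSeries.C (f i * x.φ i) := by
    intro P i o h
    obtain ⟨e1, e2, -⟩ := x.gx.ine l hl P i o h
    rw [fq i, e1, e2, toAdd_one, pz_zero (Mub.pR C) u1, pz_zero (Mub.pR C) u2, mul_one, mul_one]
  by_cases h1 : ∃ P, ∃ i : D.G, Ov l P ∧ Inert P i.1 ∧ f i ≠ 1
  · obtain ⟨P, i, o, h, ne⟩ := h1
    obtain ⟨n, nd, hn⟩ := x.gx.ord
    have t := (x.gx.ine l hl P i o h).2.2
    have U : IsUnit (f i - 1) := Lc.ord (n := n) (C.unit_nat.2 nd)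
      (by rw [hf, mul_pow, pow_right_comm, pow_right_comm (star _), ← star_pow, hn, star_one,
        one_pow, one_pow, one_mul])
      (by rw [hf, star_mul', star_pow, star_pow, star_star, mul_mul_mul_comm, ← mul_pow, ← mul_pow,
        mul_comm (star _), t, one_pow, one_pow, one_mul]) ne
    refine .inl ⟨P, i, o, h, ?_⟩
    rw [eF P i o h, ← map_one (qm a b PowerSeries.C), ← map_sub]
    refine IsUnit.map _ ?_
    obtain e | ⟨p3, e1, e2⟩ := x.gx.cub i
    · rwa [e, mul_one]
    · rw [show f i * x.φ i - 1 = f i - 1 + f i * (x.φ i - 1) by ring]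
      refine Lc.un2 U ?_
      have : f i * (x.φ i - 1) * (f i * (x.φ i - 1)) =
          algebraMap C.O _ (pp : C.O) * -(f i * f i * x.φ i) := by
        rw [map_natCast, show ((pp : ℕ) : Qa a b C.O) = 3 by rw [p3]; norm_num]
        linear_combination f i * f i * x.φ i * e2 - f i * f i * e1
      rw [this]
      exact Ideal.mul_mem_right _ _ (Mub.alg_Jq (Mub.pO C))
  have h1 : ∀ P (i : D.G), Ov l P → Inert P i.1 → f i = 1 := fun P i o h =>
    by_contra fun ne => h1 ⟨P, i, o, h, ne⟩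
  have ur : Ur D l := by
    obtain z | z := od
    · exact z l hl
    obtain w | ⟨-, w⟩ := x.gx.sg
    · exact w l hl
    obtain w | ⟨P, i, o, h, e⟩ := w l hl
    · exact w
    have := congrArg QuadraticAlgebra.re ((h1 P i o h).symm.trans (z i e))
    norm_num at this
  have eF : ∀ P (i : D.G), Ov l P → Inert P i.1 → F i = qm a b PowerSeries.C (x.φ i) :=
    fun P i o h => by rw [eF P i o h, h1 P i o h, one_mul]
  by_cases h2 : ∃ P, ∃ i : D.G, Ov l P ∧ Inert P i.1 ∧ x.φ i ≠ 1
  · obtain ⟨P₀, i₀, o₀, h₀, ne⟩ := h2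
    obtain ⟨p3, e1, e2⟩ := (x.gx.cub i₀).resolve_left ne
    refine .inr (.inr ⟨fun P i o h => ⟨ur P i o h, ?_⟩, fun P o => ?_⟩)
    · rw [eF P ⟨i, _⟩ o h, ← map_pow]
      obtain e | ⟨-, e1, e2⟩ := x.gx.cub ⟨i, ur P i o h⟩
      · rw [e, one_pow, map_one]
      · generalize x.φ ⟨i, ur P i o h⟩ = y at e1 e2 ⊢
        rw [show y ^ pp = 1 by
          rw [p3]; linear_combination (y - 1) * y * e2 - (y - 1) * e1, map_one]
    · obtain ⟨i, h, e⟩ := x.gx.cnj l P₀ P i₀ o₀ o h₀
      have n : (x.φ i₀ - 1).norm = pp := QuadraticAlgebra.algebraMap_injective (a := (a : C.O))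
        (b := (b : C.O)) (by
          rw [algebraMap_norm_eq_mul_star, star_sub, star_one, map_natCast,
            show ((pp : ℕ) : Qa a b C.O) = 3 by rw [p3]; norm_num]
          linear_combination e1 - e2)
      have n : (x.φ i - 1).norm = pp := by
        obtain e | e := e
        · rw [e, n]
        · rw [e, ← n, ← norm_star (x.φ i₀ - 1), star_sub, star_one]
      refine ⟨i, h, ?_⟩
      rw [eF P i o h, ← map_one (qm a b PowerSeries.C), ← map_sub, Mub.qm_norm, n, map_natCast]
  · refine .inr (.inl fun P i o h => ⟨ur P i o h, ?_⟩)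
    rw [eF P ⟨i, _⟩ o h, by_contra fun ne => h2 ⟨P, ⟨i, ur P i o h⟩, o, h, ne⟩, map_one]

end Vale.Agent.P014X.Fm
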