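import Vale.Agent.P014X.Fm.St
import Vale.Agent.P014X.Fm.Crk
import Vale.Agent.P014X.Fm.Cpl

/-! # P014X: the two units of the family (helper46) -/

set_option autoImplicit false
set_option linter.all false

open PowerSeries IsLocalRing QuadraticAlgebra

noncomputable section

namespace Vale.Agent.P014X.Mub

open Vale.Agent.P014U Pow

section

variable {a b : ℤ} {R R' : Type} [CommRing R] [CommRing R']

theorem qm_alg (f : R →+* R') (x : R) :
    qm a b f (algebraMap R _ x) = algebraMap R' _ (f x) :=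
  QuadraticAlgebra.ext rfl (map_zero f)

theorem qm_norm (f : R →+* R') (x : Qa a b R) : (qm a b f x).norm = f x.norm := by
  simp [norm_def, qm]

theorem qm_qm {R'' : Type} [CommRing R''] (f : R →+* R') (g : R' →+* R'') (x : Qa a b R) :
    qm a b g (qm a b f x) = qm a b (g.comp f) x := rfl

theorem alg_Jq {I : Ideal R} {x : R} (h : x ∈ I) : algebraMap R (Qa a b R) x ∈ Jq a b I :=
  ⟨h, zero_mem _⟩

theorem unit_of [IsLocalRing R] {U : Qa a b R} (h : U - 1 ∈ Jq a b (maximalIdeal R)) :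
    IsUnit U := by
  refine isUnit_iff_norm_isUnit.2 (by_contra fun n => (maximalIdeal.isMaximal R).ne_top
    ((Ideal.eq_top_iff_one _).2 ?_))
  have := (one_mul' h (n1_star h)).1
  rw [← algebraMap_norm_eq_mul_star] at this
  simpa using sub_mem ((mem_maximalIdeal _).2 n) this

theorem sub_star' (z : Qa a b R) : z - star z = algebraMap R _ z.im * dl a b R := by
  ext <;> simp [dl] <;> ring

theorem norm_dl : (dl a b R).norm = -(b ^ 2 + 4 * a) := by
  simp [norm_def, dl]; ring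

theorem bin {p : ℕ} (hp : p.Prime) (z : R) :
    ∃ h, (1 + z) ^ p - 1 = p * z * (1 + z * h) + z ^ p := by
  obtain ⟨r, hr⟩ := exists_add_pow_prime_eq hp (Polynomial.X : Polynomial ℤ) 1
  have c := congrArg (·.coeff 1) hr
  have e : ((p : Polynomial ℤ) * Polynomial.X * 1 * r).coeff 1 = p * r.coeff 0 := by
    rw [mul_one, mul_assoc, Polynomial.coeff_natCast_mul, Polynomial.coeff_X_mul]
  simp only [Polynomial.coeff_add, e, Polynomial.coeff_X_add_one_pow, Polynomial.coeff_X_pow,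
    one_pow, Polynomial.coeff_one, if_neg hp.one_lt.ne, Nat.choose_one_right, if_neg one_ne_zero,
    zero_add] at c
  have r0 : r.coeff 0 = 1 := by
    have : (p : ℤ) ≠ 0 := by exact_mod_cast hp.ne_zero
    exact (mul_left_cancel₀ this (by rw [← c, mul_one])).symm
  rw [← Polynomial.X_mul_divX_add r, r0] at hr
  have := congrArg (Polynomial.aeval z) hr
  refine ⟨Polynomial.aeval z r.divX, ?_⟩
  simp at this
  linear_combination this

variable [Pp]

/-- the powers of an element which is close to one -/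
theorem pw_ass [IsLocalRing R] (hp : (pp : R) ∈ maximalIdeal R) {z z' : Qa a b R}
    (h : z ∈ Jq a b (maximalIdeal R)) (h' : z' ∈ Jq a b (maximalIdeal R))
    (e : z ^ (pp - 1) = pp * z') (t : ℕ) : Associated ((1 + z) ^ pp ^ t - 1) (pp ^ t * z) := by
  induction t generalizing z z' with
  | zero => simp
  | succ t ih =>
    obtain ⟨s, hs⟩ := bin pp_prime z
    have p1 : pp = pp - 1 + 1 := (Nat.sub_add_cancel pp_prime.pos).symm
    have p2 : pp - 1 = pp - 2 + 1 := by have := pp_prime.two_le; omega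
    have u : IsUnit (1 + z * s + z') := unit_of (by
      simpa [add_assoc] using add_mem (Ideal.mul_mem_right s _ h) h')
    have e1 : (1 + z) ^ pp = 1 + pp * z * (1 + z * s + z') := by
      have : z ^ pp = z * (pp * z') := by rw [← e, ← pow_succ', ← p1]
      linear_combination hs + this
    rw [pow_succ' pp, pow_mul, e1]
    refine (ih (z' := pp ^ (pp - 2) * (pp * z') * (1 + z * s + z') ^ (pp - 1))
      (Ideal.mul_mem_right _ _ (Ideal.mul_mem_left _ _ h))
      (Ideal.mul_mem_right _ _ (Ideal.mul_mem_left _ _ (Ideal.mul_mem_left _ _ h'))) ?_).trans ?_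
    · rw [mul_pow, mul_pow, e, p2, pow_succ' (pp : Qa a b R)]
      ring
    · rw [← mul_assoc, pow_succ (pp : Qa a b R), mul_assoc _ _ z]
      exact associated_mul_unit_left _ _ u

theorem pz_base {I : Ideal R} [IsAdicComplete I R] (hp : (pp : R) ∈ I) (x : ℤ_[pp]) :
    pz I (1 : Qa a b R) x = 1 := by
  have : Subsingleton (ZMod (pp ^ 0)) := by rw [pow_zero]; infer_instance
  simpa using pz_fin hp (U := (1 : Qa a b R)) (by simp) (k := 0) (n := 0) (x := x) (by simp)
    (Subsingleton.elim _ _)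

end

variable [Pp] {k : ℕ} (C : Cr k) {a b : ℤ}

instance cR : IsAdicComplete (maximalIdeal C.R) C.R := (cpl k C).2.1

instance cO : IsAdicComplete (maximalIdeal C.O) C.O := (cpl k C).2.2.1

/-- the uniformiser -/
abbrev w : C.O := C.pb.gen - 1

/-- the maximal ideal -/
abbrev mR : Ideal C.R := maximalIdeal C.R

theorem mem_mR {x : C.R} : x ∈ mR C ↔ w C ∣ constantCoeff x := by
  rw [mem_maximalIdeal, mem_nonunits_iff, isUnit_iff_constantCoeff, C.nu_iff]

theorem pR : (pp : C.R) ∈ mR C := (mem_mR C).2 (by simpa using C.dvp)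

theorem pO : (pp : C.O) ∈ maximalIdeal C.O := (mem_maximalIdeal _).2 ((C.nu_iff _).2 C.dvp)

theorem Ev.loc {C : Cr k} {e : C.R →+* C.O} (h : C.Ev e) : ∀ x ∈ mR C, e x ∈ maximalIdeal C.O :=
  fun x m => (mem_maximalIdeal _).2 fun u => (mem_maximalIdeal _).1 m ((h.unit x).1 u)

/-- the reduction modulo the uniformiser -/
abbrev rh : C.R →+* PowerSeries (ZMod pp) := PowerSeries.map C.π

theorem rh_zero {x : C.R} : rh C x = 0 ↔ PowerSeries.C (w C) ∣ x := by
  constructor
  · intro h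
    have : ∀ n, w C ∣ coeff n x := fun n => (C.π_zero _).1 (by
      simpa using congrArg (coeff n) h)
    choose c hc using this
    exact ⟨PowerSeries.mk c, PowerSeries.ext fun n => by rw [coeff_C_mul, coeff_mk, hc]⟩
  · rintro ⟨y, rfl⟩
    rw [map_mul, map_C, (C.π_zero _).2 dvd_rfl, map_zero, zero_mul]

theorem rh_loc : ∀ x ∈ mR C, rh C x ∈ Ideal.span {(X : PowerSeries (ZMod pp))} := fun x m => by
  rw [Ideal.mem_span_singleton, X_dvd_iff]
  exact (C.π_zero _).2 ((mem_mR C).1 m)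

theorem two_dim : 2 ≤ C.pb.dim := by
  rw [C.dim]
  have := pp_prime.two_le
  have := pp_ne_two
  exact le_mul_of_one_le_of_le (Nat.one_le_pow _ _ pp_prime.pos) (by omega)

/-- the quotient of the prime by the uniformiser -/
def cp : C.O := C.dvp.choose

theorem cp_eq : (pp : C.O) = w C * cp C := C.dvp.choose_spec

theorem cp_dvd : w C ∣ cp C := by
  refine (mul_dvd_mul_iff_left C.w0).1 ?_
  rw [← cp_eq, ← sq]
  exact (pow_dvd_pow _ (two_dim C)).trans C.ass.dvd

/-- the real unit -/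
def Ur : C.R := PowerSeries.C (1 + pp : C.O) - PowerSeries.C (cp C - 1) * X

variable (a b) in
/-- the same in the quadratic algebra -/
def Up : Qa a b C.R := algebraMap _ _ (Ur C)

theorem Up_n1 : Up C a b - 1 ∈ Jq a b (mR C) := by
  rw [Up, ← map_one (algebraMap C.R (Qa a b C.R)), ← map_sub]
  exact alg_Jq ((mem_mR C).2 (by simpa [Ur] using C.dvp))

theorem Up_star : star (Up C a b) = Up C a b := by ext <;> simp [Up]

theorem Up_rh : qm a b (rh C) (Up C a b) = algebraMap _ _ (1 + X : PowerSeries (ZMod pp)) := by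
  have : ((pp : ℕ) : PowerSeries (ZMod pp)) = 0 := by
    rw [← map_natCast (PowerSeries.C (R := ZMod pp)), ZMod.natCast_self, map_zero]
  rw [Up, qm_alg, Ur]
  simp [(C.π_zero _).2 (cp_dvd C), this]

variable {C} {e : C.R →+* C.O}

theorem Up_0 (h : C.Ev e) (x : e X = 0) : qm a b e (Up C a b) = 1 + pp := by
  rw [Up, qm_alg, Ur, map_sub, map_mul, h.c, x]
  simp

theorem Up_1 (h : C.Ev e) (x : e X = w C) : qm a b e (Up C a b) = algebraMap _ _ C.pb.gen := by
  rw [Up, qm_alg, Ur, map_sub, map_mul, h.c, h.c, x, cp_eq]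
  congr 1
  ring

variable (C) in
/-- elements of norm one which are close to one -/
structure Yo (y : Qa a b C.O) : Prop where
  nrm : y * star y = 1
  im : y.im ≠ 0
  dv : ∃ s, 1 ≤ s ∧ C.pb.dim ≤ s * (pp - 1) ∧ algebraMap C.O _ (w C ^ (s + 1)) ∣ y - 1

/-- the slope -/
def sl (y : Qa a b C.O) : Qa a b C.O :=
  Classical.epsilon fun c => y - 1 = algebraMap _ _ (2 * w C) * c

/-- the numerator -/
def Yn (y : Qa a b C.O) : Qa a b C.R :=
  1 + qm a b PowerSeries.C (sl y) * algebraMap _ _ (PowerSeries.C (w C) - X : C.R)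

/-- the unit of norm one -/
def Um (y : Qa a b C.O) : Qa a b C.R := Ring.inverse (star (Yn y)) * Yn y

variable {y : Qa a b C.O}

theorem wX : (PowerSeries.C (w C) - X : C.R) ∈ mR C := (mem_mR C).2 (by simp)

theorem Yn_n1 (y : Qa a b C.O) : Yn y - 1 ∈ Jq a b (mR C) := by
  rw [Yn, add_sub_cancel_left]
  exact Ideal.mul_mem_left _ _ (alg_Jq wX)

theorem Um_eq (y : Qa a b C.O) : star (Yn y) * Um y = Yn y :=
  Ring.mul_inverse_cancel_left _ _ (unit_of (n1_star (Yn_n1 y)))

theorem Um_nrm (y : Qa a b C.O) : Um y * star (Um y) = 1 := by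
  have := congrArg star (Um_eq y)
  rw [star_mul, star_star] at this
  refine (unit_of (Yn_n1 y)).mul_left_cancel ?_
  linear_combination Um y * this + Um_eq y

theorem Um_sub (y : Qa a b C.O) : star (Yn y) * (Um y - 1) =
    algebraMap _ _ (PowerSeries.C (sl y).im * (PowerSeries.C (w C) - X) : C.R) * dl a b C.R := by
  rw [mul_sub, Um_eq, mul_one, sub_star']
  simp [Yn, qm]

theorem Um_n1 (y : Qa a b C.O) : Um y - 1 ∈ Jq a b (mR C) :=
  (Ideal.unit_mul_mem_iff_mem _ (unit_of (n1_star (Yn_n1 y)))).1 (Um_sub y ▸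
    Ideal.mul_mem_right _ _ (alg_Jq (Ideal.mul_mem_left _ _ wX)))

theorem Um_1 (h : C.Ev e) (x : e X = w C) (y : Qa a b C.O) : qm a b e (Um y) = 1 := by
  have u : qm a b e (Yn y) = 1 := by simp [Yn, qm_alg, h.c, x]
  have := congrArg (qm a b e) (Um_eq y)
  rwa [map_mul, qm_star, u, star_one, one_mul] at this

theorem Yo.sl_eq (h : Yo C y) : y - 1 = algebraMap _ _ (2 * w C) * sl y := by
  obtain ⟨s, -, -, c, hc⟩ := h.dv
  obtain ⟨v, hv⟩ := C.unit_two.exists_left_inv
  refine Classical.epsilon_spec (p := fun c => y - 1 = algebraMap _ _ (2 * w C) * c)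
    ⟨algebraMap _ _ (v * w C ^ s) * c, ?_⟩
  rw [hc, ← mul_assoc, ← map_mul]
  congr 2
  linear_combination -(w C ^ (s + 1)) * hv

theorem Yo.sl_dv (h : Yo C y) : ∃ s, 1 ≤ s ∧ C.pb.dim ≤ s * (pp - 1) ∧ w C ^ s ∣ (sl y).re ∧
    w C ^ s ∣ (sl y).im := by
  obtain ⟨s, s1, s2, d⟩ := h.dv
  rw [h.sl_eq, algebraMap_dvd_iff] at d
  have f : ∀ x, w C ^ (s + 1) ∣ 2 * w C * x → w C ^ s ∣ x := fun x d => by
    rw [pow_succ', mul_assoc, C.unit_two.dvd_mul_left, mul_dvd_mul_iff_left C.w0] at d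
    exact d
  exact ⟨s, s1, s2, f _ (by simpa using d.1), f _ (by simpa using d.2)⟩

theorem Yo.im_ne (h : Yo C y) : (sl y).im ≠ 0 := fun z => h.im (by
  simpa [z] using congrArg QuadraticAlgebra.im h.sl_eq)

theorem Yo.Um_0 (h : Yo C y) (he : C.Ev e) (x : e X = 0) : qm a b e (Um y) = y := by
  have u : 2 * qm a b e (Yn y) = 1 + y := by
    have : qm a b e (qm a b PowerSeries.C (sl y)) = sl y := QuadraticAlgebra.ext (he.c _) (he.c _)
    have s := h.sl_eq
    rw [map_mul, map_ofNat] at s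
    rw [Yn, map_add, map_mul, this, qm_alg, map_sub, he.c, x, map_one, sub_zero]
    linear_combination -s
  have u' := congrArg star u
  have := congrArg (qm a b e) (Um_eq y)
  rw [map_mul, qm_star] at this
  rw [star_mul, star_add, star_one, star_ofNat] at u'
  have t : IsUnit (2 : Qa a b C.O) := by
    simpa only [map_ofNat] using C.unit_two.map (algebraMap C.O (Qa a b C.O))
  have v := (unit_of (n1_star (Yn_n1 y))).map (qm a b e)
  rw [qm_star] at v
  refine v.mul_left_cancel (t.mul_left_cancel ?_)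
  linear_combination 2 * this + u - y * u' - h.nrm

theorem Yo.Um_rh (h : Yo C y) : qm a b (rh C) (Um y) = 1 := by
  obtain ⟨s, s1, -, d1, d2⟩ := h.sl_dv
  have z : ∀ x, w C ^ s ∣ x → C.π x = 0 := fun x d =>
    (C.π_zero _).2 ((dvd_pow_self _ (by omega)).trans d)
  have u : qm a b (rh C) (Yn y) = 1 := by
    have : qm a b (rh C) (qm a b PowerSeries.C (sl y)) = 0 := by
      ext <;> simp [qm, z _ d1, z _ d2]
    rw [Yn, map_add, map_mul, this, zero_mul, add_zero, map_one]
  have := congrArg (qm a b (rh C)) (Um_eq y)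
  rwa [map_mul, qm_star, u, star_one, one_mul] at this

/-- the powers of the unit of norm one -/
theorem Yo.um_pow (h : Yo C y) (d : IsUnit (b ^ 2 + 4 * a : C.O)) (t : ℕ) : ∃ j,
    Associated (Um y ^ pp ^ t - 1).norm (PowerSeries.C (w C) ^ j * (X - PowerSeries.C (w C)) ^ 2) := by
  obtain ⟨s, -, s2, -, c, hc⟩ := h.sl_dv
  obtain ⟨v, hv⟩ := (unit_of (n1_star (Yn_n1 y))).exists_left_inv
  have vu : IsUnit v := .of_mul_eq_one _ hv
  have e : Um y - 1 = v * (algebraMap _ _ (PowerSeries.C (sl y).im * (PowerSeries.C (w C) - X) : C.R) *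
      dl a b C.R) := by rw [← Um_sub, ← mul_assoc, hv, one_mul]
  obtain ⟨r, hr⟩ : (pp : C.O) ∣ (sl y).im ^ (pp - 1) := by
    rw [hc, mul_pow, ← pow_mul]
    exact (C.ass.symm.dvd.trans (pow_dvd_pow _ s2)).mul_right _
  have p2 : pp - 1 = pp - 2 + 1 := by have := pp_prime.two_le; omega
  have A := pw_ass (pR C) (Um_n1 y) (z' := (v * dl a b C.R) ^ (pp - 1) * algebraMap _ _
    (PowerSeries.C r * (PowerSeries.C (w C) - X) ^ (pp - 1) : C.R))
    (Ideal.mul_mem_left _ _ (alg_Jq (Ideal.mul_mem_left _ _ (p2 ▸ Ideal.pow_mem_of_mem _ wX _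
      (Nat.succ_pos _))))) (by
      rw [e, mul_comm _ (dl a b C.R), ← mul_assoc, mul_pow, ← map_pow,
        mul_pow (PowerSeries.C _), ← map_pow, hr]
      simp only [map_mul, map_natCast]
      ring) t
  rw [add_sub_cancel] at A
  obtain ⟨j, hj⟩ := C.ex_w (mul_ne_zero (pow_ne_zero t C.p0) h.im_ne)
  refine ⟨2 * j, (A.map QuadraticAlgebra.norm).trans ?_⟩
  have du : IsUnit (dl a b C.R).norm := by
    rw [norm_dl]
    simpa only [map_add, map_mul, map_pow, map_intCast, map_ofNat] using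
      (d.map (PowerSeries.C (R := C.O))).neg
  have B := (hj.map (PowerSeries.C (R := C.O))).symm.pow_pow (n := 2)
  rw [e, map_mul, map_mul, map_mul, map_pow, QuadraticAlgebra.norm_natCast,
    QuadraticAlgebra.norm_algebraMap]
  refine (Associated.of_eq ?_).trans ((associated_mul_unit_left _ _
    ((vu.map QuadraticAlgebra.norm).mul du)).trans ((B.mul_right
      ((X - PowerSeries.C (w C)) ^ 2)).trans (.of_eq ?_)))
  · simp only [map_mul, map_pow, map_natCast]
    ring
  · rw [map_pow, ← pow_mul, mul_comm j]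

/-! ### the invariant `μ` -/

theorem pz_ne {x : ℤ_[pp]} (h : x ≠ 0) : pz (Ideal.span {(X : PowerSeries (ZMod pp))})
    (algebraMap (PowerSeries (ZMod pp)) (Qa a b _) (1 + X)) x ≠ 1 := fun e => by
  have hp : ((pp : ℕ) : PowerSeries (ZMod pp)) ∈ Ideal.span {(X : PowerSeries (ZMod pp))} := by
    rw [← map_natCast (PowerSeries.C (R := ZMod pp)), ZMod.natCast_self, map_zero]
    exact zero_mem _
  have n : algebraMap (PowerSeries (ZMod pp)) (Qa a b _) (1 + X) - 1 ∈
      Jq a b (Ideal.span {(X : PowerSeries (ZMod pp))}) := by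
    rw [map_add, map_one, add_sub_cancel_left]
    exact alg_Jq (Ideal.mem_span_singleton_self _)
  have := pz_pz hp n x ↑(PadicInt.unitCoeff h)⁻¹
  rw [e, pz_base hp] at this
  nth_rewrite 1 [PadicInt.unitCoeff_spec h] at this
  rw [mul_right_comm, Units.mul_inv, one_mul, ← Nat.cast_pow, pz_nat hp n, ← map_pow,
    ← map_one (algebraMap (PowerSeries (ZMod pp)) (Qa a b _)), algebraMap_inj] at this
  have c : CharP (PowerSeries (ZMod pp)) pp :=
    charP_of_injective_algebraMap (algebraMap (ZMod pp) _).injective _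
  rw [add_pow_char_pow, one_pow, left_eq_add] at this
  exact pow_ne_zero _ X_ne_zero this

/-- **no `μ`-invariant** -/
theorem Yo.mu0 (h : Yo C y) {f : Qa a b C.O} (u : IsUnit f) {x : ℤ_[pp]} (x0 : x ≠ 0) (x' : ℤ_[pp]) :
    ¬ PowerSeries.C (w C) ∣
      (qm a b PowerSeries.C f * pz (mR C) (Up C a b) x * pz (mR C) (Um y) x' - 1).norm := by
  rw [← rh_zero, ← qm_norm, map_sub, map_mul, map_mul, pz_map (pR C) (Up_n1 C) _ (rh_loc C),
    pz_map (pR C) (Um_n1 y) _ (rh_loc C), Up_rh, h.Um_rh, map_one]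
  have hp := rh_loc C _ (pR C)
  rw [map_natCast] at hp
  have n := n1_map (Up_n1 C (a := a) (b := b)) _ (rh_loc C)
  rw [Up_rh] at n
  have n0 := pz_ne (a := a) (b := b) x0
  have n1 := (pz_n1 hp n x).1
  have n2 := pz_im hp n rfl x
  rw [pz_base hp, mul_one]
  generalize pz _ (algebraMap (PowerSeries (ZMod pp)) (Qa a b (PowerSeries (ZMod pp))) (1 + X)) x =
    T at n0 n1 n2
  obtain ⟨v, rfl⟩ : ∃ v, T = ⟨1 + v, 0⟩ := ⟨T.re - 1, QuadraticAlgebra.ext (by simp) n2⟩
  have v0 : v ≠ 0 := fun e => n0 (by rw [e, add_zero]; rfl)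
  have v1 : constantCoeff v = 0 := by
    simpa [Ideal.mem_span_singleton, X_dvd_iff] using n1
  have N0 : C.π f.norm ≠ 0 := (C.unit_iff _).1 (isUnit_iff_norm_isUnit.1 u)
  intro e
  have e : PowerSeries.C (C.π f.norm - C.π (2 * f.re + b * f.im) + 1) +
      v * (PowerSeries.C (2 * C.π f.norm - C.π (2 * f.re + b * f.im)) +
        PowerSeries.C (C.π f.norm) * v) = 0 := by
    rw [← e]
    simp [norm_def, qm, map_ofNat]
    ring
  have e1 := congrArg constantCoeff e
  rw [map_add, map_mul, v1, zero_mul, add_zero, constantCoeff_C, map_zero] at e1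
  rw [e1, map_zero, zero_add, mul_eq_zero, or_iff_right v0] at e
  have e2 := congrArg constantCoeff e
  rw [map_add, map_mul, v1, mul_zero, add_zero, constantCoeff_C, map_zero] at e2
  rw [e2, map_zero, zero_add, mul_eq_zero, or_iff_left v0] at e
  exact N0 (by simpa using congrArg constantCoeff e)

theorem smul_eq (c : ℤ_[pp]) (V : Qa a b C.R) : algebraMap ℤ_[pp] C.R c • V =
    qm a b PowerSeries.C (algebraMap C.O _ (algebraMap ℤ_[pp] C.O c)) * V := by
  rw [qm_alg, Algebra.smul_def, PowerSeries.algebraMap_apply]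

/-- the same in the form of `Cd.nn` -/
theorem Yo.mu1 (h : Yo C y) {f : Qa a b C.O} (u : IsUnit f) {x : ℤ_[pp]} (x0 : x ≠ 0) (x' : ℤ_[pp])
    {V : Qa a b C.R}
    (e : V = qm a b PowerSeries.C f * pz (mR C) (Up C a b) x * pz (mR C) (Um y) x') (c : ℤ_[pp]ˣ) :
    ¬ PowerSeries.C (w C) ∣ (V - 1).norm * (algebraMap ℤ_[pp] C.R c • V - 1).norm := by
  rw [← rh_zero, map_mul, mul_eq_zero, rh_zero, rh_zero, smul_eq, e, ← mul_assoc, ← mul_assoc,
    ← map_mul]
  exact not_or.2 ⟨h.mu0 u x0 x', h.mu0 (((c.isUnit.map _).map _).mul u) x0 x'⟩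

/-! ### the prime ideals -/

variable {I : Ideal C.R}

theorem nin_w (p : I.IsPrime) (ne : I ≠ mR C) (m : PowerSeries.C (w C) ∈ I) {x : C.R}
    (h : ¬ PowerSeries.C (w C) ∣ x) : x ∉ I := fun i => by
  rw [← rh_zero] at h
  obtain ⟨u, hu⟩ := PowerSeries.map_surjective C.π (ZMod.ringHom_surjective _)
    (divXPowOrder (rh C x))
  have uu : IsUnit u := by
    rw [C.unit_R]
    show constantCoeff (PowerSeries.map C.π u) ≠ 0
    rw [hu]
    exact mt constantCoeff_divXPowOrder_eq_zero_iff.1 h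
  obtain ⟨r, hr⟩ : PowerSeries.C (w C) ∣ x - X ^ (rh C x).order.toNat * u := by
    rw [← rh_zero, map_sub, map_mul, map_pow, map_X, hu, X_pow_order_mul_divXPowOrder, sub_self]
  have : X ^ (rh C x).order.toNat * u ∈ I := by
    have := sub_mem i (hr ▸ I.mul_mem_right r m)
    rwa [sub_sub_cancel] at this
  have xi := p.mem_of_pow_mem _ ((I.mul_unit_mem_iff_mem uu).1 this)
  refine ne (le_antisymm (le_maximalIdeal p.ne_top) fun z hz => ?_)
  obtain ⟨c, hc⟩ := (mem_mR C).1 hz
  rw [eq_X_mul_shift_add_const z, hc, map_mul]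
  exact add_mem (I.mul_mem_right _ xi) (I.mul_mem_right _ m)

theorem ev_dvd (h : C.Ev e) (x : C.R) : X - PowerSeries.C (e X) ∣ x - PowerSeries.C (e x) := by
  have H : (Polynomial.X - Polynomial.C (e X)).IsDistinguishedAt (maximalIdeal C.O) := by
    refine ⟨⟨fun {n} hn => ?_⟩, Polynomial.monic_X_sub_C _⟩
    rw [Polynomial.natDegree_X_sub_C, Nat.lt_one_iff] at hn
    subst hn
    simpa using h.X
  obtain ⟨q, hq⟩ := H.algEquivQuotient.surjective (Ideal.Quotient.mk _ x)
  obtain ⟨q, rfl⟩ := Ideal.Quotient.mk_surjective q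
  replace hq : Ideal.Quotient.mk _ (q : C.R) = Ideal.Quotient.mk _ x := hq
  obtain ⟨r, hr⟩ := Ideal.mem_span_singleton.1 (Ideal.Quotient.eq.1 hq)
  obtain ⟨s, hs⟩ := Polynomial.X_sub_C_dvd_sub_C_eval (p := q) (a := e X)
  have hs := congrArg Polynomial.coeToPowerSeries.ringHom hs
  simp only [map_sub, map_mul, Polynomial.coeToPowerSeries.ringHom_apply, Polynomial.coe_X,
    Polynomial.coe_C, Polynomial.coe_sub] at hs hr
  have d : x - PowerSeries.C (q.eval (e X)) = (X - PowerSeries.C (e X)) * ((s : C.R) - r) := by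
    linear_combination hs - hr
  have := congrArg e d
  rw [map_sub, map_mul, map_sub, h.c, h.c, sub_self, zero_mul, sub_eq_zero] at this
  exact ⟨_, this ▸ d⟩

theorem nin_e (p : I.IsPrime) (m : PowerSeries.C (w C) ∉ I) (h : C.Ev e)
    (m' : X - PowerSeries.C (e X) ∈ I) {x : C.R} (n : e x ≠ 0) : x ∉ I := fun i => by
  obtain ⟨r, hr⟩ := ev_dvd h x
  obtain ⟨j, c, hc⟩ := (C.ex_w n).imp fun _ a => a.symm.dvd
  have : PowerSeries.C (e x) ∈ I := by
    have := sub_mem i (hr ▸ I.mul_mem_right r m')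
    rwa [sub_sub_cancel] at this
  exact m (p.mem_of_pow_mem j (by rw [← map_pow, hc, map_mul]; exact I.mul_mem_right _ this))

/-- **one of the two elements is not in the ideal** -/
theorem Yo.bad0 (h : Yo C y) (d : IsUnit (b ^ 2 + 4 * a : C.O)) {t : ℕ} (le : t ≤ k) (t' : ℕ)
    {c : ℤ_[pp]ˣ} (hc : ¬ IsOfFinOrder c) (p : I.IsPrime) (ne : I ≠ mR C) :
    (Up C a b ^ pp ^ t - 1).norm * (algebraMap ℤ_[pp] C.R c • Up C a b ^ pp ^ t - 1).norm ∉ I ∨
    (Um y ^ pp ^ t' - 1).norm *
      (algebraMap ℤ_[pp] C.R (1 : ℤ_[pp]ˣ) • Um y ^ pp ^ t' - 1).norm ∉ I := by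
  by_cases m : PowerSeries.C (w C) ∈ I
  · refine .inl (nin_w p ne m (h.mu1 isUnit_one (x := (pp ^ t : ℕ)) (Nat.cast_ne_zero.2
      (pow_ne_zero _ pp_ne)) 0 ?_ c))
    rw [map_one, one_mul, pz_zero (pR C) (Um_n1 y), mul_one, pz_nat (pR C) (Up_n1 C)]
  by_cases m' : X - PowerSeries.C (w C) ∈ I
  · obtain ⟨e, he, ex⟩ := (cpl k C).2.2.2
    refine .inl (nin_e p m he (ex ▸ m') ?_)
    rw [map_mul, ← qm_norm, ← qm_norm, smul_eq, map_sub (qm a b e), map_sub (qm a b e),
      map_mul (qm a b e), map_pow, Up_1 he ex,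
      qm_alg, qm_alg, he.c, ← map_pow, ← map_mul (algebraMap C.O _), map_one, ← map_one (algebraMap C.O (Qa a b C.O)),
      ← map_sub, ← map_sub, QuadraticAlgebra.norm_algebraMap, QuadraticAlgebra.norm_algebraMap]
    refine mul_ne_zero (pow_ne_zero _ (sub_ne_zero.2 fun z => ?_))
      (pow_ne_zero _ (sub_ne_zero.2 fun z => hc ?_))
    · exact absurd ((Nat.pow_dvd_pow_iff_le_right one_lt).1 (C.prim.dvd_of_pow_eq_one _ z)) (by omega)
    · refine isOfFinOrder_iff_pow_eq_one.2 ⟨pp ^ (k + 1), pow_pos pp_prime.pos _,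
        Units.ext (C.inj ?_)⟩
      have := congrArg (· ^ pp ^ (k + 1)) z
      simp only [mul_pow] at this
      rw [pow_right_comm, C.pw] at this
      simpa using this
  · obtain ⟨j, v, hv⟩ := (h.um_pow d t').imp fun _ a => a.dvd
    have : (Um y ^ pp ^ t' - 1).norm ∉ I := fun i =>
      (p.mem_or_mem (hv ▸ I.mul_mem_right v i)).elim (fun z => m (p.mem_of_pow_mem _ z))
        fun z => m' (p.mem_of_pow_mem _ z)
    exact .inr fun i => by simpa [this] using p.mem_or_mem i

/-! ### the words of the block -/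

variable (x : Fm.Uy C a b)

theorem uy_up : x.up = Up C a b := by
  rw [Fm.Uy.up, Up, Ur, mul_left_cancel₀ C.w0 (x.hw.trans (cp_eq C)), ← neg_sub (cp C), map_neg,
    neg_mul, ← sub_eq_add_neg]

theorem uy_yo : Yo C x.y := by
  refine ⟨x.yn, fun z => x.ne (by ext <;> simp [z]), pp ^ k + 1, by omega, ?_, x.z, ?_⟩
  · rw [C.dim]; exact Nat.mul_le_mul_right _ (Nat.le_succ _)
  · rw [x.hz, Algebra.smul_def]

theorem uy_Y : x.Y = 2 * Yn x.y := by
  have s := (uy_yo x).sl_eq
  have e : w C ^ (pp ^ k + 1) • x.z = 2 * sl x.y := by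
    have := x.hz.symm.trans s
    rw [pow_succ', mul_smul, mul_comm 2, map_mul, mul_assoc, ← Algebra.smul_def, map_ofNat] at this
    exact smul_right_injective _ C.w0 this
  have f : 1 + x.y = 2 + algebraMap _ _ (2 * w C) * sl x.y := by linear_combination s
  rw [Fm.Uy.Y, e, f, Yn, Algebra.smul_def]
  simp only [map_add, map_mul, map_ofNat, qm_alg, map_sub (algebraMap C.R (Qa a b C.R))]
  ring

theorem uy_unit : IsUnit x.Y := by
  have t : IsUnit (2 : Qa a b C.R) := by
    simpa only [map_ofNat] using (C.unit_two.map (PowerSeries.C (R := C.O))).map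
      (algebraMap C.R (Qa a b C.R))
  exact uy_Y x ▸ t.mul (unit_of (Yn_n1 _))

theorem uy_um : x.um = Um x.y := by
  refine (uy_unit x).star.mul_right_cancel ?_
  rw [Fm.Uy.um, Ring.inverse_mul_cancel_right _ _ (uy_unit x).star, uy_Y, star_mul, star_ofNat]
  linear_combination -2 * Um_eq x.y

end Vale.Agent.P014X.Mub

namespace Vale.Agent.P014X.Fm

open Vale.Agent.P014U Mub

variable [Pp]

theorem un1' : UN1 := fun k C a b x => by
  rw [uy_up, uy_um]
  exact ⟨Up_n1 C, Um_n1 _, Up_star C, Um_nrm _, uy_unit x, fun e h =>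
    ⟨fun z => ⟨Up_0 h z, (uy_yo x).Um_0 h z⟩, fun z => ⟨Up_1 h z, Um_1 h z _⟩⟩⟩

theorem umu : UMU := fun k C a b x c s s' u s0 => by
  rw [uy_up, uy_um]
  exact (uy_yo x).mu0 u s0 s'

theorem ubd : UBD := fun k C a b x I t c p ne le e => by
  rw [uy_up, uy_um]
  obtain ⟨c, rfl⟩ := IsUnit.of_mul_eq_one _ e
  refine ((uy_yo x).bad0 x.du le t (c := c) (fun f => ?_) p ne).symm.imp_left fun h i =>
    h (I.mul_mem_right _ i)
  obtain ⟨n, n0, hn⟩ := isOfFinOrder_iff_pow_eq_one.1 f
  have := congrArg (· ^ n) e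
  simp only [mul_pow, ← Units.val_pow_eq_pow_val, hn, Units.val_one, one_mul, one_pow,
    ← pow_mul] at this
  have := (Nat.cast_injective (R := ℤ_[pp]) (a₁ := (1 + pp) ^ (2 * pp ^ t * n)) (a₂ := 1)
    (by push_cast; exact this))
  rcases Nat.pow_eq_one.1 this with z | z
  · have := pp_prime.pos; omega
  · exact mul_ne_zero (mul_ne_zero two_ne_zero (pow_ne_zero _ pp_ne)) n0.ne' z

end Vale.Agent.P014X.Fm
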