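import Vale.Agent.P014X.Fm.St
import Vale.Agent.P014X.Fm.Pts
import Vale.Agent.P014X.Dv.Kit

/-! # P014X, block FAM: the image of a decomposition group is open (row `OPN`) -/

set_option autoImplicit false
set_option linter.all false

open NumberField
open scoped Classical

noncomputable section

namespace Vale.Agent.P014X.Fm

open Vale.Agent.P022 (Qb GQ)
open Vale.Agent.P027M.S (Inert)
open Vale.Agent.P022D.W (dec)
open Vale.Agent.P022E.GW (Ov)
open Vale.Agent.P014U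
open PadicInt (toZModPow)
open Cf0 Psi Pts Dv.Kit

namespace Opn

section

variable {R : Type} [CommRing R]

/-- roots of elements near one -/
theorem root {p : R} {n : ℕ} (h : p ^ n = 0) (N : ℕ) {u : R} (d : (N : R) ^ 2 * p ∣ u - 1) :
    ∃ r, r ^ N = u := by
  have k (m : ℕ) : ∃ r w, u = r ^ N * (1 + N ^ 2 * p ^ (m + 1) * w) := by
    induction m with
    | zero => exact d.elim fun w e => ⟨1, w, by linear_combination e⟩
    | succ m ih =>
      obtain ⟨r, w, e⟩ := ih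
      obtain ⟨c, f⟩ := sq_dvd_add_pow_sub_sub (N * p ^ (m + 1) * w) 1 N
      obtain ⟨v, g⟩ := ((IsNilpotent.isUnit_one_add (r := N * p ^ (m + 1) * w) ⟨n, by
        rw [mul_pow, mul_pow, ← pow_mul, mul_comm _ n, pow_mul, h]; simp⟩).pow N).exists_right_inv
      refine ⟨r * (1 + N * p ^ (m + 1) * w), -(v * p ^ m * w ^ 2 * c), ?_⟩
      rw [mul_pow r, e]
      simp only [one_pow] at f
      linear_combination (-r ^ N) * f + r ^ N * (N * p ^ (m + 1) * w) ^ 2 * c * g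
  obtain ⟨r, w, e⟩ := k n
  exact ⟨r, by rw [e, pow_succ p, h]; simp⟩

/-- an element near one generates the elements near one -/
theorem genp {p : ℕ} (hp : p.Prime) (p2 : p ≠ 2) (res : ∀ c : R, ∃ m : ℕ, (p : R) ∣ c - m) {w : R}
    (cw : IsCoprime w p) {s : ℕ} (s0 : s ≠ 0) {β : R} (h : (p : R) ^ s ∣ β - 1) (j : ℕ) :
    ∃ k : ℕ, (p : R) ^ (s + j) ∣ β - (1 + p ^ s * w) ^ k := by
  induction j with
  | zero => exact ⟨0, by simpa using h⟩
  | succ j ih =>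
    obtain ⟨k, c, e⟩ := ih
    obtain ⟨a, b, f⟩ := cw
    obtain ⟨m, x, g⟩ := res (c * a)
    obtain ⟨y, e1⟩ := ZMod.exists_one_add_mul_pow_prime_pow_eq hp (dvd_pow_self (p : R) s0) (by
      rw [← pow_succ', ← pow_succ, ← pow_mul]
      have := hp.two_le
      exact pow_dvd_pow _ (by nlinarith [Nat.pos_of_ne_zero s0, show 3 ≤ p by omega])) w j
    obtain ⟨z, e2⟩ := sq_dvd_add_pow_sub_sub (p ^ j * p ^ s * (w + p * y) : R) 1 m
    obtain ⟨t, e3⟩ := sub_one_dvd_pow_sub_one (1 + p ^ s * w : R) k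
    obtain ⟨s, rfl⟩ := Nat.exists_eq_succ_of_ne_zero s0
    refine ⟨k + p ^ j * m, ?_⟩
    rw [pow_add _ k, pow_mul, e1]
    generalize (1 + p ^ s.succ * w : R) ^ k = Y at *
    generalize (1 + p ^ j * p ^ s.succ * (w + p * y) : R) ^ m = Z at *
    simp only [one_pow] at e2
    obtain rfl : β = Y + p ^ (s.succ + j) * c := by linear_combination e
    obtain rfl : Z = 1 + p ^ j * p ^ s.succ * (w + p * y) * m +
      (p ^ j * p ^ s.succ * (w + p * y)) ^ 2 * z := by linear_combination e2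
    obtain rfl : Y = 1 + p ^ s.succ * w * t := by linear_combination e3
    refine ⟨c * b + x * w - y * m - p ^ s * w * t * (w + p * y) * m -
      (1 + p ^ s.succ * w * t) * p ^ (s + j) * (w + p * y) ^ 2 * z, ?_⟩
    simp only [Nat.succ_eq_add_one]
    linear_combination (-(p : R) ^ (s + j + 1) * c) * f + (p : R) ^ (s + j + 1) * w * g

theorem genq {p : ℕ} (hp : p.Prime) (p2 : p ≠ 2) {q r w β : R} (e : r * q = p) (cr : IsCoprime r q)
    (res : ∀ c : R, ∃ m : ℕ, q ∣ c - m) (cw : IsCoprime w q) {s : ℕ} (s0 : s ≠ 0)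
    (h : q ^ s ∣ β - 1) (n : ℕ) : ∃ k : ℕ, q ^ n ∣ β - (1 + q ^ s * w) ^ k := by
  let f := Ideal.Quotient.mk (Ideal.span {q ^ n})
  have z {x} : f x = 0 ↔ q ^ n ∣ x := Ideal.Quotient.eq_zero_iff_mem.trans Ideal.mem_span_singleton
  obtain ⟨a, b, c⟩ := cr.pow_right (n := n)
  have u : f a * f r = 1 := by
    rw [← map_mul, ← map_one f, ← c, map_add, z.2 (dvd_mul_left _ _), add_zero]
  have e' : f r * f q = p := by rw [← map_mul, e, map_natCast]
  have q' : f q = p * f a := by linear_combination f a * e' - f q * u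
  have d : (p : R ⧸ Ideal.span {q ^ n}) ∣ f q := ⟨_, q'⟩
  obtain ⟨k, y, g⟩ := genp hp p2 (w := f a ^ s * f w) (β := f β)
    (fun c => let ⟨c, e⟩ := Ideal.Quotient.mk_surjective c
      let ⟨m, h⟩ := res c
      ⟨m, d.trans (by simpa [← e] using map_dvd f h)⟩)
    (.mul_left (.pow_left ⟨f r, 0, by linear_combination u⟩)
      (e' ▸ IsCoprime.mul_right ⟨0, f a, by linear_combination u⟩ (cw.map f))) s0
    ((pow_dvd_pow_of_dvd d s).trans (by simpa using map_dvd f h)) n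
  refine ⟨k, z.1 ?_⟩
  rw [← mul_assoc, ← mul_pow, ← q', ← e', pow_add, mul_pow _ _ n, ← map_pow f q n, z.2 dvd_rfl] at g
  simpa using g

end

variable [Pp] {A B : ℤ} {D : Cd A B} {N n : ℕ} {χ : D.G →* Qa D.a D.b ℤ_[pp]}
  {P : Ideal (𝓞 Qb)} {m γ : D.O} {g : D.G}

theorem ph_dvd (ps : D.Ps χ) (m0 : m ≠ 0) (a : D.Ac m g γ) : rd D n m ∣ Ph D χ n g - rd D n γ := by
  have := dom D
  have k := mul_ne_zero m0 (pw_ne (D := D) n)
  obtain ⟨β, b⟩ := ac_ex k g.2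
  rw [ph_eq ps (ac_dvd k (dvd_mul_left _ _) b), ← map_sub]
  exact map_dvd _ (ac_uniq m0 (ac_dvd k (dvd_mul_right _ _) b) a)

theorem ac_pow {g : GQ} (a : D.Ac m g γ) (k : ℕ) : D.Ac m (g ^ k) (γ ^ k) := by
  induction k with
  | zero => simpa using ac_one
  | succ k ih => simpa only [pow_succ] using ac_mul ih a

theorem pw_zero : (pp : On D n) ^ n = 0 := by
  simpa using (rd_eq (D := D) (n := n) (x := pp ^ n) (y := 0)).2 (by simp)

/-- the units and the inertia groups at the prime generate -/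
theorem gen (C : D.Cf) (cg : D.Cg N) (ps : D.Ps χ) (K : Subgroup (On D n)ˣ)
    (hu : ∀ (v : (On D n)ˣ) ζ, IsUnit ζ → v = rd D n ζ → v ∈ K)
    (hi : ∀ Q (i : D.G), Ov pp Q → Inert Q i.1 → (Ph D χ n).toHomUnits i ∈ K) (v) : v ∈ K := by
  have h1 (g : D.G) (h : g.1 ∈ D.Hm (pp ^ n : ℕ)) : (Ph D χ n).toHomUnits g ∈ K :=
    let ⟨ζ, u, a⟩ := (hm D _ (pw_ne n) g).1 (Nat.cast_pow (α := D.O) pp n ▸ h)
    hu _ ζ u (ph_eq ps a)
  obtain ⟨m, m0, s, h⟩ := cg.cond (_ ⧸ K) ((QuotientGroup.mk' K).comp (Ph D χ n).toHomUnits) (pp ^ n) ∅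
    (pow_ne_zero n pp_ne) (fun g h => (QuotientGroup.eq_one_iff _).2 (h1 g h))
    fun l Q i o _ t => (QuotientGroup.eq_one_iff _).2 (if e : l = pp then hi Q i (e ▸ o) t else
      h1 i (in_hm' C o t i.2 fun d =>
        e ((Nat.prime_dvd_prime_iff_eq o.1 pp_prime).1 (o.1.dvd_of_dvd_pow d))))
  obtain rfl : m = 1 := (Nat.primeFactors_eq_empty.1 (Finset.subset_empty.1 s)).resolve_left m0
  obtain ⟨β, b⟩ := rd_sur v.1
  obtain ⟨β', b'⟩ := rd_sur v⁻¹.1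
  obtain ⟨x, e⟩ := (rd_eq (x := β * β') (y := 1)).1 (by rw [map_mul, b, b', map_one, v.mul_inv])
  obtain ⟨g, ζ, u, a⟩ := C.onto _ (pw_ne n) β ⟨β', -x, by linear_combination e⟩
  obtain ⟨δ, c⟩ := ac_ex (nat_ne (D := D) m0) a.1
  have k := (QuotientGroup.eq_one_iff _).1 (h ⟨g, a.1⟩ ((hm D _ (nat_ne m0) g).2
    ⟨1, isUnit_one, ac_congr (nat_ne m0) c (by simp)⟩))
  refine (K.mul_mem_cancel_left (hu (u.map (rd D n)).unit ζ u rfl)).1 (Eq.subst (Units.ext ?_) k)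
  exact (ph_eq ps (g := ⟨g, a.1⟩) a).trans (by rw [map_mul, b]; rfl)

theorem gen2 (C : D.Cf) (cg : D.Cg N) (ps : D.Ps χ) (o : Ov pp P) {v : On D n} (u : IsUnit v) :
    ∃ i i' : D.G, Inert P i.1 ∧ Inert P i'.1 ∧ v ^ 12 = Ph D χ n i * star (Ph D χ n i') := by
  let I := (P022.H443.inP P).subgroupOf D.G
  let f := (Ph D χ n).toHomUnits
  let K := I.map f ⊔ I.map (f.comp (.mk' D.cg Pts.cg_mul))
  have hi (Q) (i : D.G) (o' : Ov pp Q) (t : Inert Q i.1) : f i ∈ K := by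
    obtain ⟨s, k, -⟩ := P004S.ex_conj o o'
    have k := k i t
    have e (h : D.G) : f (h⁻¹ * i * h) = f i := by simp
    obtain ⟨h, rfl⟩ | ⟨h, rfl⟩ := Ind.cases C s
    · exact Subgroup.mem_sup_left ⟨h⁻¹ * i * h, k, e h⟩
    · refine Subgroup.mem_sup_right ⟨D.cg (h⁻¹ * i * h), ?_, (congrArg f (Pts.cg_cg _)).trans (e h)⟩
      show Inert P _
      simpa [Pts.cg_val, Ind.c_inv C, mul_assoc] using k
  obtain ⟨_, ⟨i, a, rfl⟩, _, ⟨i', b, rfl⟩, e⟩ := Subgroup.mem_sup.1 (gen C cg ps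
    (K.comap (powMonoidHom 12)) (fun v ζ u e => by
      rw [Subgroup.mem_comap, show powMonoidHom 12 v = 1 from Units.ext (by
        rw [powMonoidHom_apply, Units.val_pow_eq_pow_val, e, ← map_pow, un D ζ u, map_one]; rfl)]
      exact one_mem _) (fun Q i o' t => Subgroup.mem_comap.2 (pow_mem (hi Q i o' t) 12)) u.unit)
  exact ⟨i, i', a, b, ph_cg ps i' ▸ (congrArg Units.val e).symm⟩

theorem un_of {L : ℕ} {u : On D n} (d : (L : On D n) ^ 2 * pp ∣ u - 1) : IsUnit u := by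
  obtain ⟨w, e⟩ := d
  rw [sub_eq_iff_eq_add'.1 e]
  exact IsNilpotent.isUnit_one_add ⟨n, by rw [mul_pow, mul_pow, pw_zero]; simp⟩

/-- the finite levels -/
def Fl (χ : D.G →* Qa D.a D.b ℤ_[pp]) (P : Ideal (𝓞 Qb)) : Prop := ∃ M : ℕ, M ≠ 0 ∧
  ∀ n (u : On D n), (M : On D n) ∣ u - 1 → ∃ g : D.G, g.1 ∈ dec P ∧ Ph D χ n g = u

theorem in_dec {i : GQ} (t : Inert P i) : i ∈ dec P := P022D.W.inP_le_dec t

theorem fl1 (C : D.Cf) (cg : D.Cg N) (ps : D.Ps χ) (o : Ov pp P) {s : GQ} (d : s ∈ dec P)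
    (k : s ∉ D.G) : Fl χ P := ⟨12 ^ 2 * pp, mul_ne_zero (by simp) pp_ne, fun n u h => by
  rw [Nat.cast_mul, Nat.cast_pow] at h
  obtain ⟨r, rfl⟩ := root pw_zero 12 h
  obtain ⟨i, i', a, b, e⟩ := gen2 C cg ps o ((isUnit_pow_iff (by simp)).1 (un_of h))
  obtain ⟨h, rfl⟩ := (Ind.cases C s).resolve_left fun ⟨h, e⟩ => k (e ▸ h.2)
  refine ⟨i * (h * D.cg i' * h⁻¹), mul_mem (in_dec a) ?_, ?_⟩
  · simpa [Pts.cg_val, Ind.c_inv C, mul_assoc] using mul_mem (mul_mem d (in_dec b)) (inv_mem d)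
  · rw [e, map_mul, map_mul, map_mul, mul_right_comm, ← map_mul _ h, mul_inv_cancel, map_one, one_mul,
      ph_cg ps]⟩

theorem in12 (C : D.Cf) (ps : D.Ps χ) (o : Ov pp P) (m0 : m ≠ 0) (nb : D.j m ∉ P)
    (a : Inert P g.1) : rd D n m ∣ Ph D χ n g ^ 12 - 1 := by
  obtain ⟨ζ, u, z⟩ := in_ac C o a g.2
  have := ph_dvd (n := n) (g := g ^ 12) ps m0 (D.G.coe_pow g 12 ▸ ac_pow (z _ m0 nb) 12)
  rwa [un D ζ u, map_one, map_pow] at this

theorem half (C : D.Cf) (cg : D.Cg N) (ps : D.Ps χ) (o : Ov pp P) {π : D.O} (e : π * star π = pp)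
    (cr : IsCoprime π (star π)) (nb : D.j (star π) ∉ P) {v : On D n}
    (d : ((12 * 12 : ℕ) : On D n) ^ 2 * pp ∣ v - 1) (d' : rd D n (star π ^ n) ∣ v - 1) :
    ∃ i : D.G, i.1 ∈ dec P ∧ Ph D χ n i = v := by
  have := dom D
  obtain ⟨r, hr⟩ := root pw_zero _ d
  obtain ⟨i, i', a, b, e2⟩ := gen2 C cg ps o (v := r) ((isUnit_pow_iff (by simp)).1 (hr ▸ un_of d))
  have t {i : D.G} := in12 (g := i) (n := n) C ps o (pow_ne_zero n fun c => nb (by simp [c]))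
    fun c => nb (o.2.1.mem_of_pow_mem n (map_pow D.j _ n ▸ c))
  have t' := map_dvd (starRingEnd _) (t b)
  rw [starRingEnd_apply, starRingEnd_apply, ← rd_star, star_pow, star_star, star_sub, star_one,
    star_pow] at t'
  rw [pow_mul, e2, mul_pow] at hr
  have d4 := ((cr.pow (m := n) (n := n)).map (rd D n)).mul_dvd (z := v - Ph D χ n i ^ 12)
    (by have := t'.mul_left (Ph D χ n i ^ 12); rwa [mul_sub, hr, mul_one] at this)
    (by have := d'.sub (t a); rwa [sub_sub_sub_cancel_right] at this)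
  rw [← map_mul, ← mul_pow, e, map_pow, map_natCast, pw_zero, zero_dvd_iff, sub_eq_zero] at d4
  exact ⟨i ^ 12, D.G.coe_pow i 12 ▸ pow_mem (in_dec a) 12, (map_pow _ _ _).trans d4.symm⟩

theorem res {π : D.O} (e : π * star π = pp) (c : D.O) : ∃ m : ℕ, star π ∣ c - m := by
  have c1 := card_q D (star π)
  have := D.chz
  rw [Nat.cast_injective (R := D.O) ((nm_star D _).trans (by rw [star_star, mul_comm, e]))] at c1
  have := Nat.finite_of_card_ne_zero (c1.trans_ne pp_ne)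
  have := Fintype.ofFinite (D.O ⧸ Ideal.span {star π})
  obtain ⟨x, e⟩ := (ZMod.ringEquivOfPrime _ pp_prime (Nat.card_eq_fintype_card.symm.trans
    c1)).surjective (Ideal.Quotient.mk _ c)
  obtain ⟨m, rfl⟩ := ZMod.natCast_zmod_surjective x
  rw [map_natCast, ← map_natCast (Ideal.Quotient.mk _)] at e
  exact ⟨m, Ideal.mem_span_singleton.1 (Ideal.Quotient.eq.1 e.symm)⟩

theorem fl2 (C : D.Cf) (cg : D.Cg N) (ps : D.Ps χ) (o : Ov pp P) (k : dec P ≤ D.G) : Fl χ P := by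
  have := dom D
  have := D.pid
  obtain ⟨φ, f⟩ := P022D.W.exists_phi o.1 o.2.1 o.2.2
  have fd := P022D.W.phi_mem o.1 o.2.1 f
  obtain ⟨π, e, nb, fr⟩ := (C.spl pp P φ o (not_disc o fun i t => k (in_dec t)) f).2.1 (k fd)
  obtain ⟨ζ, u, z⟩ := C.mt π P 1 φ fr
  have q0 : star π ≠ 0 := star_ne_zero.2 fr.pr.ne_zero
  have qp : Prime (star π) := (MulEquiv.prime_iff (starRingAut : RingAut D.O)).2 fr.pr
  have cr : IsCoprime π (star π) := fr.pr.irreducible.coprime_iff_not_dvd.2 fun ⟨x, e⟩ =>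
    nb (by rw [e, map_mul]; exact P.mul_mem_right _ fr.mem)
  have hf := fun n v => half (n := n) (v := v) C cg ps o e cr nb
  have T0 : 12 * 12 ≠ 0 := by simp
  generalize 12 * 12 = T at hf T0
  have L1 := mul_ne_zero (pow_ne_zero 2 T0) pp_ne
  have L0 := nat_ne (D := D) L1
  have := (D.Hf _).quotient_finite_of_isOpen (oH D _ L0)
  obtain ⟨N, N0, -, hN⟩ := Subgroup.exists_pow_mem_of_index_ne_zero
    (D.Hf (T ^ 2 * pp : ℕ)).index_ne_zero_of_finite φ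
  have y (n : ℕ) := ac_pow (z _ (pow_ne_zero n q0) cr.symm.pow_left) N
  have y1 := ac_uniq (pow_ne_zero 1 q0) (y 1) (ac_dvd L0 (by
    rw [pow_one, Nat.cast_mul, ← e]; exact (dvd_mul_left _ _).mul_left _) ((mem_Hf D).1 hN))
  obtain ⟨w, e1, nw⟩ := (FiniteMultiplicity.of_prime_left qp (b := (ζ * π ^ 1) ^ N - 1) fun c =>
    fr.pr.not_unit (isUnit_of_dvd_one (sub_eq_zero.1 c ▸ dvd_pow (by simp) N0.ne'))
    ).exists_eq_pow_mul_and_not_dvd
  generalize multiplicity (star π) _ = s at e1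
  have s0 : s ≠ 0 := fun c => nw (by rwa [e1, c, pow_zero, one_mul, pow_one] at y1)
  refine ⟨T ^ 2 * pp * pp ^ s, mul_ne_zero L1 (pow_ne_zero _ pp_ne), fun n v ⟨x, h⟩ => ?_⟩
  obtain ⟨x, rfl⟩ := rd_sur x
  obtain ⟨j, d⟩ := genq pp_prime pp_ne_two (β := 1 + (T ^ 2 * pp * pp ^ s : ℕ) * x) e cr (res e)
    (qp.irreducible.coprime_iff_not_dvd.2 nw).symm s0 (by
      rw [add_sub_cancel_left, Nat.cast_mul, Nat.cast_pow pp, ← e, mul_pow]
      exact ((dvd_mul_left _ _).mul_left _).mul_right _) n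
  rw [← sub_eq_iff_eq_add'.1 e1] at d
  obtain ⟨g, hg⟩ : ∃ g : D.G, g.1 = (φ ^ N) ^ j := ⟨⟨_, pow_mem (pow_mem (k fd) N) j⟩, rfl⟩
  have g1 : Ph D χ n g * Ph D χ n g⁻¹ = 1 := by rw [← map_mul, mul_inv_cancel, map_one]
  have d1 := (map_dvd (rd D n) d).sub (ph_dvd (g := g) ps (pow_ne_zero n q0) (hg ▸ ac_pow (y n) j))
  rw [map_sub, map_add, map_one, map_mul, map_natCast, ← sub_eq_iff_eq_add'.1 h,
    sub_sub_sub_cancel_right] at d1
  have d2 := ph_dvd (n := n) (g := g⁻¹) ps L0 ((mem_Hf D).1 (inv_mem (hg ▸ pow_mem hN j)))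
  rw [map_natCast, map_one] at d2
  rw [Nat.cast_mul, mul_assoc] at h
  obtain ⟨i, a, e2⟩ := hf n (v * Ph D χ n g⁻¹)
    (by simpa [sub_mul] using ((Dvd.intro _ h.symm).mul_right (Ph D χ n g⁻¹)).add d2)
    (by have := d1.mul_right (Ph D χ n g⁻¹); rwa [sub_mul, g1] at this)
  refine ⟨i * g, mul_mem a (hg ▸ pow_mem (pow_mem fd N) j), ?_⟩
  rw [map_mul, e2, mul_assoc, mul_comm _ (Ph D χ n g), g1, mul_one]

theorem nat_dvd {a b : ℤ} {R : Type} [CommRing R] {q : ℕ} {x : Qa a b R} :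
    (q : Qa a b R) ∣ x ↔ (q : R) ∣ x.re ∧ (q : R) ∣ x.im :=
  ⟨fun ⟨y, e⟩ => ⟨⟨y.re, by simp [e]⟩, ⟨y.im, by simp [e]⟩⟩, fun ⟨⟨u, e⟩, ⟨v, e'⟩⟩ =>
    ⟨⟨u, v⟩, QuadraticAlgebra.ext (by simp [e]) (by simp [e'])⟩⟩

theorem dvd_T {a b : ℤ} {x : Qa a b ℤ_[pp]} :
    (pp : Qa a b ℤ_[pp]) ^ n ∣ x ↔ qm a b (toZModPow n) x = 0 := by
  have k {y : ℤ_[pp]} : ((pp ^ n : ℕ) : ℤ_[pp]) ∣ y ↔ toZModPow n y = 0 := by
    rw [← RingHom.mem_ker, PadicInt.ker_toZModPow, Ideal.mem_span_singleton, Nat.cast_pow]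
  rw [← Nat.cast_pow, nat_dvd, k, k, QuadraticAlgebra.ext_iff]
  rfl

theorem qm_rd (β : D.O) :
    qm _ _ (toZModPow n) (qm _ _ (Int.castRingHom ℤ_[pp]) β) = rd D n β :=
  QuadraticAlgebra.ext (map_intCast (toZModPow n) _) (map_intCast (toZModPow n) _)

end Opn

open Opn

variable [Pp]

theorem opn : OPN := fun A B D N χ P C cg ps o => by
  obtain ⟨M, M0, h⟩ : Fl χ P := by
    by_cases k : dec P ≤ D.G
    · exact fl2 C cg ps o k
    · obtain ⟨s, d, k⟩ := SetLike.not_le_iff_exists.1 k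
      exact fl1 C cg ps o d k
  have M1 : (M : ℤ_[pp]) ≠ 0 := Nat.cast_ne_zero.2 M0
  refine ⟨(M : ℤ_[pp]).valuation, fun u d => ?_⟩
  have d1 : (M : Qa D.a D.b ℤ_[pp]) ∣ star u - 1 := by
    have := map_dvd (algebraMap ℤ_[pp] (Qa D.a D.b ℤ_[pp])) ((PadicInt.unitCoeff_spec M1).dvd.trans
      (Units.mul_left_dvd.2 dvd_rfl))
    rw [map_natCast, map_pow, map_natCast] at this
    simpa [starRingEnd_apply] using map_dvd (starRingEnd _) (this.trans d)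
  obtain ⟨g, hg⟩ := IsCompact.nonempty_iInter_of_sequence_nonempty_isCompact_isClosed
    (fun n => (dec P : Set GQ) ∩ {g | ∃ β ∈ {β : D.O | (pp : Qa D.a D.b ℤ_[pp]) ^ n ∣
      qm _ _ (Int.castRingHom ℤ_[pp]) β - star u}, D.Ac (pp ^ n) g β})
    (fun n g ⟨k, β, b, a⟩ => ⟨k, β, (pow_dvd_pow _ n.le_succ).trans b,
      ac_dvd (pw_ne _) (pow_dvd_pow _ n.le_succ) a⟩)
    (fun n => by
      obtain ⟨g, k, e⟩ := h n (qm _ _ (toZModPow n) (star u)) (by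
        simpa using map_dvd (qm _ _ (toZModPow n)) d1)
      obtain ⟨β, a⟩ := ac_ex (pw_ne (D := D) n) g.2
      exact ⟨g, k, β, dvd_T.2 (by rw [map_sub, qm_rd, ← ph_eq ps a, e, sub_self]), a⟩)
    ((P022E.GW.Hn.dec_closed P).inter (closed (pw_ne 0) _)).isCompact
    fun n => (P022E.GW.Hn.dec_closed P).inter (closed (pw_ne n) _)
  rw [Set.mem_iInter] at hg
  let g' : D.G := ⟨g, (hg 0).2.choose_spec.2.1⟩
  refine ⟨g'⁻¹, inv_mem (hg 0).1, left_inv_eq_right_inv (a := χ g') (by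
    rw [← map_mul, inv_mul_cancel, map_one]) (qm_ext fun n => ?_)⟩
  obtain ⟨-, β, b, a⟩ := hg n
  have e := dvd_T.1 b
  rw [map_sub, qm_rd, sub_eq_zero, qm_star] at e
  rw [map_mul, map_one, ← ps n g' β a, rd_star, e, star_star]

end Vale.Agent.P014X.Fm
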