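import Vale.Agent.P014X.St2

/-! # P014X: the finite levels of a complete local ring (helper46) -/

set_option autoImplicit false
set_option linter.all false

open Filter IsLocalRing

noncomputable section

namespace Vale.Agent.P014X

open Vale.Agent.P014U
open Vale.Agent.P004F.Pat (U U_ge U_fin)

namespace Rg

variable {R : Type} [CommRing R] (I : Ideal R)

/-- `a` is the limit of `y` -/
def Li (y : ℕ → R) (a : R) : Prop := ∀ k, ∀ᶠ j in U, y j - a ∈ I ^ k

variable {I}

theorem Li.uq [IsAdicComplete I R] {y : ℕ → R} {a b : R} (h : Li I y a) (h' : Li I y b) : a = b :=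
  sub_eq_zero.1 (IsHausdorff.haus (I := I) inferInstance _ fun k => by
    obtain ⟨j, p, q⟩ := ((h k).and (h' k)).exists
    rw [SModEq.zero, smul_eq_mul, Ideal.mul_top]
    simpa using sub_mem q p)

theorem ex [IsAdicComplete I R] (f : ∀ k, Finite (R ⧸ I ^ k)) (y : ℕ → R) : ∃ a, Li I y a := by
  have e : ∀ k, ∃ a, ∀ᶠ j in U, y j - a ∈ I ^ k := fun k => by
    obtain ⟨a, ha⟩ := U_fin fun j => Ideal.Quotient.mk (I ^ k) (y j)
    obtain ⟨a, rfl⟩ := Ideal.Quotient.mk_surjective a
    exact ⟨a, ha.mono fun j => Ideal.Quotient.eq.1⟩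
  choose a ha using e
  obtain ⟨L, hL⟩ := IsPrecomplete.prec (I := I) inferInstance (f := a) fun {m n} le => by
    obtain ⟨j, p, q⟩ := ((ha m).and (ha n)).exists
    rw [SModEq.sub_mem, smul_eq_mul, Ideal.mul_top]
    simpa using sub_mem (Ideal.pow_le_pow_right le q) p
  refine ⟨L, fun k => (ha k).mono fun j p => ?_⟩
  have := hL k
  rw [SModEq.sub_mem, smul_eq_mul, Ideal.mul_top] at this
  simpa using add_mem p this

theorem Li.congr {y y' : ℕ → R} {a : R} (h : Li I y a)
    (e : ∀ᶠ j in U, y' j - y j ∈ I ^ (j + 1)) : Li I y' a := fun k =>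
  ((h k).and (e.and (U_ge k))).mono fun j p => by
    simpa using add_mem (Ideal.pow_le_pow_right (Nat.le_succ_of_le p.2.2) p.2.1) p.1

variable [IsAdicComplete I R] (f : ∀ k, Finite (R ⧸ I ^ k))

/-- the limit -/
def lf (z : ∀ j, R ⧸ I ^ (j + 1)) : R := (ex f fun j => Quotient.out (z j)).choose

theorem li {z : ∀ j, R ⧸ I ^ (j + 1)} {y : ℕ → R}
    (e : ∀ᶠ j in U, Ideal.Quotient.mk _ (y j) = z j) : Li I y (lf f z) :=
  (ex f fun j => Quotient.out (z j)).choose_spec.congr (e.mono fun j p =>
    Ideal.Quotient.eq.1 (p.trans (Ideal.Quotient.mk_out _).symm))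

theorem lo (z : ∀ j, R ⧸ I ^ (j + 1)) : Li I (fun j => Quotient.out (z j)) (lf f z) :=
  li f (.of_forall fun _ => Ideal.Quotient.mk_out _)

theorem lc (y : R) : lf f (fun j => Ideal.Quotient.mk (I ^ (j + 1)) y) = y :=
  (li f (y := fun _ => y) (.of_forall fun _ => rfl)).uq fun k => .of_forall fun _ => by simp

/-- the limit as a homomorphism -/
def lh : (∀ j, R ⧸ I ^ (j + 1)) →+* R where
  toFun := lf f
  map_one' := lc f 1
  map_zero' := lc f 0
  map_add' z w := (li f (y := fun j => (z j).out + (w j).out) (.of_forall fun j => by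
      rw [map_add, Ideal.Quotient.mk_out, Ideal.Quotient.mk_out]; rfl)).uq fun k =>
    ((lo f z k).and (lo f w k)).mono fun j p => by
      rw [add_sub_add_comm]; exact add_mem p.1 p.2
  map_mul' z w := (li f (y := fun j => (z j).out * (w j).out) (.of_forall fun j => by
      rw [map_mul, Ideal.Quotient.mk_out, Ideal.Quotient.mk_out]; rfl)).uq fun k =>
    ((lo f z k).and (lo f w k)).mono fun j p => by
      have := add_mem (Ideal.mul_mem_right (w j).out _ p.1) (Ideal.mul_mem_left _ (lf f z) p.2)
      convert this using 1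
      ring

end Rg

variable [Pp]

/-- **the levels exist** -/
theorem rng : RNG := by
  intro R _ _ _ _ π
  have sur : Function.Surjective π := ZMod.ringHom_surjective π
  have km : RingHom.ker π = maximalIdeal R :=
    eq_maximalIdeal (RingHom.ker_isMaximal_of_surjective π sur)
  have : Finite (R ⧸ maximalIdeal R) := by
    rw [← km]
    exact Finite.of_equiv _ (RingHom.quotientKerEquivOfSurjective sur).symm.toEquiv
  have f : ∀ k, Finite (R ⧸ maximalIdeal R ^ k) := fun k =>
    Ideal.finite_quotient_pow (IsNoetherian.noetherian _) k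
  have le : ∀ j, maximalIdeal R ^ (j + 1) ≤ maximalIdeal R := fun j =>
    Ideal.pow_le_self j.succ_ne_zero
  have nt : ∀ j, Nontrivial (R ⧸ maximalIdeal R ^ (j + 1)) := fun j =>
    Ideal.Quotient.nontrivial_iff.2 fun e =>
      (maximalIdeal.isMaximal R).ne_top (top_le_iff.1 (e ▸ le j))
  have pm : (pp : R) ∈ maximalIdeal R := by
    rw [← km, RingHom.mem_ker, map_natCast, ZMod.natCast_self]
  refine ⟨{ L := fun j => R ⧸ maximalIdeal R ^ (j + 1)
            lL := fun j => .of_surjective' _ Ideal.Quotient.mk_surjective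
            fL := fun j => f _
            i := fun j => Ideal.Quotient.mk _
            lim := Rg.lh f
            π := fun j => Ideal.Quotient.lift _ π fun a m => by
              rw [← RingHom.mem_ker, km]; exact le j m
            N := fun j => j + 1
            f := fun j => ZMod.castHom (ringChar.dvd (R := R ⧸ maximalIdeal R ^ (j + 1)) (by
              rw [Nat.cast_pow, ← map_natCast (Ideal.Quotient.mk _), ← map_pow]
              exact Ideal.Quotient.eq_zero_iff_mem.2 (Ideal.pow_mem_pow pm _))) _
            ae := fun x y e => (Rg.lo f x).uq (Rg.li f (e.mono fun j p =>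
              (Ideal.Quotient.mk_out _).trans p))
            sur := fun j => Ideal.Quotient.mk_surjective
            ker := fun j y => Ideal.Quotient.eq_zero_iff_mem
            id := Rg.lc f
            apx := fun y k => (Rg.li f (y := y) (.of_forall fun _ => rfl) (k + 1)).mono fun j =>
              Ideal.Quotient.eq.2 }⟩

end Vale.Agent.P014X
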