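import Vale.Agent.P014X.Fm.St

/-! # P014X, block FAM: the reduction has no nilpotent elements (row `SML`, helper16) -/

set_option autoImplicit false
set_option linter.all false

open QuadraticAlgebra
open scoped Classical

noncomputable section

namespace Vale.Agent.P014X.Fm

open Vale.Agent.P014U

namespace Sml

variable {a b : ℤ}

theorem red {F : Type} [CommRing F] [IsDomain F] (h : (b ^ 2 + 4 * a : F) ≠ 0) {x : Qa a b F}
    (n : IsNilpotent x) : x = 0 := by
  have k {r : F} (e : IsNilpotent (algebraMap F (Qa a b F) r)) : r = 0 :=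
    ((IsNilpotent.map_iff algebraMap_injective).1 e).eq_zero
  have s : IsNilpotent ((x - star x) * (x - star x)) :=
    (Commute.all _ _).isNilpotent_mul_left
      ((Commute.all _ _).isNilpotent_sub n (n.map (starRingEnd (Qa a b F))))
  have e : (x - star x) * (x - star x) = algebraMap F _ (x.im * x.im * (b ^ 2 + 4 * a)) := by
    ext <;> simp [pow_two] <;> ring
  have i : x.im = 0 := mul_self_eq_zero.1 ((mul_eq_zero.1 (k (e ▸ s))).resolve_right h)
  have r : x = algebraMap F _ x.re := QuadraticAlgebra.ext rfl i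
  have q := k (r := x.re) (r ▸ n)
  exact QuadraticAlgebra.ext q i

theorem one {O : Type} [CommRing O] {w : O} (p : Prime w) (h : IsUnit (b ^ 2 + 4 * a : O))
    {u v : Qa a b O} {n : ℕ} (e : u ^ n = w • v) : ∃ z, u = w • z := by
  have := (Ideal.span_singleton_prime p.ne_zero).2 p
  let f := Ideal.Quotient.mk (Ideal.span {w})
  have z : f w = 0 := Ideal.Quotient.eq_zero_iff_mem.2 (Ideal.mem_span_singleton_self w)
  have k := red (x := qm a b f u) (by simpa [map_ofNat] using (h.map f).ne_zero) ⟨n, by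
    rw [← map_pow, e]
    exact QuadraticAlgebra.ext (by simp [qm, z]) (by simp [qm, z])⟩
  obtain ⟨s, hs⟩ := Ideal.mem_span_singleton.1 (Ideal.Quotient.eq_zero_iff_mem.1 (congrArg re k))
  obtain ⟨t, ht⟩ := Ideal.mem_span_singleton.1 (Ideal.Quotient.eq_zero_iff_mem.1 (congrArg im k))
  exact ⟨⟨s, t⟩, QuadraticAlgebra.ext hs ht⟩

end Sml

theorem sml [Pp] : SML := by
  intro k C a b u m n h n0
  have p := C.irr.prime
  induction m generalizing u with
  | zero => exact fun _ => ⟨u, by simp⟩
  | succ m ih =>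
    rintro ⟨v, e⟩
    obtain ⟨n, rfl⟩ := Nat.exists_eq_succ_of_ne_zero n0
    obtain ⟨y, rfl⟩ := Sml.one p h (v := (C.pb.gen - 1) ^ ((m + 1) * n + m) • v) (by
      rw [e, smul_smul, ← pow_succ', Nat.mul_succ, add_assoc])
    rw [smul_pow, add_one_mul, add_comm (m * _), pow_add, mul_smul] at e
    have e' : y ^ n.succ = (C.pb.gen - 1) ^ (m * n.succ) • v := QuadraticAlgebra.ext
      (mul_left_cancel₀ (pow_ne_zero _ p.ne_zero) (congrArg re e))
      (mul_left_cancel₀ (pow_ne_zero _ p.ne_zero) (congrArg im e))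
    obtain ⟨z, rfl⟩ := ih y ⟨v, e'⟩
    exact ⟨z, by rw [smul_smul, pow_succ']⟩

end Vale.Agent.P014X.Fm
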