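import Vale.Agent.P014X.Fm.Fam
import Vale.Agent.P014X.Fm.Anx
import Vale.Agent.P014X.Fm.Axp
import Vale.Agent.P014X.Fm.Bdx
import Vale.Agent.P014X.Fm.Cor
import Vale.Agent.P014X.Fm.Cpl
import Vale.Agent.P014X.Fm.Dec
import Vale.Agent.P014X.Fm.Dsc
import Vale.Agent.P014X.Fm.Emb
import Vale.Agent.P014X.Fm.Gfa
import Vale.Agent.P014X.Fm.Grp
import Vale.Agent.P014X.Fm.Gxx
import Vale.Agent.P014X.Fm.Loc
import Vale.Agent.P014X.Fm.Mub
import Vale.Agent.P014X.Fm.Opn
import Vale.Agent.P014X.Fm.Psf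
import Vale.Agent.P014X.Fm.Rng
import Vale.Agent.P014X.Fm.Sml

/-! # P014X, block FAM: the families exist -/

set_option autoImplicit false
set_option linter.all false

namespace Vale.Agent.P014X.Fm

open Vale.Agent.P014U

theorem fam0 [Pp] : FAM :=
  fam cor0 rng cpl dsc dec0 aux (gxx dsc psf opn) (emb dsc) (bdx sml cpl) un1'
    (gfa un1' umu ubd cpl) loc (anx grp cpl)

end Vale.Agent.P014X.Fm
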