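import Vale.Agent.P014X.Fm.Pz0
import Vale.Agent.P014X.Fm.Crk
import Vale.Agent.P014U.Pq.All

/-! # P014X, row FMO: the quotient in the main conjecture and its values (helper37) -/

set_option autoImplicit false
set_option linter.all false

open NumberField Matrix Filter Submodule IsLocalRing
open scoped Classical

noncomputable section

namespace Vale.Agent.P014X

open Vale.Agent.P022 (GQ)
open Vale.Agent.P014U
open Vale.Agent.P014U.Kq (M2)
open Vale.Agent.P014U.Pq (Zq)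
open Vale.Agent.P004F.Pat (U U_ge lm)
open Vale.Agent.P014T.Pp.Lv (lv lv_mv lv_ae lv_zero)
open Vale.Agent.P014T.Ct (Pr Cl db)
open Vale.Agent.P014T.Ba (st cl Kr plk mul_cl st_map)
open Pz0

namespace Fmo

theorem ex_al {R : Type} [CommRing R] [IsDomain R] {r : ℕ} {Q : Matrix (Fin r) (Fin (r + 2)) R}
    {v w : Fin (r + 2) → R} (hv : Q *ᵥ v = 0) (hw : Q *ᵥ w = 0) {σ : R}
    (h : ∀ E, σ * (st finSumFinEquiv.symm Q E).det ∣ (E * cl v w).det) :
    ∃ α, ∀ E, (E * cl v w).det = σ * α * (st finSumFinEquiv.symm Q E).det := by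
  by_cases z : ∀ E, (st finSumFinEquiv.symm Q E).det = 0
  · exact ⟨0, fun E => by simpa [z] using h E⟩
  obtain ⟨E₀, z⟩ := not_forall.1 z
  obtain ⟨α, e⟩ := h E₀
  exact ⟨α, fun E => mul_left_cancel₀ z (by rw [plk _ _ _ (mul_cl hv hw), e]; ring)⟩

theorem al_map {R O : Type} [CommRing R] [CommRing O] {r : ℕ} {Q : Matrix (Fin r) (Fin (r + 2)) R}
    {v w : Fin (r + 2) → R} {β : R} {e : R →+* O} (sur : Function.Surjective e)
    (h : ∀ E, (E * cl v w).det = β * (st finSumFinEquiv.symm Q E).det) (E : Matrix _ _ O) :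
    1 * (E * cl (e ∘ v) (e ∘ w)).det = e β * (st finSumFinEquiv.symm (Q.map e) E).det := by
  choose s hs using sur
  obtain ⟨E, rfl⟩ : ∃ E' : Matrix _ _ R, E'.map e = E := ⟨E.map s, Matrix.ext fun _ _ => hs _⟩
  have := congrArg e (h E)
  rw [map_mul, RingHom.map_det, RingHom.map_det, RingHom.mapMatrix_apply, RingHom.mapMatrix_apply,
    Matrix.map_mul, st_map] at this
  rw [one_mul, ← this]
  congr 2
  ext i j
  fin_cases j <;> rfl

variable [Pp]

theorem ker_pi {R : Type} [CommRing R] [IsLocalRing R] (π : R →+* ZMod pp) :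
    RingHom.ker π = maximalIdeal R :=
  eq_maximalIdeal (RingHom.ker_isMaximal_of_surjective π (ZMod.ringHom_surjective π))

theorem sf_map {a b : ℤ} {R L G : Type} [CommRing R] [CommRing L] [Group G] (f : R →+* L) (s : ℕ)
    (χ : G →* Qa a b R) (g : G) : sf s (qc f χ) g = f (sf s χ g) := by
  change _ = (qm a b f _).re
  rw [map_sub, map_pow, map_natCast]
  rfl

theorem ev_lim {R L : Type} [CommRing R] [IsLocalRing R] [CommRing L] (t : Tl R) {f : R →+* L}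
    {k : ℕ} (hk : ∀ y ∈ maximalIdeal R ^ (k + 1), f y = 0) {I : Type} [Finite I]
    (x : ∀ j, I → t.L j) :
    ∀ᶠ j in U, ∀ F : t.L j →+* L, F.comp (t.i j) = f → F ∘ x j = f ∘ lv t.lim x := by
  choose y hy using fun j i => t.sur j (x j i)
  refine (eventually_all.2 fun i => t.apx (y · i) k).mono fun j e F h => funext fun i => ?_
  have := hk _ ((t.ker k _).1 ((map_sub _ _ _).trans (sub_eq_zero.2 (e i))))
  simp only [hy, map_sub, sub_eq_zero] at this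
  exact (congrArg F (hy j i).symm).trans ((DFunLike.congr_fun h _).trans this)

variable {A B : ℤ} {D : Cd A B} {N M k s : ℕ} {C : Cr k} {a b : ℤ} {t : Tl C.R}
  {χ : D.G →* Qa a b C.R} {g : D.G} {ρ : GQ →* M2 C.R}

theorem ev_ker {e : C.R →+* C.O} (h : C.Ev e) (n : ℕ) :
    ∃ k, ∀ y ∈ maximalIdeal C.R ^ (k + 1), (C.rd n).comp e y = 0 := ⟨C.pb.dim * n, fun y m => by
  have := Ideal.mem_map_of_mem e m
  rw [Ideal.map_pow] at this
  have := Ideal.pow_right_mono (J := maximalIdeal C.O)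
    (Ideal.map_le_iff_le_comap.2 fun x m => mt (h.unit x).1 m) _ this
  rw [C.mi, Ideal.span_singleton_pow, Ideal.mem_span_singleton] at this
  exact C.rd_zero.2 (((pow_dvd_pow_of_dvd C.ass.symm.dvd n).trans (by
    rw [← pow_mul]; exact pow_dvd_pow _ (Nat.le_succ _))).trans this)⟩

theorem res (h : D.Id (Ph χ) ρ) (π : C.R →+* ZMod pp) (r : D.Rs χ g) : (ρ g).map π = 1 := by
  have z {x : C.R} (m : ¬ IsUnit x) : π x = 0 := RingHom.mem_ker.1 (ker_pi π ▸ m)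
  have : qm a b π (χ g - 1) = 0 :=
    QuadraticAlgebra.ext (z r.1) (z (by simpa [QuadraticAlgebra.im_one] using r.2.1))
  rw [map_sub, map_one, sub_eq_zero] at this
  rw [h.G, mm_map, ← mm_one (a := a) (b := b)]
  refine congrArg mm ((map_mul _ _ _).trans ?_)
  rw [this, mul_one]
  exact (qm_alg π _).trans ((congrArg _ ((zp_ext (n := 1) (by simp) (π.comp (algebraMap _ _))
    PadicInt.toZMod _).trans r.2.2)).trans (map_one _))

/-- presentations of constant size -/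
theorem prs (ind : IND) (cf : D.Cf) (W : D.Rw) (fm : D.Fm N M) (gf : D.Gf t M χ) (ga : D.Ga M s g)
    (h : D.Id (Ph χ) ρ) : ∃ (r : ℕ) (Q : ∀ j, Matrix _ _ (t.L j)) (v w : ∀ j, _ → t.L j), ∀ j, ∃ n u, 2 ≤ n ∧ D.Tr (D.mp M n) (qc (t.i j) χ) ∧
      Pr (r := r) (fun g => (ρ g).map (t.i j)) (Sb M) D.c (Q j) u ∧
      Cl (Q j) u (v j) (db (fun g => (ρ g).map (t.i j)) ![1, 0]) ∧
      Cl (Q j) u (w j) (D.xz s (D.mp M n) (t.f j) (qc (t.i j) χ)) := by
  have H j : ∃ r, (∃ Q v w n u, 2 ≤ n ∧ D.Tr (D.mp M n) (qc (t.i j) χ) ∧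
      Pr (r := r) (fun g => (ρ g).map (t.i j)) (Sb M) D.c Q u ∧
      Cl Q u v (db (fun g => (ρ g).map (t.i j)) ![1, 0]) ∧
      Cl Q u w (D.xz s (D.mp M n) (t.f j) (qc (t.i j) χ))) ∧ Nat.card (Zq (ZMod pp) (Sb M)
        (fun g => (ρ g).map ((t.π 0).comp (t.i 0))) D.c) = pp ^ (r + 2) := by
    obtain ⟨n, tr⟩ := gf.tr j
    have tr := tr_le cf fm.ne tr (le_max_right 2 n)
    have i := id_map h (t.i j)
    rw [← aq_eq _ (t.f j)] at i
    have G := gd cf W fm ga (le_max_left 2 n) tr i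
    obtain ⟨l, l1, P, o, m⟩ := gf.aux
    obtain ⟨r, Q, u, -, p, c⟩ := Pq.presq (π := t.π j) (by simp) G (Finset.mem_insert_self ..)
      ⟨_, D.cc⟩ (.inr ⟨l, Finset.mem_insert_of_mem l1,
        fun q => fm.cop (q ▸ Nat.dvd_of_mem_primeFactors l1), P, o, fun g x =>
          res h ((t.π j).comp (t.i j)) (m g x).2⟩)
    obtain ⟨v, hv⟩ := pr_col p (db_mem G (id_c i))
    obtain ⟨w, hw⟩ := pr_col p (xz_mem cf W fm ga (le_max_left 2 n) tr ind (cj_map gf.cj _) i)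
    refine ⟨r, ⟨Q, v, w, _, u, le_max_left 2 n, tr, p, hv, hw⟩, ?_⟩
    rw [ZMod.ringHom_eq_of_ker_eq ((t.π 0).comp _) ((t.π j).comp (t.i j))
      ((ker_pi _).trans (ker_pi _).symm)]
    exact c
  obtain ⟨r, -, c⟩ := H 0
  have K j := (H j).elim fun r' x => (by
    simpa using Nat.pow_right_injective pp_prime.two_le (x.2.symm.trans c) : r' = r) ▸ x.1
  choose Q v w K using K
  exact ⟨r, Q, v, w, K⟩

theorem nums (cf : D.Cf) (W : D.Rw) (fm : D.Fm N M) (cj : D.Cj χ) (ga : D.Ga M s g)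
    (h : D.Id (Ph χ) ρ) {r : ℕ} {Q : ∀ j, Matrix _ _ (t.L j)} {v w : ∀ j, _ → t.L j}
    (H : ∀ j, ∃ n u, 2 ≤ n ∧ D.Tr (D.mp M n) (qc (t.i j) χ) ∧
      Pr (r := r) (fun g => (ρ g).map (t.i j)) (Sb M) D.c (Q j) u ∧
      Cl (Q j) u (v j) (db (fun g => (ρ g).map (t.i j)) ![1, 0]) ∧
      Cl (Q j) u (w j) (D.xz s (D.mp M n) (t.f j) (qc (t.i j) χ)))
    {L : Type} [CommRing L] {f : C.R →+* L} {m : ℕ} (hm : ∀ y ∈ maximalIdeal C.R ^ (m + 1), f y = 0)
    {n n' : ℕ} {ι : Dr.Zn n →+* L} {ρ' : GQ →* M2 L} (h2 : 2 ≤ n') (tr : D.Tr (D.mp M n') (qc f χ))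
    (i : D.Id (D.aq ι (qc f χ)) ρ') :
    Nat.card (Kr ((lm t.lim Q).map f)) = Nat.card (Zq L (Sb M) ρ' D.c) ∧
      Nat.card (span L {f ∘ lv t.lim v, f ∘ lv t.lim w}) = sz ρ' (D.xz s (D.mp M n') ι (qc f χ)) := by
  obtain ⟨j, jm, q, e2, e3⟩ := ((U_ge m).and ((ev_lim t hm fun j (x : Fin r × Fin (r + 2)) =>
    Q j x.1 x.2).and ((ev_lim t hm v).and (ev_lim t hm w)))).exists
  obtain ⟨F, rfl⟩ : ∃ F : t.L j →+* L, F.comp (t.i j) = f :=
    ⟨_, RingHom.liftOfRightInverse_comp _ _ (Function.rightInverse_surjInv (t.sur j))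
      ⟨f, fun y x => hm y (Ideal.pow_le_pow_right (by omega) ((t.ker j y).1 x))⟩⟩
  obtain ⟨n₀, u₀, h0, t0, p, cv, cw⟩ := H j
  have i' := id_map h (F.comp (t.i j))
  rw [← aq_eq _ ι] at i'
  obtain rfl := id_uniq cf i' i
  obtain ⟨τ, e4⟩ := xz_ch cf W fm ga h2 tr (cj_map cj _) i h0
    (fun g x => (congrArg (qm a b F) (t0 g x)).trans (map_one _)) (F.comp (t.f j))
  have k1 := pr_card p F
  have k2 := pr_span p F cv cw
  rw [db_map, xz_map W F (mp_ne fm.ne), e2 F rfl, e3 F rfl] at k2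
  rw [show (Q j).map F = (lm t.lim Q).map (F.comp (t.i j)) from
    Matrix.ext fun x y => congrFun (q F rfl) (x, y)] at k1
  exact ⟨k1, k2.trans ((congrArg (sz _) e4).trans (sz_add _ _ _))⟩

end Fmo

variable [Pp]

open Fmo in
/-- **the quotient in the main conjecture and its values** -/
theorem fmo (ind : IND) (dvo : DVO) (glu : GLU) (lao : LAO) : FMO := by
  intro A B D N M cf cg W fm k C a b t χ s g u gf ga
  obtain ⟨ρ, h⟩ := (ind A B D cf a b _ _ (cj_Ph cf gf.cj)).1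
  obtain ⟨r, Q, v, w, H⟩ := prs ind cf W fm gf ga h
  have z {v : ∀ j, Fin (r + 2) → t.L j} (k : ∀ j, Q j *ᵥ v j = 0) : lm t.lim Q *ᵥ lv t.lim v = 0 := by
    rw [← lv_mv, funext k, lv_zero]
  have hv := z fun j => let ⟨_, _, x⟩ := H j; x.2.2.2.1.1
  have hw := z fun j => let ⟨_, _, x⟩ := H j; x.2.2.2.2.1
  have pz : D.Pz t M s χ Q v w := .of_forall fun j => by
    obtain ⟨n, u, x⟩ := H j
    have i := id_map h (t.i j)
    rw [← aq_eq _ (t.f j)] at i
    exact ⟨n, _, u, x.1, x.2.1, i, x.2.2⟩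
  obtain ⟨α, e1⟩ := ex_al hv hw fun E => glu k C a b _ _ u fun O _ _ _ φ ω₀ x y z =>
    dvo A B D N M cf cg W fm k C a b t χ s g r Q v w u gf ga pz O φ ω₀ x y z E
  refine ⟨α, fun e ev n n' ρ' c h2 tr i lt le => ?_⟩
  obtain ⟨m, hm⟩ := ev_ker ev n
  obtain ⟨k1, k2⟩ := nums cf W fm gf.cj ga h H hm h2 tr i
  have o : Nat.card (C.O ⧸ Ideal.span {(1 : C.O)}) = 1 := C.cq_one.2 isUnit_one
  have mz {v : Fin (r + 2) → C.R} (k : lm t.lim Q *ᵥ v = 0) : (lm t.lim Q).map e *ᵥ (e ∘ v) = 0 :=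
    (mv_map e _ _).trans (by rw [k]; exact funext fun _ => e.map_zero)
  have := lao C.O r _ _ _ 1 _ (C.L n) (C.rd n) c Ideal.Quotient.mk_surjective one_ne_zero (mz hv)
    (mz hw) (al_map ev.sur e1) (by rwa [o, mul_one]) (le.trans_eq (congrArg (c * ·) k2.symm))
  rw [map_mul, ← sf_map, o, mul_one] at this
  exact ⟨this.1, (congrArg (· * _) (congrArg₂ (· * ·) k2 k1).symm).trans this.2.1⟩

end Vale.Agent.P014X
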