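import Vale.Agent.P014X.St2

/-! # P014X: divisibility in the power series ring from the divisibility at the points -/

set_option autoImplicit false
set_option linter.all false

open IsLocalRing Polynomial
open scoped Classical

noncomputable section

namespace Vale.Agent.P014X

namespace Gl

/-- a discrete valuation ring above a prime of a Dedekind domain which contains a root -/
theorem ext (A : Type) [CommRing A] [IsDomain A] [IsDedekindDomain A] [CharZero A] (Q : Ideal A)
    [hQ : Q.IsMaximal] (h0 : Q ≠ ⊥) (f : A[X]) (hf : f.Monic) (hd : f.degree ≠ 0) :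
    ∃ (O : Type) (_ : CommRing O) (_ : IsDomain O) (_ : IsDiscreteValuationRing O) (φ : A →+* O)
      (w : O), f.eval₂ φ w = 0 ∧ Function.Injective φ ∧ ∀ x ∈ Q, ¬ IsUnit (φ x) := by
  let K := FractionRing A
  let g : K[X] := f.map (algebraMap A K)
  let L := g.SplittingField
  have hg : (g.map (algebraMap K L)).degree ≠ 0 := by
    rwa [degree_map, hf.degree_map]
  obtain ⟨r, hr⟩ := (SplittingField.splits g).exists_eval_eq_zero hg
  have hr' : f.eval₂ (algebraMap A L) r = 0 := by
    rwa [Polynomial.map_map, eval_map, ← IsScalarTower.algebraMap_eq] at hr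
  let B := integralClosure A L
  haveI : IsDedekindDomain B := integralClosure.isDedekindDomain A K L
  have iL : Function.Injective (algebraMap A L) := by
    rw [IsScalarTower.algebraMap_eq A K L]
    exact (algebraMap K L).injective.comp (IsFractionRing.injective A K)
  have iB : Function.Injective (algebraMap A B) := fun x y e => iL (congrArg Subtype.val e)
  obtain ⟨P, hP, e⟩ := Ideal.exists_ideal_over_maximal_of_isIntegral (S := B) Q
    (by rw [(RingHom.injective_iff_ker_eq_bot _).1 iB]; exact bot_le)
  have hP0 : P ≠ ⊥ := by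
    rintro rfl
    exact h0 (e.symm.trans (Ideal.comap_bot_of_injective _ iB))
  let O := Localization.AtPrime P
  refine ⟨O, inferInstance, inferInstance,
    IsLocalization.AtPrime.isDiscreteValuationRing_of_dedekind_domain B hP0 O,
    (algebraMap B O).comp (algebraMap A B), algebraMap B O ⟨r, f, hf, hr'⟩, ?_,
    (IsLocalization.injective O P.primeCompl_le_nonZeroDivisors).comp iB, fun x hx u => ?_⟩
  · rw [← hom_eval₂]
    have : f.eval₂ (algebraMap A B) ⟨r, f, hf, hr'⟩ = 0 := by
      apply Subtype.ext
      exact (hom_eval₂ f (algebraMap A B) (algebraMap B L) _).trans hr'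
    rw [this, map_zero]
  · rw [← e] at hx
    exact (IsLocalization.AtPrime.isUnit_to_map_iff O P _).1 u hx

/-- a discrete valuation ring above a prime element -/
theorem pt (R : Type) [CommRing R] [IsDomain R] [IsNoetherianRing R] [CharZero R] {q : R}
    (hq : Prime q) (a b : ℤ) :
    ∃ (O : Type) (_ : CommRing O) (_ : IsDomain O) (_ : IsDiscreteValuationRing O) (φ : R →+* O)
      (w : O), w * w = a + b * w ∧ Function.Injective φ ∧ ¬ IsUnit (φ q) ∧
      ∀ x, ¬ q ∣ x → IsUnit (φ x) := by
  let I : Ideal R := Ideal.span {q}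
  haveI hI : I.IsPrime := (Ideal.span_singleton_prime hq.ne_zero).2 hq
  let A := Localization.AtPrime I
  have iA : Function.Injective (algebraMap R A) :=
    IsLocalization.injective A I.primeCompl_le_nonZeroDivisors
  haveI : IsNoetherianRing A := IsLocalization.isNoetherianRing I.primeCompl A inferInstance
  haveI : CharZero A := charZero_of_injective_ringHom iA
  have em : maximalIdeal A = Ideal.span {algebraMap R A q} := by
    rw [← Localization.AtPrime.map_eq_maximalIdeal, Ideal.map_span, Set.image_singleton]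
  have pr : (maximalIdeal A).IsPrincipal := ⟨⟨_, em⟩⟩
  haveI : IsDedekindDomain A :=
    ((tfae_of_isNoetherianRing_of_isLocalRing_of_isDomain A).out 4 2).1 pr
  have h0 : maximalIdeal A ≠ ⊥ := by
    rw [em, Ne, Ideal.span_singleton_eq_bot, map_eq_zero_iff _ iA]
    exact hq.ne_zero
  obtain ⟨O, _, _, _, φ, w, hw, hi, hu⟩ := ext A (maximalIdeal A) h0
    (X ^ 2 - (C (b : A) * X + C (a : A))) (by monicity!) (by
      have : (X ^ 2 - (C (b : A) * X + C (a : A)) : A[X]).degree = 2 := by compute_degree!
      rw [this]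
      decide)
  refine ⟨O, inferInstance, inferInstance, inferInstance, φ.comp (algebraMap R A), w, ?_,
    hi.comp iA, hu _ (em ▸ Ideal.mem_span_singleton_self _), fun x hx => ?_⟩
  · simp only [eval₂_sub, eval₂_add, eval₂_mul, eval₂_pow, eval₂_X, eval₂_C] at hw
    rw [map_intCast φ, map_intCast φ] at hw
    linear_combination hw
  · exact ((IsLocalization.AtPrime.isUnit_to_map_iff A I x).2
      fun h => hx (Ideal.mem_span_singleton.1 h)).map φ

/-- divisibility in a factorial ring -/
theorem dvd (R : Type) [CommRing R] [IsDomain R] [IsNoetherianRing R] [CharZero R]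
    [UniqueFactorizationMonoid R] (a b : ℤ) (x y : R) (q₀ : R) (hq₀ : Prime q₀)
    (hn : ∀ q : R, Prime q → ∃ z, ¬ IsUnit z ∧ ¬ q ∣ z)
    (h : ∀ (O : Type) [CommRing O] [IsDomain O] [IsDiscreteValuationRing O] (φ : R →+* O) (w : O),
      w * w = a + b * w → Function.Injective φ → (∃ x, ¬ IsUnit x ∧ IsUnit (φ x)) → φ x ∣ φ y) :
    x ∣ y := by
  have key : ∀ q : R, Prime q → ∃ (O : Type) (_ : CommRing O) (_ : IsDomain O) (φ : R →+* O),
      Function.Injective φ ∧ ¬ IsUnit (φ q) ∧ (∀ x, ¬ q ∣ x → IsUnit (φ x)) ∧ φ x ∣ φ y := by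
    intro q hq
    obtain ⟨O, _, _, _, φ, w, hw, hi, hu, hv⟩ := pt R hq a b
    obtain ⟨z, hz, hz'⟩ := hn q hq
    exact ⟨O, inferInstance, inferInstance, φ, hi, hu, hv, h O φ w hw hi ⟨z, hz, hv z hz'⟩⟩
  by_cases hx : x = 0
  · obtain ⟨O, _, _, φ, hi, -, -, d⟩ := key q₀ hq₀
    rw [hx, map_zero, zero_dvd_iff, map_eq_zero_iff _ hi] at d
    rw [hx, d]
  obtain ⟨x', y', c, hr, rfl, rfl⟩ := UniqueFactorizationMonoid.exists_reduced_factors x hx y
  refine mul_dvd_mul_left c (IsUnit.dvd ?_)
  by_contra hu
  obtain ⟨q, hq, dq⟩ := WfDvdMonoid.exists_irreducible_factor hu (right_ne_zero_of_mul hx)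
  obtain ⟨O, _, _, φ, hi, hu, hv, d⟩ := key q hq.prime
  rw [map_mul, map_mul, mul_dvd_mul_iff_left
    ((map_ne_zero_iff _ hi).2 (left_ne_zero_of_mul hx))] at d
  exact hu (isUnit_of_dvd_unit ((map_dvd φ dq).trans d)
    (hv y' fun dy => hq.not_isUnit (hr dq dy)))

/-- the maximal ideal of the power series ring is not principal -/
theorem two (O : Type) [CommRing O] [IsDomain O] {u : O} (hu : Irreducible u) (q : PowerSeries O)
    (hq : Prime q) : ∃ z, ¬ IsUnit z ∧ ¬ q ∣ z := by
  by_contra! h
  have hX := h _ PowerSeries.X_prime.not_unit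
  have hC := h (PowerSeries.C u) fun e => hu.not_isUnit (by
    simpa using e.map PowerSeries.constantCoeff)
  have := ((hq.associated_of_dvd PowerSeries.X_prime hX).symm.dvd).trans hC
  rw [PowerSeries.X_dvd_iff, PowerSeries.constantCoeff_C] at this
  exact hu.ne_zero this

end Gl

open Vale.Agent.P014U (Pp pp)

variable [Pp]

theorem Gl.char0 {k : ℕ} (C : Cr k) : CharZero C.O := by
  haveI := Module.Free.of_basis C.pb.basis
  exact charZero_of_injective_ringHom (FaithfulSMul.algebraMap_injective ℤ_[pp] C.O)

/-- **from the points to the ring** -/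
theorem glu : GLU := by
  intro k C a b x y _ h
  haveI := Gl.char0 C
  haveI : CharZero C.R := charZero_of_injective_ringHom (PowerSeries.C_injective (R := C.O))
  exact Gl.dvd C.R a b x y _ PowerSeries.X_prime (Gl.two C.O C.irr) h

end Vale.Agent.P014X
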