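import Vale.Agent.P014X.Fm.Kt0
import Vale.Agent.P014X.Fm.Crk
import Vale.Agent.P014X.Fm.Psi

/-! # P014X, row KTX: zeta elements for the curve or for its twist (helper30) -/

set_option autoImplicit false
set_option linter.all false

open QuadraticAlgebra
open scoped Classical

noncomputable section

namespace Vale.Agent.P014X

namespace Kt

open Vale.Agent.P022 (Qb GQ)
open Vale.Agent.P014U
open Vale.Agent.P014U.Top (Kt sg)
open Vale.Agent.P014U.Bt (Gp)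
open PadicInt (toZModPow)
open Fm.Psi

variable [Pp] {A B : ℤ} {D : Cd A B} {N M s : ℕ} {g : D.G} {χ : D.G →* Qa D.a D.b ℤ_[pp]} {μ : D.O}

theorem ex_mu (c : D.Cf) : ∃ μ, D.Mu μ := by
  have e : D.η * star D.η = 1 := by
    rw [← algebraMap_norm_eq_mul_star,
      (Int.isUnit_iff.1 (isUnit_iff_norm_isUnit.1 c.eu)).resolve_right fun e => ?_, map_one]
    have := D.neg
    rw [norm_def] at e
    simp only [Int.cast_id] at e
    nlinarith [sq_nonneg (2 * D.η.re + D.b * D.η.im), sq_nonneg D.η.im]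
  have k : ∀ x : D.O, star (x - D.η * star x) * D.η = -(x - D.η * star x) := fun x => by
    rw [star_sub, star_mul, star_star]
    linear_combination (-x) * e
  by_contra z
  have d : ∀ x : D.O, (pp : D.O) ∣ x - D.η * star x := fun x => by_contra fun n => z ⟨_, k x, n⟩
  have := (d ω).sub ((d 1).mul_right (star ω))
  rw [show ω - D.η * star ω - (1 - D.η * star 1) * star ω = (ω : D.O) - star ω by
    rw [star_one]; ring] at this
  have := (dvd_iff.1 this).2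
  simp only [im_sub, im_star, omega_im, sub_neg_eq_add, one_add_one_eq_two] at this
  exact pp_ne_two ((Nat.prime_dvd_prime_iff_eq pp_prime Nat.prime_two).1 (by exact_mod_cast this))

theorem sgn {ε : D.O → D.O} (E : D.Ep N ε) (fm : D.Fm N M) (ga : D.Ga M s g) :
    ∃ t : ℤ, ∀ n, D.Ac (pp ^ n) g t := by
  have := Cf0.dom D
  obtain ⟨n₀, dv⟩ := fm.dv
  have k : ∀ n, ε s ≠ 0 ∧ D.Ac (pp ^ n) g (ε s * s) := fun n => by
    obtain ⟨ζ, u, a⟩ := ga.ac (n₀ + n)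
    have m0 : D.mp M (n₀ + n) ≠ 0 := nat_ne (mul_ne_zero fm.ne (pow_ne_zero _ pp_ne))
    have c : s.Coprime (M * pp ^ (n₀ + n)) :=
      (ga.cop.coprime_dvd_right ((dvd_mul_left _ _).mul_right _)).mul_right
        ((ga.cop.coprime_dvd_right (dvd_mul_left _ _)).pow_right _)
    have e := (E.ac _ m0 (Nat.cast_dvd_cast (dv.trans (mul_dvd_mul_left _
      (pow_dvd_pow _ (Nat.le_add_right _ _))))) _
      ((isCoprime_mul_unit_left_left u _ _).2 c.cast)).1 ⟨_, a⟩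
    rw [E.mul] at e
    have z : ε s = ζ := by linear_combination ζ * e - ε s * E.inv ζ u
    rw [z]
    refine ⟨u.ne_zero, ac_dvd m0 ?_ a⟩
    rw [← Nat.cast_pow]
    exact Nat.cast_dvd_cast ((pow_dvd_pow _ (Nat.le_add_left _ _)).mul_left _)
  have := E.int s
  rw [Int.cast_natCast] at this
  rcases sq_eq_one_iff.1 (this.resolve_right (k 0).1) with e | e
  · exact ⟨s, fun n => by simpa [e] using (k n).2⟩
  · exact ⟨-s, fun n => by simpa [e] using (k n).2⟩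

theorem chi (h : D.Ps χ) {t : ℤ} (a : ∀ n, D.Ac (pp ^ n) g t) : χ g⁻¹ = t := by
  have : χ g * t = 1 := qm_ext fun n => by
    have := h n g t (a n)
    rw [star_intCast, map_intCast] at this
    rw [map_mul, map_intCast, map_one, this]
  rw [← mul_one (χ g⁻¹), ← this, ← mul_assoc, ← map_mul, inv_mul_cancel, map_one, one_mul]

theorem sf_eq {G R : Type} [Group G] [CommRing R] {a b : ℤ} {χ : G →* Qa a b R} {g : G} {t : ℤ}
    (h : χ g⁻¹ = t) : sf s χ g = ((s : ℤ) ^ 2 - t : ℤ) := by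
  rw [sf, h, show (s : Qa a b R) ^ 2 - t = (((s : ℤ) ^ 2 - t : ℤ) : Qa a b R) by push_cast; rfl,
    re_intCast]

/-- the numbers of one curve -/
theorem one (rr : RR) (pz : PZ) (c : D.Cf) (k : D.Cg N) (u : D.Eu) (e : D.Es pp) (r : D.Rw)
    (fm : D.Fm N M) (ax : D.Ax M) (ps : D.Ps χ) (ga : D.Ga M s g) (mu : D.Mu μ) :
    ∃ (x z : ℕ → ℕ) (n₀ : ℕ) (γ : X4M.TE.Tm A B), sf s χ g ≠ 0 ∧ Gp A B D.c γ ∧
      (∀ j, Top.cz A B (Sb M) D.c j = z j) ∧
      (∀ n n', n + n₀ ≤ n' → sg γ n n (D.zE χ μ s (D.mp M n') n) = x n) ∧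
      ((∃ β, Kt D.el (Sb M) β ∧ 1 ≤ ‖β‖) ∨ (∃ a b, Gd x z a b) ∨ ∃ e, Bg x z e) ∧
      ((∃ a b, Gd x z a b ∧ b ≤ a + (sf s χ g).valuation) → ∃ β, Kt D.el (Sb M) β ∧ 1 ≤ ‖β‖) := by
  obtain ⟨P, ι, lg, ρ, m₀, o1, o2, o3, s0, o4, hr⟩ := rr A B D N M χ s g μ c k u e fm ps ga mu
  obtain ⟨d, n₀, Q, v, w, hv, hw, ⟨γ, hγ⟩, hz, hs⟩ := pz A B D N M χ s g μ c k r fm ax ps ga mu
  simp only [span_sp] at hs
  obtain ⟨x, hx⟩ : ∃ x : ℕ → ℕ, ∀ j, x j = Ba.sp (toZModPow j ∘ v) (toZModPow j ∘ w) := ⟨_, fun _ => rfl⟩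
  obtain ⟨z, hz'⟩ : ∃ z : ℕ → ℕ, ∀ j, z j = Top.cz A B (Sb M) D.c j := ⟨_, fun _ => rfl⟩
  have kt : ∀ (β : ℚ_[pp]) m₁, (∀ b j n, b + m₁ < j → j ≤ n → (pp ^ 2) ^ j ≤ pp ^ b * x j →
      z n ≤ (pp ^ 2) ^ n * pp ^ (b + m₁) ∧
        (x j * z j : ℝ) = ((pp : ℝ) ^ 4) ^ j * ‖((sf s χ g : ℤ_[pp]) : ℚ_[pp]) * β‖) → Kt D.el (Sb M) β := by
    refine fun β m₁ h => ⟨D.c, P, ι, lg, _, ρ, m₀ + m₁, ⟨_, D.cc⟩, o1, o2, o3, s0, o4, fun n => ?_⟩
    obtain ⟨n₁, hr⟩ := hr (m₀ + m₁) n (Nat.le_add_right _ _)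
    obtain ⟨r1, r2, r3, r4⟩ := hr (n₁ + (n + n₀)) (Nat.le_add_right _ _)
    refine ⟨_, r1, r2, r3, r4, ∅, by simp, by simp, fun γ hγ b j h1 h2 h3 => ?_⟩
    rw [Finset.prod_empty, one_smul, hs γ j n _ hγ (by omega) (Nat.le_add_left _ _), ← hx] at h3 ⊢
    rw [Finset.union_empty, ← hz', ← hz']
    obtain ⟨a, b⟩ := h b j n (by omega) (by omega) h3
    exact ⟨a.trans (Nat.mul_le_mul_left _ (Nat.pow_le_pow_right pp_pos (by omega))), b⟩
  refine ⟨x, z, n₀, γ, s0, hγ, fun j => (hz' j).symm, fun n n' le => (hs γ n n n' hγ le_rfl le).trans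
    (hx n).symm, (tri Q hv hw hx fun j => (hz' j).trans (hz j)).imp_left fun h =>
      ⟨1, kt 1 0 fun b j n a _ y => (h b j a y).elim, norm_one.ge⟩, fun ⟨a, b, h, le⟩ => ?_⟩
  have p0 : (0 : ℝ) < pp := by exact_mod_cast pp_pos
  have s1 : ((sf s χ g : ℤ_[pp]) : ℚ_[pp]) ≠ 0 := PadicInt.coe_ne_zero.2 s0
  have nm : ‖(pp : ℚ_[pp]) ^ b / pp ^ a‖ = pp ^ a / pp ^ b := by
    rw [norm_div, norm_pow, norm_pow, Padic.norm_p, inv_pow, inv_pow]
    field_simp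
  refine ⟨pp ^ b / pp ^ a / (sf s χ g : ℤ_[pp]), kt _ (a + b) fun b' j n h1 h2 _ => ⟨?_, ?_⟩, ?_⟩
  · rw [(h n (by omega)).1]
    exact Nat.mul_le_mul_left _ (Nat.pow_le_pow_right pp_pos (by omega))
  · obtain ⟨k1, k2⟩ := h j (by omega)
    have k2 : (x j * pp ^ b : ℝ) = (pp ^ 2) ^ j := by exact_mod_cast k2
    rw [mul_div_cancel₀ _ s1, nm, k1, show (pp : ℝ) ^ 4 = pp ^ 2 * pp ^ 2 by ring, mul_pow]
    push_cast
    rw [← k2]
    field_simp
  · rw [norm_div, nm, PadicInt.padic_norm_e_of_padicInt, one_le_div (norm_pos_iff.2 s0),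
      le_div_iff₀ (by positivity), ← mul_one ((pp : ℝ) ^ a), ← Ba.norm_val s0, mul_left_comm, ← pow_add]
    exact mul_le_mul_of_nonneg_left (pow_le_pow_right₀ (by exact_mod_cast pp_pos) le) (norm_nonneg _)

end Kt

open Vale.Agent.P014U Kt Fm.Psi

variable [Pp]

/-- **zeta elements for the curve or for its twist** -/
theorem ktx (ep : EP) (raw : RAW) (psi : PSI) (rr : RR) (pz : PZ) (sum : SUM) : KTX := by
  intro A B A' B' D D' e i N N' M χ s g T c c' k k' u u' es es' fm fm' ax ps ga d C a b e₀ α iu em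
    un mo
  obtain ⟨χ', ps'⟩ := psi _ _ D' c'
  obtain ⟨μ, mu⟩ := ex_mu c
  obtain ⟨μ', mu'⟩ := ex_mu c'
  obtain ⟨ε, E⟩ := ep _ _ D N c k
  obtain ⟨t, ht⟩ := sgn E fm ga
  have ac : ∀ m ≠ 0, ∀ g β, D.Ac m g β → D'.Ac (e m) g (e β) := fun m m0 g β h =>
    ⟨T.G ▸ h.1, by rw [T.tp m m0, T.g1 g h.1, T.act, h.2]⟩
  let g' : D'.G := ⟨g, T.G.ge g.2⟩
  have ga' : D'.Ga M s g' := ⟨ga.lt, ga.cop, fun n => by
    obtain ⟨ζ, h, y⟩ := ga.ac n
    have := ac _ (nat_ne (mul_ne_zero fm.ne (pow_ne_zero _ pp_ne))) _ _ y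
    rw [map_natCast, map_mul, map_natCast] at this
    exact ⟨_, h.map e, this⟩⟩
  have ht' : ∀ n, D'.Ac (pp ^ n) g' t := fun n => by
    have := ac _ (pw_ne n) _ _ (ht n)
    rwa [map_pow, map_natCast, map_intCast] at this
  have ax' : D'.Ax M := by
    obtain ⟨l, h1, Q, h2, h3⟩ := ax
    refine ⟨l, h1, Q, h2, fun g m => (Cf0.mem_Hf D').2 ?_⟩
    have := ac _ (nat_ne pp_ne) _ _ ((Cf0.mem_Hf D).1 (h3 g m))
    rwa [map_natCast, map_one] at this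
  obtain ⟨x, z, n₁, γ, s0, hγ, hz, hx, y, Y⟩ := one rr pz c k u es (raw _ _ D c es) fm ax ps ga mu
  obtain ⟨x', z', n₂, γ', -, hγ', hz', hx', y', Y'⟩ :=
    one rr pz c' k' u' es' (raw _ _ D' c' es') fm' ax' ps' ga' mu'
  rcases y with y | y
  · exact .inl y
  rcases y' with y' | y'
  · exact .inr y'
  rw [sf_eq (chi ps' ht'), ← sf_eq (chi ps ht)] at Y'
  refine (num y y' ?_).imp Y Y'
  obtain ⟨n₃, H⟩ := sum _ _ _ _ D D' e i N M χ χ' s g μ μ' T c c' k (raw _ _ D c es) fm ps ps' ga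
    mu mu' d C a b e₀ iu em
  obtain ⟨f, hf⟩ := two y
  obtain ⟨f', hf'⟩ := two y'
  refine ⟨f + f' + 1, fun n le => ?_⟩
  rw [T.c] at hγ' hz'
  obtain ⟨ρ, h1, h2, h3, h4⟩ := H n (n + n₁ + n₂ + n₃ + 2) γ γ' (by omega) hγ hγ'
  rw [hx _ _ (by omega), hx' _ _ (by omega)] at h3
  rw [hz, hz'] at h4
  have d0 := C.dim_pos
  have p0 := pp_pos
  obtain ⟨-, h5⟩ := mo n _ ρ (pp ^ ((f + f') * C.pb.dim)) (by omega) h1 h2 (by
    rw [C.card_L]
    exact Nat.pow_lt_pow_right one_lt (Nat.mul_lt_mul_of_pos_right (by omega) d0)) (by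
    refine (Nat.pow_le_pow_iff_left two_ne_zero).1 ?_
    rw [mul_pow, h3, C.card_L]
    have := Nat.mul_le_mul (Nat.pow_le_pow_left (Nat.mul_le_mul (hf n (by omega)).1
      (hf' n (by omega)).1) C.pb.dim) (Nat.one_le_pow ((f + f') * C.pb.dim) pp p0)
    exact (le_of_eq (by ring)).trans (this.trans (le_of_eq (by ring))))
  have sg : sf s (e₀.toMonoidHom.comp χ) g = algebraMap ℤ_[pp] C.O (sf s χ g) := by
    rw [sf_eq (chi ps ht), map_intCast]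
    exact sf_eq ((congrArg e₀ (chi ps ht)).trans (map_intCast e₀ t))
  rw [sg, C.card_L] at h5
  have h6 := (C.cq_ass (associated_mul_unit_left _ _ un)).trans (C.cq_alg s0)
  refine Nat.pow_left_injective d0.ne' ?_
  have h7 := congrArg (· ^ 2) h5
  simp only [mul_pow, h3, h4] at h7
  rw [show Nat.card (C.O ⧸ Ideal.span {algebraMap ℤ_[pp] C.O (sf s χ g) * α}) = _ from h6] at h7
  exact (Eq.trans (by ring) h7).trans (by ring)

end Vale.Agent.P014X
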