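import Vale.Agent.P014X.St2

/-! # P014X: the row `LAO` (helper80) -/

set_option autoImplicit false
set_option linter.all false

open Matrix Submodule IsLocalRing IsDiscreteValuationRing

noncomputable section

namespace Vale.Agent.P014X

open Vale.Agent.P014T.Ba

namespace Lao

variable {O : Type} [CommRing O] [IsDomain O] [IsDiscreteValuationRing O] [Finite (ResidueField O)]
  {L : Type} [CommRing L] [Finite L] {f : O →+* L}

/-- the norm -/
abbrev nm (x : O) : ℕ := Nat.card (O ⧸ Ideal.span {x})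

theorem nm_pow {ϖ : O} (h : Irreducible ϖ) (u : Oˣ) (n : ℕ) :
    nm (u * ϖ ^ n) = Nat.card (ResidueField O) ^ n := by
  rw [nm, Ideal.span_singleton_mul_left_unit u.isUnit, ← Ideal.span_singleton_pow,
    ← h.maximalIdeal_eq]
  exact cardQuot_pow_of_prime (not_a_field O)

theorem nm_pos {x : O} (h : x ≠ 0) : 0 < nm x := by
  obtain ⟨ϖ, p⟩ := exists_irreducible O
  obtain ⟨n, u, rfl⟩ := eq_unit_mul_pow_irreducible h p
  rw [nm_pow p]
  exact pow_pos Nat.card_pos n

theorem nm_mul {x y : O} (hx : x ≠ 0) (hy : y ≠ 0) : nm (x * y) = nm x * nm y := by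
  obtain ⟨ϖ, p⟩ := exists_irreducible O
  obtain ⟨n, u, rfl⟩ := eq_unit_mul_pow_irreducible hx p
  obtain ⟨m, v, rfl⟩ := eq_unit_mul_pow_irreducible hy p
  rw [mul_mul_mul_comm, ← pow_add, ← Units.val_mul, nm_pow p, nm_pow p, nm_pow p, pow_add]

theorem nm_prod {ι : Type} (s : Finset ι) {c : ι → O} (h : ∀ i, c i ≠ 0) :
    nm (∏ i ∈ s, c i) = ∏ i ∈ s, nm (c i) := by
  classical
  induction s using Finset.induction_on with
  | empty =>
    obtain ⟨ϖ, p⟩ := exists_irreducible O
    simpa using nm_pow p 1 0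
  | insert i s n k =>
    rw [Finset.prod_insert n, Finset.prod_insert n, nm_mul (h i)
      (Finset.prod_ne_zero_iff.2 fun i _ => h i), k]

theorem ann0 (hf : Function.Surjective f) {a : O} (h : a ≠ 0) (e : f a = 0) :
    Nat.card {x : L // f a * x = 0} = Nat.card L ∧ Nat.card L ≤ nm a := by
  have := Nat.finite_of_card_ne_zero (nm_pos h).ne'
  refine ⟨Nat.card_congr (Equiv.subtypeUnivEquiv fun x => by rw [e, zero_mul]),
    Nat.card_le_card_of_surjective (Ideal.Quotient.lift (Ideal.span {a}) f fun x hx => ?_)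
      (Ideal.Quotient.lift_surjective_of_surjective _ _ hf)⟩
  obtain ⟨c, rfl⟩ := Ideal.mem_span_singleton.1 hx
  rw [map_mul, e, zero_mul]

theorem ann1 (hf : Function.Surjective f) {a : O} (e : f a ≠ 0) :
    Nat.card {x : L // f a * x = 0} = nm a := by
  have k : RingHom.ker ((Ideal.Quotient.mk (Ideal.span {f a})).comp f) = Ideal.span {a} := by
    ext x
    rw [RingHom.mem_ker, RingHom.comp_apply, Ideal.Quotient.eq_zero_iff_mem,
      Ideal.mem_span_singleton, Ideal.mem_span_singleton]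
    refine ⟨fun ⟨c, h⟩ => ?_, map_dvd f⟩
    obtain ⟨c, rfl⟩ := hf c
    obtain d | ⟨y, d⟩ := ValuationRing.dvd_total a (x - a * c)
    · exact (dvd_sub_left (dvd_mul_right a c)).1 d
    · exact (e (by rw [d, map_mul, map_sub, map_mul, h, sub_self, zero_mul])).elim
  have q := Nat.card_congr (RingHom.quotientKerEquivOfSurjective
    (f := (Ideal.Quotient.mk (Ideal.span {f a})).comp f)
      (Ideal.Quotient.mk_surjective.comp hf)).toEquiv
  rw [k] at q
  have c := card_map (AddMonoidHom.mulLeft (f a)) ⊤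
  have r : (⊤ : AddSubgroup L).map (AddMonoidHom.mulLeft (f a)) =
      (Ideal.span {f a}).toAddSubgroup := by
    ext x
    simp [Ideal.mem_span_singleton, Dvd.dvd, eq_comm]
  rw [inf_top_eq, r, AddSubgroup.card_top,
    AddSubgroup.card_eq_card_quotient_mul_card_addSubgroup (Ideal.span {f a}).toAddSubgroup] at c
  exact (Nat.eq_of_mul_eq_mul_right Nat.card_pos c).trans q.symm

/-- the kernel of a square matrix -/
theorem kr (hf : Function.Surjective f) {n : Type} [Fintype n] [DecidableEq n] {M : Matrix n n O}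
    (h : M.det ≠ 0) : Nat.card (Kr (M.map f)) ≤ nm M.det ∧
      (Nat.card (Kr (M.map f)) < Nat.card L ∨ nm M.det < Nat.card L →
        Nat.card (Kr (M.map f)) = nm M.det) := by
  obtain ⟨P, P', c, hP, hP', e⟩ := snf M h
  have ed := congrArg det e
  rw [det_mul, det_mul, det_diagonal] at ed
  have hc : ∀ i, c i ≠ 0 := fun i hi => h (hP.mul_left_eq_zero.1
    (ed.trans (by rw [Finset.prod_eq_zero (Finset.mem_univ i) hi, mul_zero])))
  have d : nm M.det = ∏ i, nm (c i) := by
    rw [← nm_prod _ hc, nm, nm, ← Ideal.span_singleton_mul_right_unit hP, ed,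
      Ideal.span_singleton_mul_left_unit hP']
  have u : ∀ X : Matrix n n O, IsUnit X.det → IsUnit (X.map f).det := fun X hX => by
    have := hX.map f
    rwa [RingHom.map_det] at this
  rw [kr_unit (D := diagonal fun i => f (c i)) (u P hP) (u P' hP') (by
    rw [← Matrix.map_mul, e, Matrix.map_mul, diagonal_map (map_zero _)]), kr_diag, d]
  refine ⟨Finset.prod_le_prod' fun i _ => ?_, fun k => Finset.prod_congr rfl fun i _ =>
    ann1 hf fun z => ?_⟩
  · by_cases z : f (c i) = 0
    · exact (ann0 hf (hc i) z).1.trans_le (ann0 hf (hc i) z).2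
    · exact (ann1 hf z).le
  · obtain ⟨a, b⟩ := ann0 hf (hc i) z
    refine k.elim (fun k => k.not_ge (a ▸ Finset.single_le_prod' (f := fun i =>
      Nat.card {x : L // f (c i) * x = 0}) (fun j _ => ?_) (Finset.mem_univ i))) fun k =>
        k.not_ge (b.trans (Finset.single_le_prod' (f := fun i => nm (c i))
          (fun j _ => nm_pos (hc j)) (Finset.mem_univ i)))
    have : Nonempty {x : L // f (c j) * x = 0} := ⟨0, mul_zero _⟩
    exact Nat.card_pos

theorem col {κ : Type} [Fintype κ] [DecidableEq κ] (v w : κ → L) :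
    Nat.card (Kr (cl v w)) * Nat.card (span L {v, w}) = Nat.card L ^ 2 := by
  have := card_map (cl v w).mulVecLin.toAddMonoidHom ⊤
  have e : (⊤ : AddSubgroup (Fin 2 → L)).map (cl v w).mulVecLin.toAddMonoidHom =
      (span L {v, w}).toAddSubgroup := by
    ext x
    rw [mem_toAddSubgroup, mem_span_pair]
    exact ⟨fun ⟨s, _, e⟩ => ⟨s 0, s 1, (cl_mulVec v w s).symm.trans e⟩,
      fun ⟨a, b, e⟩ => ⟨![a, b], trivial, (cl_mulVec v w _).trans e⟩⟩
  rw [e, inf_top_eq, AddSubgroup.card_top, Nat.card_fun, Nat.card_eq_fintype_card (α := Fin 2),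
    Fintype.card_fin] at this
  exact this

theorem ind {κ : Type} [Fintype κ] {U : Matrix κ (Fin 2) O}
    (h : Nat.card (Kr (U.map f)) < Nat.card L) (s : Fin 2 → O) (hs : U *ᵥ s = 0) : s = 0 := by
  have k : ∀ (a : O) (t : Fin 2 → O) i, t i = 1 → s = a • t → s = 0 := fun a t i t1 e => by
    by_contra n
    have a0 : a ≠ 0 := fun z => n (by rw [e, z, zero_smul])
    rw [e, mulVec_smul, smul_eq_zero_iff_right a0] at hs
    refine h.not_ge (Nat.card_le_card_of_injective (fun y : L => (⟨y • f ∘ t, ?_⟩ : Kr (U.map f)))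
      fun y z e => by simpa [t1] using congrFun (congrArg Subtype.val e) i)
    rw [mem_Kr, mulVec_smul, show U.map f *ᵥ f ∘ t = 0 from funext fun j => by
      rw [← RingHom.map_mulVec, hs]; exact map_zero f, smul_zero]
  obtain ⟨c, e⟩ | ⟨c, e⟩ := ValuationRing.dvd_total (s 0) (s 1)
  · exact k (s 0) ![1, c] 0 rfl (funext fun i => by fin_cases i <;> simp [e])
  · exact k (s 1) ![c, 1] 1 rfl (funext fun i => by fin_cases i <;> simp [e])

end Lao

open Lao

variable [P014U.Pp]

theorem lao : LAO := by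
  intro O _ _ _ _ r Q v w t β L _ _ f e hf t0 hv hw h lt le
  have p : 0 < Nat.card (span L {f ∘ v, f ∘ w}) := Nat.card_pos
  have c := col (f ∘ v) (f ∘ w)
  have m : cl (f ∘ v) (f ∘ w) = (cl v w).map f := by
    ext k i
    fin_cases i <;> rfl
  rw [m] at c
  have c1 : Nat.card (Kr ((cl v w).map f)) ≤ e := Nat.le_of_mul_le_mul_right (c ▸ le) p
  have c2 := (c1.trans (Nat.le_mul_of_pos_right _ (nm_pos t0))).trans_lt lt
  obtain ⟨C₁, h₁⟩ := ex_C _ (ind c2)
  have n₁ := mul_ne_zero t0 h₁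
  rw [h] at n₁
  have β0 := left_ne_zero_of_mul n₁
  obtain ⟨C, hm⟩ : ∃ C, ∀ C', (st finSumFinEquiv.symm Q C).det ∣ (st finSumFinEquiv.symm Q C').det :=
    ⟨_, fun C' => addVal_le_iff_dvd.1
      (Function.argmin_le (fun C => addVal O (st finSumFinEquiv.symm Q C).det) C')⟩
  have d0 := ne_zero_of_dvd_ne_zero (right_ne_zero_of_mul n₁) (hm C₁)
  obtain ⟨V, v1, v2, v3⟩ := ex_sec _ Q d0 hm
  have hU : V * (C * cl v w) = cl v w := smul_right_injective _ d0 (by
    show _ • _ = _ • _
    rw [← Matrix.smul_mul, v3, ad_ker _ Q C _ (mul_cl hv hw)])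
  have sp : ∀ {L' : Type} [CommRing L'] (f' : O →+* L'), Nat.card (Kr (Q.map f')) =
      Nat.card (Kr ((st finSumFinEquiv.symm Q C).map f')) * Nat.card L' ^ 2 := fun f' => by
    rw [st_map, card_split _ _ (V := V.map f')
      (by rw [← Matrix.map_mul, v1, Matrix.map_zero _ (map_zero _)])
      (by rw [← Matrix.map_mul, v2, Matrix.map_one _ (map_zero _) (map_one _)])]
  have H0 : (C * cl v w).det ≠ 0 := right_ne_zero_of_mul (h C ▸ mul_ne_zero β0 d0)
  have k : Kr ((cl v w).map f) = Kr ((C * cl v w).map f) := by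
    ext x
    rw [mem_Kr, mem_Kr]
    constructor <;> intro a
    · rw [Matrix.map_mul, ← mulVec_mulVec, a, mulVec_zero]
    · rw [← hU, Matrix.map_mul, ← mulVec_mulVec, a, mulVec_zero]
  rw [k] at c c1 c2
  rw [(kr hf H0).2 (.inl c2)] at c c1
  have N := congrArg nm (h C)
  rw [nm_mul t0 H0, nm_mul β0 d0] at N
  have b : nm (st finSumFinEquiv.symm Q C).det ≤ e * nm t :=
    (Nat.le_mul_of_pos_left _ (nm_pos β0)).trans (N.ge.trans
      (mul_comm e _ ▸ Nat.mul_le_mul_left _ c1))
  refine ⟨β0, ?_, fun L' _ _ f' hf' => ?_⟩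
  · rw [sp, (kr hf d0).2 (.inr (b.trans_lt lt))]
    zify at N c ⊢
    linear_combination (Nat.card L ^ 2 * nm t : ℤ) * c -
      (Nat.card L ^ 2 * Nat.card (span L {f ∘ v, f ∘ w}) : ℤ) * N
  · rw [sp, mul_comm]
    exact Nat.mul_le_mul_left _ ((kr hf' d0).1.trans b)

end Vale.Agent.P014X
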