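import Vale.Agent.P014X.Fm.Pzm
import Vale.Agent.P014X.Fm.Pz1

/-! # P014X, row PZ -/

set_option autoImplicit false
set_option linter.all false

open scoped Classical

noncomputable section

namespace Vale.Agent.P014X

open Vale.Agent.P014U

variable [Pp]

/-- **the numbers of one curve come from matrices** -/
theorem pz : PZ := fun A B D N M χ s g μ cf cg rw fm ax ps ga _ => by
  obtain ⟨n₀, lv⟩ := Pz1.ex_n cf cg fm ps
  obtain ⟨gp, fx, pv⟩ := Pz1.ex_gp D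
  obtain ⟨r, Q, v, w, q1, q2, H⟩ := Pzm.core cf cg fm ax (Pz1.isc D) fx pv
    (z := fun n => D.zE χ μ s (D.mp M (n + n₀)) n) fun n => Pz1.zmem cf rw fm ps ga (lv _ _ le_rfl)
  have G := Ew.gp_tv (P004F.hq D.el) fx pv
  refine ⟨r, n₀, Q, v, w, q1, q2, ⟨_, G⟩, fun j => (H j).elim fun n k => (k.2 _ G).1,
    fun γ j n n' G le le' => (H j).elim fun m k => Eq.trans (Ew.sp_congr rfl ?_) (k.2 γ G).2⟩
  rw [← sub_sub_sub_cancel_right _ _ (D.zE χ μ s (D.mp M (j + n₀)) j)]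
  exact sub_mem (Pz1.zcmp cf rw fm ps ga G le (lv _ _ le') (lv _ _ le_rfl))
    (Pz1.zcmp cf rw fm ps ga G k.1 (lv _ _ le_rfl) (lv _ _ le_rfl))

end Vale.Agent.P014X
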