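import Vale.Agent.P014X.Fm.St
import Vale.Agent.P014X.Fm.Crk

/-! # P014X, block FAM: the glue -/

set_option autoImplicit false
set_option linter.all false

open NumberField IsLocalRing
open scoped Classical

noncomputable section

namespace Vale.Agent.P014X.Fm

open Vale.Agent.P014U
open Pow

variable [Pp]

namespace Fam

variable {k : ℕ} {C : Cr k}

theorem pO : (pp : C.O) ∈ maximalIdeal C.O := fun h =>
  (C.unit_iff _).1 h (by rw [map_natCast, ZMod.natCast_self])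

theorem pR : (pp : C.R) ∈ maximalIdeal C.R := fun h =>
  (C.unit_R _).1 h (by rw [map_natCast, map_natCast, ZMod.natCast_self])

theorem evm {e : C.R →+* C.O} (h : C.Ev e) (x : C.R) (m : x ∈ maximalIdeal C.R) :
    e x ∈ maximalIdeal C.O := fun u => m ((h.unit x).1 u)

theorem evc {a b : ℤ} {e : C.R →+* C.O} (h : C.Ev e) (x : Qa a b C.O) :
    qm a b e (qm a b PowerSeries.C x) = x := QuadraticAlgebra.ext (h.c _) (h.c _)

end Fam

open Fam in
/-- **the families** -/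
theorem fam (cor : COR) (rng : RNG) (cpl : CPL) (dsc : DSC) (dec : DEC) (aux : AUX) (gxx : GXX)
    (emb : EMB) (bdx : BDX) (un1 : UN1) (gfa : GFA) (loc : LOC) (anx : ANX) : FAM := by
  intro A B D N χ cf cg ps M₀ h0
  obtain ⟨M, fm, hM, ax⟩ := aux A B D N M₀ cf cg h0
  obtain ⟨x⟩ := dec D.a D.b (dsc A B D)
  obtain ⟨k, gx⟩ := gxx A B D N M χ x cf cg ps fm ax
  obtain ⟨C⟩ := cor k
  obtain ⟨a, b, e, lam, ev, du, em, lu, hv⟩ := emb A B D k C
  obtain ⟨y⟩ := bdx A B D M χ x k C a b e lam ev gx du em lu hv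
  obtain ⟨nR, cR, cO, e₁, ev₁, h₁⟩ := cpl k C
  obtain ⟨t⟩ := rng C.R (C.π.comp PowerSeries.constantCoeff)
  obtain ⟨an, hJ, hθ, hξ⟩ := anx A B D k C a b M _ y
  obtain ⟨u1, u2, -, -, -, u⟩ := un1 k C a b y.toUy
  let F : (D.G →* Qa a b C.O) → D.G →* Qa a b C.R := fun f =>
    qc PowerSeries.C (f * y.φ) * (pw pR u1).comp y.ep * (pw pR u2).comp y.em
  have q : ∀ f, y.Fq f (F f) := fun f g => rfl
  have v : ∀ f e, C.Ev e → ∀ g, qc e (F f) g = f g * y.φ g *
      pz (maximalIdeal C.O) (qm a b e y.up) (y.ep g).toAdd *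
      pz (maximalIdeal C.O) (qm a b e y.um) (y.em g).toAdd := fun f e h g => by
    show qm a b e (F f g) = _
    rw [q f g, map_mul, map_mul, evc h, pz_map pR u1 e (evm h), pz_map pR u2 e (evm h)]
  refine ⟨M, k, C, a, b, t, e, an, F, PowerSeries.constantCoeff, e₁, fm, hM, ax, du, em, C.ev0, ev₁,
    fun f m => ⟨gfa A B D k C a b M _ y t f _ (hJ f m).1 (q f)
      (loc A B D k C a b M _ y f _ (hJ f m).1 (hJ f m).2 (q f)), MonoidHom.ext fun g => ?_⟩,
    y.θ, hθ, MonoidHom.ext fun g => ?_⟩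
  · obtain ⟨a1, a2⟩ := (u e₁ ev₁).2 h₁
    have o : pz (maximalIdeal C.O) (1 : Qa a b C.O) (y.em g).toAdd = 1 :=
      (pz_fin (k := 0) (n := 0) pO (by rw [sub_self]; exact zero_mem _) (one_pow _)
        (by haveI : Subsingleton (ZMod (pp ^ 0)) := ZMod.subsingleton_iff.2 (pow_zero _)
            exact Subsingleton.elim _ _)).trans (pow_zero _)
    rw [v f e₁ ev₁, a1, a2, o, mul_one, MonoidHom.mul_apply, hξ, mul_assoc]
  · obtain ⟨a1, a2⟩ := (u _ C.ev0).1 PowerSeries.constantCoeff_X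
    rw [v _ _ C.ev0, a1, a2, y.eq]

end Vale.Agent.P014X.Fm
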