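import Vale.Agent.P014U.Ba.Mc

/-! # P014X, row KTX: the numbers of a matrix over the `p`-adic integers (helper30) -/

set_option autoImplicit false
set_option linter.all false

noncomputable section

namespace Vale.Agent.P014X.Kt

open Matrix Submodule Vale.Agent.P014U Vale.Agent.P014U.Ba
open PadicInt (toZModPow)

theorem span_sp {M : Type} [AddCommGroup M] {N : ℕ} [Module (ZMod N) M] (x y : M) :
    Nat.card (span (ZMod N) {x, y}) = sp x y := by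
  refine Nat.card_congr (Equiv.subtypeEquivRight fun z => ?_)
  rw [mem_span_pair, AddSubgroup.mem_sup]
  constructor
  · rintro ⟨a, b, rfl⟩
    obtain ⟨a, rfl⟩ := ZMod.intCast_surjective a
    obtain ⟨b, rfl⟩ := ZMod.intCast_surjective b
    exact ⟨_, ⟨a, rfl⟩, _, ⟨b, rfl⟩, by simp only [Int.cast_smul_eq_zsmul]⟩
  · rintro ⟨_, ⟨a, rfl⟩, _, ⟨b, rfl⟩, rfl⟩
    exact ⟨a, b, by simp only [Int.cast_smul_eq_zsmul]⟩

variable [Pp]

/-- independent columns generate a large group -/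
theorem big {κ n : Type} [Fintype κ] [Fintype n] [DecidableEq n] (U : Matrix κ n ℤ_[pp])
    (C : Matrix n κ ℤ_[pp]) (h : (C * U).det ≠ 0) : ∃ e, ∀ j, e ≤ j →
      ∀ A : AddSubgroup (κ → ZMod (pp ^ j)), (∀ x, U.map (toZModPow j) *ᵥ x ∈ A) →
        (pp ^ Fintype.card n) ^ j ≤ pp ^ e * Nat.card A := by
  refine ⟨(C * U).det.valuation, fun j le A hA => ?_⟩
  have : NeZero (pp ^ j) := ⟨pow_ne_zero _ pp_ne⟩
  have k := card_map (U.map (toZModPow j)).mulVecLin.toAddMonoidHom ⊤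
  rw [AddSubgroup.card_top, Nat.card_fun, Nat.card_zmod, Nat.card_eq_fintype_card (α := n)] at k
  rw [← pow_mul, mul_comm, pow_mul, ← k, ← card_kr (C * U) (norm_val h) le]
  refine Nat.mul_le_mul (AddSubgroup.card_le_of_le fun x a => ?_)
    (AddSubgroup.card_le_of_le ?_)
  · rw [mem_Kr, Matrix.map_mul, ← mulVec_mulVec, show U.map (toZModPow j) *ᵥ x = 0 from a.1,
      mulVec_zero]
  · rintro _ ⟨x, -, rfl⟩
    exact hA x

/-- the regular case -/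
def Gd (s z : ℕ → ℕ) (a b : ℕ) : Prop :=
  ∀ j, a + b ≤ j → z j = (pp ^ 2) ^ j * pp ^ a ∧ s j * pp ^ b = (pp ^ 2) ^ j

/-- too many cocycles -/
def Bg (s z : ℕ → ℕ) (e : ℕ) : Prop :=
  ∀ j, e ≤ j → (pp ^ 2) ^ j ≤ pp ^ e * s j ∧ (pp ^ 3) ^ j ≤ pp ^ e * z j

/-- the class is torsion -/
def Dg (s : ℕ → ℕ) : Prop := ∀ b j, b < j → ¬ (pp ^ 2) ^ j ≤ pp ^ b * s j

theorem tri {r : ℕ} (Q : Matrix (Fin r) (Fin (r + 2)) ℤ_[pp]) {v w : Fin (r + 2) → ℤ_[pp]}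
    (hv : Q *ᵥ v = 0) (hw : Q *ᵥ w = 0) {s z : ℕ → ℕ}
    (hs : ∀ j, s j = sp (toZModPow j ∘ v) (toZModPow j ∘ w))
    (hz : ∀ j, z j = Nat.card (Kr (Q.map (toZModPow j)))) :
    Dg s ∨ (∃ a b, Gd s z a b) ∨ ∃ e, Bg s z e := by
  refine or_iff_not_imp_left.2 fun n => ?_
  obtain ⟨b₀, n⟩ := not_forall.1 n
  obtain ⟨j₀, n⟩ := not_forall.1 n
  rw [Classical.not_imp, not_not, hs] at n
  obtain ⟨C1, h1⟩ := ex_C (cl v w) fun s hs => by
    obtain ⟨a, b⟩ := ind_of n.1 n.2 _ _ ((cl_mulVec v w s).symm.trans hs)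
    funext i
    fin_cases i
    · exact a
    · exact b
  by_cases d : (st finSumFinEquiv.symm Q C1).det = 0
  · obtain ⟨u, u0, k⟩ := exists_mulVec_eq_zero_iff.2 d
    rw [st_mulVec] at k
    obtain ⟨i, u0⟩ := Function.ne_iff.1 u0
    obtain ⟨e, h⟩ := big _ C1 h1
    obtain ⟨e', h'⟩ := big (fromCols (cl v w) (replicateCol Unit u))
      (fromRows C1 (replicateRow Unit (Pi.single i 1))) (by
        have : C1 * replicateCol Unit u = 0 := Matrix.ext fun a b => congrFun k.2 a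
        rw [fromRows_mul_fromCols, this, det_fromBlocks_zero₁₂]
        refine mul_ne_zero h1 ?_
        rw [det_unique, replicateRow_mul_replicateCol_apply, single_one_dotProduct]
        exact u0)
    refine .inr ⟨e + e', fun j le => ⟨(h j (by omega) _ fun x => ?_).trans
      (Nat.mul_le_mul (Nat.pow_le_pow_right pp_pos (by omega)) (hs j).ge),
      (h' j (by omega) _ fun x => ?_).trans
      (Nat.mul_le_mul (Nat.pow_le_pow_right pp_pos (by omega)) (hz j).ge)⟩⟩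
    · have : (cl v w).map (toZModPow j) = cl (toZModPow j ∘ v) (toZModPow j ∘ w) := by
        ext k i; fin_cases i <;> rfl
      rw [this, cl_mulVec]
      obtain ⟨a, ha⟩ := ZMod.intCast_surjective (x 0)
      obtain ⟨b, hb⟩ := ZMod.intCast_surjective (x 1)
      rw [← ha, ← hb, Int.cast_smul_eq_zsmul, Int.cast_smul_eq_zsmul]
      exact AddSubgroup.add_mem_sup ⟨a, rfl⟩ ⟨b, rfl⟩
    · have : Q * replicateCol Unit u = 0 := Matrix.ext fun a b => congrFun k.1 a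
      rw [mem_Kr, mulVec_mulVec, ← Matrix.map_mul, mul_fromCols, mul_cl hv hw, this, fromCols_zero,
        Matrix.map_zero _ (map_zero _), zero_mulVec]
  · obtain ⟨C, V, a, -, -, -, -, hU, hc, -, h⟩ := Ba.min finSumFinEquiv.symm Q ⟨C1, d⟩
    have e := hU _ (mul_cl hv hw)
    have h0 : (C * cl v w).det ≠ 0 := fun k => h1 (by rw [e, ← Matrix.mul_assoc, det_mul, k, mul_zero])
    refine .inl ⟨a, (C * cl v w).det.valuation, fun j le => ⟨(hz j).trans (hc j (by omega)), ?_⟩⟩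
    have := h _ _ j (norm_val h0) (le_of_add_le_right le)
    rw [← e] at this
    rw [hs]
    exact this

theorem Gd.s {s z : ℕ → ℕ} {a b : ℕ} (h : Gd s z a b) (j : ℕ) (le : a + b ≤ j) :
    (pp ^ 2) ^ j ≤ pp ^ (a + b) * s j ∧ (pp ^ 2) ^ j ≤ pp ^ (a + b) * z j := by
  obtain ⟨k1, k2⟩ := h j le
  have := pp_pos
  refine ⟨?_, ?_⟩
  · rw [← k2, mul_comm]
    exact Nat.mul_le_mul_right _ (Nat.pow_le_pow_right pp_pos (by omega))
  · rw [k1, mul_left_comm]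
    exact Nat.le_mul_of_pos_right _ (by positivity)

theorem Bg.s {s z : ℕ → ℕ} {e : ℕ} (h : Bg s z e) (j : ℕ) (le : e ≤ j) :
    (pp ^ 2) ^ j ≤ pp ^ e * s j ∧ (pp ^ 2) ^ j ≤ pp ^ e * z j :=
  ⟨(h j le).1, le_trans (Nat.pow_le_pow_left (Nat.pow_le_pow_right pp_pos (by omega)) _) (h j le).2⟩

theorem two {s z : ℕ → ℕ} (h : (∃ a b, Gd s z a b) ∨ ∃ e, Bg s z e) :
    ∃ e, ∀ j, e ≤ j → (pp ^ 2) ^ j ≤ pp ^ e * s j ∧ (pp ^ 2) ^ j ≤ pp ^ e * z j := by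
  rcases h with ⟨a, b, h⟩ | ⟨e, h⟩
  · exact ⟨_, h.s⟩
  · exact ⟨_, h.s⟩

theorem no_bg {s z s' z' : ℕ → ℕ} {v e : ℕ} (h : Bg s z e)
    (h' : (∃ a b, Gd s' z' a b) ∨ ∃ e, Bg s' z' e)
    (H : ∃ n₀, ∀ n, n₀ ≤ n → s n * s' n * (z n * z' n) * pp ^ (2 * v) = pp ^ (8 * n)) : False := by
  obtain ⟨e', h'⟩ := two h'
  obtain ⟨n₀, H⟩ := H
  obtain ⟨n, a⟩ : ∃ n, n = n₀ + 2 * e + 2 * e' + 1 := ⟨_, rfl⟩
  obtain ⟨k1, k2⟩ := h n (by omega)
  obtain ⟨k3, k4⟩ := h' n (by omega)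
  have k := Nat.mul_le_mul (Nat.mul_le_mul (Nat.mul_le_mul k1 k2) (Nat.mul_le_mul k3 k4))
    (Nat.one_le_pow (2 * v) pp pp_pos)
  have : pp ^ (9 * n) ≤ pp ^ (2 * e + 2 * e' + 8 * n) := by
    rw [pow_add _ _ (8 * n), ← H n (by omega)]
    exact (le_of_eq (by ring)).trans (k.trans (le_of_eq (by ring)))
  rw [Nat.pow_le_pow_iff_right one_lt] at this
  omega

/-- **the two curves together** -/
theorem num {s z s' z' : ℕ → ℕ} {v : ℕ} (h : (∃ a b, Gd s z a b) ∨ ∃ e, Bg s z e)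
    (h' : (∃ a b, Gd s' z' a b) ∨ ∃ e, Bg s' z' e)
    (H : ∃ n₀, ∀ n, n₀ ≤ n → s n * s' n * (z n * z' n) * pp ^ (2 * v) = pp ^ (8 * n)) :
    (∃ a b, Gd s z a b ∧ b ≤ a + v) ∨ ∃ a b, Gd s' z' a b ∧ b ≤ a + v := by
  rcases h with ⟨a, b, h⟩ | ⟨e, h⟩
  swap
  · exact (no_bg h h' H).elim
  rcases h' with ⟨a', b', h'⟩ | ⟨e, h'⟩
  swap
  · exact (no_bg (v := v) h' (.inl ⟨a, b, h⟩) (H.imp fun n₀ k n le => by rw [← k n le]; ring)).elim
  obtain ⟨n₀, H⟩ := H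
  obtain ⟨n, c⟩ : ∃ n, n = n₀ + a + b + a' + b' := ⟨_, rfl⟩
  obtain ⟨k1, k2⟩ := h n (by omega)
  obtain ⟨k3, k4⟩ := h' n (by omega)
  have : pp ^ (8 * n + (a + a' + 2 * v)) = pp ^ (8 * n + (b + b')) := by
    calc _ = (pp ^ 2) ^ n * (pp ^ 2) ^ n * ((pp ^ 2) ^ n * pp ^ a * ((pp ^ 2) ^ n * pp ^ a')) *
        pp ^ (2 * v) := by ring
      _ = s n * pp ^ b * (s' n * pp ^ b') * (z n * z' n) * pp ^ (2 * v) := by rw [k1, k2, k3, k4]
      _ = _ := by rw [pow_add, ← H n (by omega)]; ring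
  have := Nat.pow_right_injective pp_prime.two_le this
  by_cases c : b ≤ a + v
  · exact .inl ⟨a, b, h, c⟩
  · exact .inr ⟨a', b', h', by omega⟩

end Vale.Agent.P014X.Kt
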