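import Vale.Agent.P014X.St2

/-! # P014X: powers with `pp`-adic exponents in a quadratic algebra (helper46) -/

set_option autoImplicit false
set_option linter.all false

open PadicInt

noncomputable section

namespace Vale.Agent.P014X.Pow

open Vale.Agent.P014U

variable {a b : ℤ} {R R' : Type} [CommRing R] [CommRing R']

variable (a b) in
/-- both coordinates are in `I` -/
def Jq (I : Ideal R) : Ideal (Qa a b R) where
  carrier := {x | x.re ∈ I ∧ x.im ∈ I}
  add_mem' p q := ⟨add_mem p.1 q.1, add_mem p.2 q.2⟩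
  zero_mem' := ⟨zero_mem _, zero_mem _⟩
  smul_mem' c x p := by
    refine ⟨?_, ?_⟩ <;> simp only [smul_eq_mul, QuadraticAlgebra.re_mul, QuadraticAlgebra.im_mul]
    · exact add_mem (I.mul_mem_left _ p.1) (I.mul_mem_left _ p.2)
    · exact add_mem (add_mem (I.mul_mem_left _ p.2) (I.mul_mem_left _ p.1)) (I.mul_mem_left _ p.2)

variable {I I' : Ideal R} {U V W : Qa a b R}

theorem mem_Jq : U ∈ Jq a b I ↔ U.re ∈ I ∧ U.im ∈ I := Iff.rfl

theorem Jq_mono (h : I ≤ I') : Jq a b I ≤ Jq a b I' := fun _ p => ⟨h p.1, h p.2⟩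

theorem Jq_mul (p : U ∈ Jq a b I) (q : V ∈ Jq a b I') : U * V ∈ Jq a b (I * I') := by
  have m : ∀ {x y : R} (c : R), x ∈ I → y ∈ I' → c * x * y ∈ I * I' := fun c s t =>
    Ideal.mul_mem_mul (I.mul_mem_left c s) t
  refine ⟨?_, ?_⟩ <;> simp only [QuadraticAlgebra.re_mul, QuadraticAlgebra.im_mul]
  · exact add_mem (Ideal.mul_mem_mul p.1 q.1) (m _ p.2 q.2)
  · exact add_mem (add_mem (Ideal.mul_mem_mul p.1 q.2) (Ideal.mul_mem_mul p.2 q.1)) (m _ p.2 q.2)

theorem Jq_star (p : U ∈ Jq a b I) : star U ∈ Jq a b I :=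
  ⟨by simpa using add_mem p.1 (I.mul_mem_left b p.2), by simpa using p.2⟩

theorem Jq_map {J : Ideal R'} (f : R →+* R') (h : ∀ x ∈ I, f x ∈ J) (p : U ∈ Jq a b I) :
    qm a b f U ∈ Jq a b J := ⟨h _ p.1, h _ p.2⟩

theorem qm_star (f : R →+* R') (U : Qa a b R) : qm a b f (star U) = star (qm a b f U) :=
  QuadraticAlgebra.ext (by simp [qm]) (by simp [qm])

theorem one_mul' (p : U - 1 ∈ Jq a b I) (q : V - 1 ∈ Jq a b I) : U * V - 1 ∈ Jq a b I := by
  convert add_mem (Ideal.mul_mem_right V _ p) q using 1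
  ring

theorem one_pow' (p : U - 1 ∈ Jq a b I) (n : ℕ) : U ^ n - 1 ∈ Jq a b I := by
  induction n with
  | zero => simp
  | succ n ih => rw [pow_succ]; exact one_mul' ih p

theorem sub_pow' (p : U - V ∈ Jq a b I) (n : ℕ) : U ^ n - V ^ n ∈ Jq a b I :=
  Ideal.mem_of_dvd _ (sub_dvd_pow_sub_pow U V n) p

theorem eq_of [IsAdicComplete I R] (h : ∀ k, U - V ∈ Jq a b (I ^ (k + 1))) : U = V := by
  have e : ∀ x : R, (∀ k, x ∈ I ^ (k + 1)) → x = 0 := fun x m =>
    IsHausdorff.haus (I := I) inferInstance _ fun k => by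
      rw [SModEq.zero, smul_eq_mul, Ideal.mul_top]
      exact Ideal.pow_le_pow_right k.le_succ (m k)
  exact sub_eq_zero.1 (QuadraticAlgebra.ext (e _ fun k => (h k).1) (e _ fun k => (h k).2))

theorem ex_lim [IsAdicComplete I R] (y : ℕ → Qa a b R)
    (h : ∀ m n, m ≤ n → y m - y n ∈ Jq a b (I ^ (m + 1))) :
    ∃ V, ∀ k, V - y k ∈ Jq a b (I ^ (k + 1)) := by
  have e : ∀ z : ℕ → R, (∀ m n, m ≤ n → z m - z n ∈ I ^ (m + 1)) →
      ∃ v, ∀ k, v - z k ∈ I ^ (k + 1) := fun z c => by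
    obtain ⟨L, hL⟩ := IsPrecomplete.prec (I := I) inferInstance (f := z) fun {m n} le => by
      rw [SModEq.sub_mem, smul_eq_mul, Ideal.mul_top]
      exact Ideal.pow_le_pow_right m.le_succ (c m n le)
    refine ⟨L, fun k => ?_⟩
    have := hL (k + 1)
    rw [SModEq.sub_mem, smul_eq_mul, Ideal.mul_top] at this
    simpa using neg_mem (add_mem (c k _ k.le_succ) this)
  obtain ⟨r, hr⟩ := e (fun k => (y k).re) fun m n le => (h m n le).1
  obtain ⟨s, hs⟩ := e (fun k => (y k).im) fun m n le => (h m n le).2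
  exact ⟨⟨r, s⟩, fun k => ⟨hr k, hs k⟩⟩

variable [Pp]

theorem pw_p (hp : (pp : R) ∈ I) {k : ℕ} (p : U - 1 ∈ Jq a b (I ^ (k + 1))) :
    U ^ pp - 1 ∈ Jq a b (I ^ (k + 2)) := by
  rw [← mul_geom_sum, pow_succ I (k + 1)]
  refine Jq_mul p ?_
  have e : ∑ i ∈ Finset.range pp, U ^ i = ∑ i ∈ Finset.range pp, (U ^ i - 1) + (pp : ℕ) := by simp
  rw [e]
  exact add_mem (sum_mem fun i _ => one_pow' (Jq_mono (Ideal.pow_le_self k.succ_ne_zero) p) i)
    ⟨by simpa using hp, by simp⟩

theorem pw_pp (hp : (pp : R) ∈ I) (p : U - 1 ∈ Jq a b I) (k : ℕ) :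
    U ^ pp ^ k - 1 ∈ Jq a b (I ^ (k + 1)) := by
  induction k with
  | zero => simpa using p
  | succ k ih => rw [pow_succ pp, pow_mul]; exact pw_p hp ih

theorem pw_cong (hp : (pp : R) ∈ I) (p : U - 1 ∈ Jq a b I) {k m n : ℕ}
    (h : (m : ZMod (pp ^ k)) = n) : U ^ m - U ^ n ∈ Jq a b (I ^ (k + 1)) := by
  wlog le : n ≤ m generalizing m n
  · simpa using neg_mem (this h.symm (le_of_not_ge le))
  obtain ⟨c, rfl⟩ := Nat.exists_eq_add_of_le le
  obtain ⟨c, rfl⟩ : pp ^ k ∣ c := (ZMod.natCast_eq_zero_iff _ _).1 (by simpa using h)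
  rw [pow_add U, pow_mul, ← mul_sub_one]
  exact Ideal.mul_mem_left _ _ (one_pow' (pw_pp hp p k) c)

variable (I) in
/-- the power -/
def pz (U : Qa a b R) (x : ℤ_[pp]) : Qa a b R :=
  Classical.epsilon fun V => ∀ k, V - U ^ (toZModPow k x).val ∈ Jq a b (I ^ (k + 1))

variable [IsAdicComplete I R] (hp : (pp : R) ∈ I) (p : U - 1 ∈ Jq a b I) {x y : ℤ_[pp]} {k n : ℕ}

include hp p

theorem pz_val (x : ℤ_[pp]) (k : ℕ) :
    pz I U x - U ^ (toZModPow k x).val ∈ Jq a b (I ^ (k + 1)) :=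
  Classical.epsilon_spec (ex_lim (fun k => U ^ (toZModPow k x).val) fun m n le =>
    pw_cong hp p (by
      rw [ZMod.natCast_zmod_val, ZMod.natCast_val, cast_toZModPow _ _ le])) k

/-- the value at a finite level -/
theorem pz_lev (h : toZModPow k x = n) : pz I U x - U ^ n ∈ Jq a b (I ^ (k + 1)) := by
  simpa using add_mem (pz_val hp p x k) (pw_cong hp p (m := (toZModPow k x).val) (n := n)
    (by rw [ZMod.natCast_zmod_val, h]))

theorem pz_nat (n : ℕ) : pz I U n = U ^ n := eq_of fun k => pz_lev hp p (map_natCast _ n)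

theorem pz_zero : pz I U 0 = 1 := by simpa using pz_nat hp p 0

theorem pz_one : pz I U 1 = U := by simpa using pz_nat hp p 1

theorem pz_add (x y : ℤ_[pp]) : pz I U (x + y) = pz I U x * pz I U y := eq_of fun k => by
  have := pz_lev hp p (x := x + y) (k := k) (n := (toZModPow k x).val + (toZModPow k y).val)
    (by simp)
  convert sub_mem (sub_mem this (Ideal.mul_mem_right (pz I U y) _ (pz_val hp p x k)))
    (Ideal.mul_mem_left _ (U ^ (toZModPow k x).val) (pz_val hp p y k)) using 1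
  ring

theorem pz_neg (x : ℤ_[pp]) : pz I U x * pz I U (-x) = 1 := by
  rw [← pz_add hp p, add_neg_cancel, pz_zero hp p]

/-- the power as a homomorphism -/
def pw : Multiplicative ℤ_[pp] →* Qa a b R where
  toFun x := pz I U x.toAdd
  map_one' := pz_zero hp p
  map_mul' _ _ := pz_add hp p _ _

theorem pw_apply (x : ℤ_[pp]) : pw hp p (.ofAdd x) = pz I U x := rfl

theorem pz_nsmul (n : ℕ) (x : ℤ_[pp]) : pz I U (n * x) = pz I U x ^ n := by
  induction n with
  | zero => simpa using pz_zero hp p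
  | succ n ih => rw [Nat.cast_succ, add_one_mul, pz_add hp p, ih, pow_succ]

/-- small exponents -/
theorem pz_dvd (h : (pp : ℤ_[pp]) ^ k ∣ x) : pz I U x - 1 ∈ Jq a b (I ^ (k + 1)) := by
  have : toZModPow k x = (0 : ℕ) := by
    rw [Nat.cast_zero, ← RingHom.mem_ker, ker_toZModPow, Ideal.mem_span_singleton]
    exact h
  simpa using pz_lev hp p this

theorem pz_n1 (x : ℤ_[pp]) : pz I U x - 1 ∈ Jq a b I := by
  simpa using pz_dvd hp p (k := 0) (x := x) (by simp)

theorem pz_cong (h : toZModPow k x = toZModPow k y) :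
    pz I U x - pz I U y ∈ Jq a b (I ^ (k + 1)) := by
  simpa [h] using sub_mem (pz_val hp p x k) (pz_val hp p y k)

theorem pz_mul (q : V - 1 ∈ Jq a b I) (x : ℤ_[pp]) : pz I (U * V) x = pz I U x * pz I V x :=
  eq_of fun k => by
    convert sub_mem (sub_mem (pz_val hp (one_mul' p q) x k)
      (Ideal.mul_mem_right (pz I V x) _ (pz_val hp p x k)))
      (Ideal.mul_mem_left _ (U ^ (toZModPow k x).val) (pz_val hp q x k)) using 1
    ring

theorem pz_pz (x y : ℤ_[pp]) : pz I (pz I U x) y = pz I U (x * y) := eq_of fun k => by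
  have := pz_lev hp p (x := x * y) (k := k) (n := (toZModPow k x).val * (toZModPow k y).val)
    (by simp)
  convert sub_mem (add_mem (pz_val hp (pz_n1 hp p x) y k)
    (sub_pow' (pz_val hp p x k) (toZModPow k y).val)) this using 1
  ring

theorem pz_pow (n : ℕ) (x : ℤ_[pp]) : pz I (U ^ n) x = pz I U (n * x) := by
  rw [← pz_nat hp p, pz_pz hp p]

omit [Pp] hp [IsAdicComplete I R] in
theorem n1_star : star U - 1 ∈ Jq a b I := by simpa using Jq_star p

theorem pz_star (x : ℤ_[pp]) : star (pz I U x) = pz I (star U) x := eq_of fun k => by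
  simpa using sub_mem (Jq_star (pz_val hp p x k)) (pz_val hp (n1_star p) x k)

/-- finite order -/
theorem pz_fin (h : U ^ pp ^ k = 1) (e : toZModPow k x = n) : pz I U x = U ^ n := eq_of fun j => by
  have := pz_val hp p x (max j k)
  rw [pow_eq_pow_of_modEq (x := U) ((ZMod.natCast_eq_natCast_iff _ n _).1 (by
    rw [ZMod.natCast_val, cast_toZModPow _ _ (le_max_right j k), e])) h] at this
  exact Jq_mono (Ideal.pow_le_pow_right (by simp)) this

/-- real elements -/
theorem pz_im (h : U.im = 0) (x : ℤ_[pp]) : (pz I U x).im = 0 := by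
  have e : ∀ n : ℕ, (U ^ n).im = 0 := fun n => by
    induction n with
    | zero => rw [pow_zero]; rfl
    | succ n ih => simp [pow_succ, ih, h]
  exact IsHausdorff.haus (I := I) inferInstance _ fun k => by
    rw [SModEq.zero, smul_eq_mul, Ideal.mul_top]
    simpa [e] using Ideal.pow_le_pow_right k.le_succ (pz_val hp p x k).2

omit [Pp] hp [IsAdicComplete I R] in
theorem n1_map {J : Ideal R'} (f : R →+* R') (h : ∀ x ∈ I, f x ∈ J) :
    qm a b f U - 1 ∈ Jq a b J := by simpa using Jq_map f h p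

/-- change of coefficients -/
theorem pz_map {J : Ideal R'} [IsAdicComplete J R'] (f : R →+* R') (h : ∀ x ∈ I, f x ∈ J)
    (x : ℤ_[pp]) : qm a b f (pz I U x) = pz J (qm a b f U) x := eq_of (I := J) fun k => by
  have m : ∀ y ∈ I ^ (k + 1), f y ∈ J ^ (k + 1) := fun y m =>
    Ideal.pow_right_mono (Ideal.map_le_iff_le_comap.2 h) _ (Ideal.map_pow f I _ ▸
      Ideal.mem_map_of_mem f m)
  simpa using sub_mem (Jq_map f m (pz_val hp p x k))
    (pz_val (by simpa using h _ hp) (n1_map p f h) x k)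

/-- a homomorphism which kills a power of the ideal -/
theorem pz_ker (f : R →+* R') (h : ∀ y ∈ I ^ (k + 1), f y = 0) (e : toZModPow k x = n) :
    qm a b f (pz I U x) = qm a b f U ^ n := by
  have := Jq_map (J := ⊥) f h (pz_lev hp p e)
  rw [map_sub, map_pow] at this
  exact sub_eq_zero.1 (QuadraticAlgebra.ext this.1 this.2)

/-- a character from an additive function -/
def ch {G : Type} [Group G] (e : G → ℤ_[pp]) (he : ∀ g h, e (g * h) = e g + e h) :
    G →* Qa a b R where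
  toFun g := pz I U (e g)
  map_one' := by
    have : e 1 = 0 := by simpa using he 1 1
    rw [this, pz_zero hp p]
  map_mul' g h := by rw [he, pz_add hp p]

end Vale.Agent.P014X.Pow
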