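import Vale.Agent.P014X.Fm.St
import Vale.Agent.P014X.Fm.Pts
import Vale.Agent.P014X.Dv.Kit
import Vale.Agent.P014U.Pg.Bas
import Vale.Agent.P004S.Bas3

/-! # P014X, block FAM: the character of the Tate module (row `PSF`) -/

set_option autoImplicit false
set_option linter.all false

open NumberField QuadraticAlgebra
open scoped Classical

noncomputable section

namespace Vale.Agent.P014X.Fm

open Vale.Agent.P022 (Qb GQ)
open Vale.Agent.P027M.S (Inert)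
open Vale.Agent.P022D.W (dec inP_le_dec phi_mem exists_phi)
open Vale.Agent.P022E.GW (Ov Fb)
open Vale.Agent.P014U
open Vale.Agent.P014U.Dr (Zn)
open Vale.Agent.P014U.X4S.Aq (cz)
open PadicInt (toZModPow)
open Psi Ind Dv.Kit

variable [Pp]

namespace Psf

variable {A B : ℤ} {D : Cd A B} {χ : D.G →* Qa D.a D.b ℤ_[pp]} {l : ℕ} {P : Ideal (𝓞 Qb)}

/-- the completion -/
abbrev cp (D : Cd A B) : D.O →+* Qa D.a D.b ℤ_[pp] := qm _ _ (Int.castRingHom ℤ_[pp])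

theorem rd_cp (n : ℕ) (x : D.O) :
    qm _ _ (toZModPow n) (cp D x) = qm _ _ (Int.castRingHom (Zn n)) x :=
  QuadraticAlgebra.ext (map_intCast _ _) (map_intCast _ _)

theorem pw_dvd {a b : ℤ} {n : ℕ} {x y : Qa a b ℤ_[pp]} : (pp : Qa a b ℤ_[pp]) ^ n ∣ x - y ↔
    qm a b (toZModPow n) x = qm a b (toZModPow n) y := by
  rw [← sub_eq_zero, ← map_sub]
  generalize x - y = x
  refine ⟨fun ⟨y, e⟩ => ?_, fun h => ?_⟩
  · rw [e, map_mul, map_pow, map_natCast, ← Nat.cast_pow,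
      ← map_natCast (algebraMap (Zn n) (Qa a b (Zn n))), ZMod.natCast_self, map_zero, zero_mul]
  obtain ⟨u, e⟩ := Pg.dvd_iff.2 (congrArg re h)
  obtain ⟨v, e'⟩ := Pg.dvd_iff.2 (congrArg im h)
  refine ⟨⟨u, v⟩, ?_⟩
  rw [← map_natCast (algebraMap ℤ_[pp] (Qa a b ℤ_[pp])), ← map_pow, ← Algebra.smul_def]
  exact QuadraticAlgebra.ext e e'

theorem lev (ps : D.Ps χ) {n : ℕ} {g : D.G} {β : D.O} (a : D.Ac (pp ^ n) g β) :
    (pp : Qa D.a D.b ℤ_[pp]) ^ n ∣ χ g * cp D (star β) - 1 :=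
  pw_dvd.2 (by rw [map_mul, rd_cp, ps n g β a, map_one])

theorem lim (ps : D.Ps χ) {g : D.G} {β : D.O} (a : ∀ n, D.Ac (pp ^ n) g β) :
    χ g * cp D (star β) = 1 := qm_ext fun n => pw_dvd.1 (lev ps (a n))

theorem nP (o : Ov l P) (h : l ≠ pp) (n : ℕ) : D.j (pp ^ n) ∉ P := by
  rw [← Nat.cast_pow, map_natCast]
  exact Cd.Cf.notMem o fun d =>
    h ((Nat.prime_dvd_prime_iff_eq o.1 Fact.out).1 (o.1.dvd_of_dvd_pow d))

/-- conjugation in the whole group -/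
theorem cnj (C : D.Cf) (j : D.Cj χ) (t : GQ) (g : D.G) : ∃ h : t * g * t⁻¹ ∈ D.G,
    χ ⟨_, h⟩ = χ g ∨ χ ⟨_, h⟩ = star (χ g) := by
  refine ⟨C.nrm.conj_mem _ g.2 t, ?_⟩
  have k (s x : D.G) : χ (s * x * s⁻¹) = χ x := by
    rw [map_mul, map_mul, mul_right_comm, ← map_mul, mul_inv_cancel, map_one, one_mul]
  obtain ⟨s, rfl⟩ | ⟨s, rfl⟩ := cases C t
  · exact .inl (k s g)
  · refine .inr (.trans (congrArg χ (Subtype.ext ?_)) ((k s _).trans (j g)))
    simp only [Subgroup.coe_mul, Subgroup.coe_inv, cg_val C, mul_inv_rev, c_inv C, mul_assoc]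

omit [Pp] in
theorem sq_mem (C : D.Cf) (g : GQ) : g * g ∈ D.G := by
  obtain ⟨s, rfl⟩ | ⟨s, rfl⟩ := cases C g
  · exact (s * s).2
  · rw [mul_assoc, ← mul_assoc D.c, ← cg_val C]
    exact (s * D.cg s).2

theorem ex_inf (o : Ov l P) : ∃ g ∈ dec P, ¬ IsOfFinOrder (cz g) := by
  suffices ∃ g ∈ dec P, Function.Injective fun m : ℕ => (cz g : ℤ_[pp]) ^ m from
    this.imp fun g h => ⟨h.1, fun f => by
      obtain ⟨n, n0, e⟩ := isOfFinOrder_iff_pow_eq_one.1 f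
      exact n0.ne' (h.2 (by simpa using congrArg Units.val e))⟩
  by_cases h : l = pp
  · subst h
    exact (Pg.ex_in o).imp fun g h => ⟨inP_le_dec h.1, h.2⟩
  obtain ⟨φ, f⟩ := exists_phi o.1 o.2.1 o.2.2
  refine ⟨φ, phi_mem o.1 o.2.1 f, fun m n e => Nat.pow_right_injective o.1.two_le ?_⟩
  simp only [Pg.cz_fb o h f] at e
  exact_mod_cast e

end Psf

open Psf

theorem psf : PSF := fun A B D N χ C cg ps => by
  have p0 : pp ≠ 0 := (Fact.out : pp.Prime).ne_zero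
  have ov (l : ℕ) (h : l.Prime) : ∃ P, Ov l P := (P022.H916.exists_prime h).imp fun _ k => ⟨h, k⟩
  refine ⟨Pts.cj ps, fun g => PadicInt.ext_of_toZModPow.1 fun n => ?_, fun n g h => ?_,
    fun M n g M0 d h => ?_, ?_, fun l P i h o t => ?_, fun l P h o d => ?_, fun l h P i o t => ?_,
    fun l P P' i o o' t => ?_, ?_, fun l h => ?_, ov, ?_⟩
  · obtain ⟨β, a⟩ := Cf0.ac_ex (pw_ne (D := D) n) g.2
    have e := congrArg QuadraticAlgebra.norm (ps n g β a)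
    rw [map_mul, map_one, qm_norm, qm_norm, QuadraticAlgebra.norm_star, ← (Cd.Cf.nm_eq β).2,
      map_natCast, ← P014U.Pp.Lcb.ec_eq (C.det (pp ^ n) g β (pow_ne_zero n p0)
        (by rwa [Nat.cast_pow]))] at e
    rw [map_mul, map_one]
    exact e
  · simpa using lev ps (Cd.Cf.hf_iff.1 h)
  · have m0 := nat_ne (D := D) (mul_ne_zero M0 (pow_ne_zero n p0))
    rw [cg.hf _ m0 (Nat.cast_dvd_cast d)] at h
    exact C.hf_mono m0 (by exact_mod_cast Nat.cast_dvd_cast (α := D.O) (dvd_mul_left _ M)) h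
  · have : (D.Hf pp).FiniteIndex := @Subgroup.finiteIndex_of_finite_quotient _ _ _
      ((D.Hf pp).quotient_finite_of_isOpen (C.oH _ (nat_ne p0)))
    exact Subgroup.FiniteIndex.index_ne_zero
  · obtain ⟨ζ, u, z⟩ := in_ac C o t i.2
    have e := lim ps fun n => z _ (pw_ne n) (nP o h n)
    have e1 : cp D (star ζ) ^ 12 = 1 := by rw [← map_pow, C.un _ u.star, map_one]
    have e2 : cp D (star ζ) * star (cp D (star ζ)) = 1 := by
      rw [← algebraMap_norm_eq_mul_star, qm_norm, Cd.Cf.nm_unit u.star, map_one, map_one]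
    have e3 := congrArg star e
    rw [star_mul', star_one] at e3
    exact ⟨(mul_one _).symm.trans (by rw [← e1, ← mul_pow, e, one_pow, e1]),
      (mul_one _).symm.trans (by rw [← e2, mul_mul_mul_comm, e, e3, mul_one, e2])⟩
  · obtain ⟨i, t, z⟩ := cg.neg l P o d
    have a n := z _ (pw_ne n) (nP o h n)
    have m : i ∈ D.G := (a 0).1
    refine ⟨⟨i, m⟩, t, ?_⟩
    have e := lim ps (g := ⟨i, m⟩) a
    rwa [star_neg, star_one, map_neg, map_one, mul_neg_one, neg_eq_iff_eq_neg] at e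
  · obtain ⟨φ, f⟩ := exists_phi o.1 o.2.1 o.2.2
    exact (C.spl l P φ o h f).1 i t
  · obtain ⟨s, k, -⟩ := P004S.ex_conj o' o
    obtain ⟨m, e⟩ := cnj C (Pts.cj ps) s⁻¹ i
    exact ⟨_, by simpa using k i t, e⟩
  · obtain ⟨g, ζ, u, a⟩ := C.onto _ (pw_ne 2) (1 + pp)
      (IsCoprime.pow_right ⟨1, -1, by ring⟩)
    refine ⟨⟨g, a.1⟩, cp D (star ζ), by rw [← map_pow, C.un _ u.star, map_one], ?_⟩
    simpa [mul_assoc] using lev ps (g := ⟨g, a.1⟩) a
  · obtain ⟨P, o⟩ := ov l h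
    obtain ⟨g, d, f⟩ := ex_inf o
    refine ⟨cz (g * g), fun k => f ?_, fun P' o' => ?_⟩
    · rw [map_mul, ← sq] at k
      exact k.of_pow two_ne_zero
    obtain ⟨s, -, k⟩ := P004S.ex_conj o' o
    refine ⟨⟨s⁻¹ * (g * g) * s, C.nrm.conj_mem' _ (sq_mem C g) s⟩, k _ (mul_mem d d), ?_⟩
    rw [map_mul, map_mul, mul_right_comm, ← map_mul, inv_mul_cancel, map_one, one_mul]
  · obtain ⟨l, h, d⟩ := Nat.exists_prime_and_dvd (n := (D.b ^ 2 + 4 * D.a).natAbs) fun e => by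
      have := D.neg
      obtain ⟨x, k⟩ | ⟨x, k⟩ := Int.even_or_odd D.b <;> rw [k] at this e
      · have : (x + x) ^ 2 = 4 * x ^ 2 := by ring
        omega
      · have : (2 * x + 1) ^ 2 = 4 * (x ^ 2 + x) + 1 := by ring
        omega
    exact ⟨l, h, Int.natCast_dvd.2 d⟩

end Vale.Agent.P014X.Fm
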