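import Vale.Agent.P014X.St2
import Vale.Agent.P014U.Pq.All
import Vale.Agent.P014U.Ew.Dic
import Vale.Agent.P014T.Ct.Fin

/-! # P014X, row PZ: the numbers of one curve come from matrices -/

set_option autoImplicit false
set_option linter.all false

open NumberField Matrix Filter Submodule Set
open scoped Classical

noncomputable section

namespace Vale.Agent.P014X

open Vale.Agent.P022 (Qb GQ IsConj)
open Vale.Agent.P022E.GW (Ov)
open Vale.Agent.P014U
open Vale.Agent.P014U.Dr (Zn)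
open Vale.Agent.P014U.Kq (M2)
open Vale.Agent.P014T.Pq (Zq Gd)
open Vale.Agent.P004F (hq)
open Vale.Agent.P004F.Pat (U U_ge)
open Vale.Agent.P014T.Ct (Pr Cl db mp_vec)
open Vale.Agent.P014T.Ba (Kr sp)
open Vale.Agent.P014U.Top (sg)
open Vale.Agent.P014U.Bt (Gp Z0 dd)
open Vale.Agent.P014U.Ew (rj cz xy_co)
open Vale.Agent.P014U.Kx.Tw (co)
open Vale.Agent.P014U.X4M.TE (mt)
open P004M.TE (Pt ga)
open P027M.K (TM)
open PadicInt (toZModPow)

variable [Pp]

namespace Pzm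

/-- limits of `p`-adic integers -/
theorem lim (x : ∀ n, Zn (n + 1)) : ∃ y : ℤ_[pp], ∀ j, ∀ᶠ n in U,
    ∀ f : Zn (n + 1) →+* Zn j, f (x n) = toZModPow j y := by
  obtain ⟨y, -, h⟩ := isCompact_univ.ultrafilter_le_nhds (U.map fun n => ((x n).val : ℤ_[pp]))
    (by simp)
  refine ⟨y, fun j => ?_⟩
  have : ∀ᶠ n in U, dist ((x n).val : ℤ_[pp]) y ≤ (pp : ℝ) ^ (-j : ℤ) :=
    h (Metric.closedBall_mem_nhds y (zpow_pos (Nat.cast_pos.2 pp_pos) _))
  refine this.mono fun n k f => ?_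
  rw [dist_eq_norm, PadicInt.norm_le_pow_iff_mem_span_pow, ← PadicInt.ker_toZModPow,
    RingHom.mem_ker, map_sub, sub_eq_zero, map_natCast] at k
  rw [← k, ← map_natCast f, ZMod.natCast_zmod_val]

theorem limv {I : Type} [Finite I] (x : ∀ n, I → Zn (n + 1)) : ∃ y : I → ℤ_[pp], ∀ j, ∀ᶠ n in U,
    ∀ f : Zn (n + 1) →+* Zn j, f ∘ x n = toZModPow j ∘ y := by
  choose y h using fun i => lim fun n => x n i
  exact ⟨y, fun j => (eventually_all.2 fun i => h i j).mono fun n k f => funext fun i => k i f⟩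

theorem sp_eq {I : Type} {j : ℕ} (a b : I → Zn j) : sp a b = Nat.card (span (Zn j) {a, b}) := by
  have k (x : I → Zn j) : (span (Zn j) {x}).toAddSubgroup = AddSubgroup.zmultiples x :=
    le_antisymm (fun y h => by
      obtain ⟨s, rfl⟩ := mem_span_singleton.1 h
      rw [← ZMod.natCast_zmod_val s, Nat.cast_smul_eq_nsmul]
      exact nsmul_mem (AddSubgroup.mem_zmultiples _) _)
      (AddSubgroup.zmultiples_le.2 (mem_span_singleton_self x))
  rw [sp, ← k, ← k, ← sup_toAddSubgroup, ← span_insert]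
  rfl

variable {A B : ℤ} {D : Cd A B} {N M : ℕ}

theorem pw_ne (D : Cd A B) (n : ℕ) : (pp ^ n : D.O) ≠ 0 := fun k => pow_ne_zero n pp_ne (by
  rw [← Nat.cast_pow] at k
  exact Int.natCast_eq_zero.1 (congrArg QuadraticAlgebra.re k))

variable (cf : D.Cf)
include cf

theorem rj_one {n : ℕ} {g : GQ} (h : g ∈ D.Hf (pp ^ n)) : rj (hq D.el) n g = 1 := by
  have X := xy_co (hq D.el) n
  have e := pw_ne D n
  refine Matrix.ext_of_mulVec_single fun i => X.inj ?_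
  obtain ⟨x, hx⟩ := (cf.gen _ e _).1 ((cf.tr _ e _).2 (show D.act (pp ^ n) (co (hq D.el) n
    (Pi.single i 1)) = 0 by
      rw [← Nat.cast_pow, map_natCast, AddMonoid.End.natCast_apply]; exact Ew.e_tor _ _))
  rw [X.act, one_mulVec]
  exact (congrArg _ hx).trans ((cf.lin g h.1 _ _).trans ((congrArg _ h.2).trans hx.symm))

theorem gd (cg : D.Cg N) (fm : D.Fm N M) (n : ℕ) : Gd ⊤ (Sb M) (rj (hq D.el) n) := by
  have e := pw_ne D n
  refine ⟨isOpen_univ, inferInstance, fun l m => (Finset.mem_insert.1 m).elim (· ▸ pp_prime)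
    Nat.prime_of_mem_primeFactors, map_one _, fun g _ h _ => map_mul _ g h,
    ⟨_, cf.oH _ e, fun g _ => rj_one cf⟩, fun g _ ⟨l, m, P, o, i⟩ => rj_one cf ?_⟩
  have c : l.Coprime pp := (Nat.coprime_primes o.1 pp_prime).2 fun k =>
    m (k ▸ Finset.mem_insert_self ..)
  refine cf.good l P g o (fun k => ?_) i _ e fun k => ?_
  · obtain ⟨a, d⟩ := fm.dv
    exact m (Finset.mem_insert_of_mem (Nat.mem_primeFactors.2 ⟨o.1,
      (c.pow_right a).dvd_of_dvd_mul_right (((cg.pf l o.1).2 k).trans d), fm.ne⟩))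
  · rw [map_pow, map_natCast] at k
    exact o.2.1.ne_top (P.eq_top_of_isUnit_mem ((Nat.isCoprime_iff_coprime.2 c).intCast.elim
      fun a ⟨b, e⟩ => e ▸ add_mem (P.mul_mem_left _ (by simpa using o.2.2))
        (P.mul_mem_left _ (by simpa using o.2.1.mem_of_pow_mem _ k))) isUnit_one)

omit cf in
theorem rj_map (D : Cd A B) {j n : ℕ} (le : j ≤ n) (f : Zn n →+* Zn j) :
    (fun g => (rj (hq D.el) n g).map f) = rj (hq D.el) j := by
  obtain rfl : f = ZMod.castHom (pow_dvd_pow pp le) (Zn j) := Subsingleton.elim _ _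
  exact funext fun g => Matrix.ext fun s t =>
    DFunLike.congr_fun (PadicInt.zmod_cast_comp_toZModPow j n le) _

/-- presentations of constant size -/
theorem prs (cg : D.Cg N) (fm : D.Fm N M) (ax : D.Ax M) (hc : IsConj D.c) : ∃ r, ∀ n,
    ∃ (Q : Matrix (Fin r) (Fin (r + 2)) (Zn (n + 1))), ∃ u,
      Pr (rj (hq D.el) (n + 1)) (Sb M) D.c Q u := by
  let π : Zn 1 →+* ZMod pp := ZMod.castHom (dvd_pow_self pp one_ne_zero) _
  have H : ∀ n, ∃ r, (∃ (Q : Matrix (Fin r) (Fin (r + 2)) (Zn (n + 1))), ∃ u,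
      Pr (rj (hq D.el) (n + 1)) (Sb M) D.c Q u) ∧
      Nat.card (Zq (ZMod pp) (Sb M) (fun g => (rj (hq D.el) 1 g).map π) D.c) = pp ^ (r + 2) := fun n => by
    have : Fact (1 < pp ^ (n + 1)) := ⟨Nat.one_lt_pow n.succ_ne_zero one_lt⟩
    have : IsLocalRing (Zn (n + 1)) :=
      .of_surjective' (toZModPow (p := pp) (n + 1)) (ZMod.ringHom_surjective _)
    let f : Zn (n + 1) →+* Zn 1 := ZMod.castHom (pow_dvd_pow pp n.succ_pos) _
    have e g : (rj (hq D.el) (n + 1) g).map (π.comp f) = (rj (hq D.el) 1 g).map π :=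
      congrArg (·.map π) (congrFun (rj_map D n.succ_pos f) g)
    obtain ⟨l, l1, P, o, k⟩ := ax
    obtain ⟨r, Q, u, -, p, h3⟩ := Pq.presq (π := π.comp f) (by simp) (gd cf cg fm (n + 1))
      (Finset.mem_insert_self ..) hc (.inr ⟨l, Finset.mem_insert_of_mem l1,
        fun q => fm.cop (q ▸ Nat.dvd_of_mem_primeFactors l1), P, o, fun g m => by
          rw [e, rj_one cf (by simpa using k g m), Matrix.map_one _ (map_zero _) (map_one _)]⟩)
    simp only [e] at h3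
    exact ⟨r, ⟨Q, u, p⟩, h3⟩
  obtain ⟨r, -, k⟩ := H 0
  refine ⟨r, fun n => ?_⟩
  obtain ⟨r', a, k'⟩ := H n
  obtain rfl : r = r' := by simpa using Nat.pow_right_injective pp_prime.two_le (k.symm.trans k')
  exact a

/-- the limit -/
theorem core (cg : D.Cg N) (fm : D.Fm N M) (ax : D.Ax M) (hc : IsConj D.c) {gp : Fin 2 → ℤ_[pp]}
    (fx : mt (hq D.el) D.c *ᵥ gp = gp) (pv : ∃ i, IsUnit (gp i)) {z : ℕ → GQ → Pt A B}
    (hz : ∀ n, z n ∈ Z0 A B (Sb M) D.c ∧ pp ^ n • z n = 0) :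
    ∃ (r : ℕ) (Q : Matrix (Fin r) (Fin (r + 2)) ℤ_[pp]) (v w : Fin (r + 2) → ℤ_[pp]),
      Q *ᵥ v = 0 ∧ Q *ᵥ w = 0 ∧ ∀ j, ∃ n, j ≤ n ∧ ∀ γ, Gp A B D.c γ →
        Top.cz A B (Sb M) D.c j = Nat.card (Kr (Q.map (toZModPow j))) ∧
        sg γ n j (z n) = Nat.card (span (Zn j) {toZModPow j ∘ v, toZModPow j ∘ w}) := by
  obtain ⟨r, H⟩ := prs cf cg fm ax hc
  choose Q u hP using H
  have k : ∀ n, ∃ v w, Cl (Q n) (u n) v (db (rj (hq D.el) (n + 1)) (toZModPow _ ∘ gp)) ∧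
      Q n *ᵥ w = 0 ∧ cz (co (hq D.el) (n + 1)) (fun g => u n g *ᵥ w) = z (n + 1) := fun n => by
    have X := xy_co (hq D.el) (n + 1)
    have G := gd cf cg fm (n + 1)
    obtain ⟨x, hx⟩ := X.cz_ex fun g => congrFun (hz (n + 1)).2 g
    obtain ⟨w, w1, w2⟩ := (hP n _).surjOn (X.zq_iff.2 (hx ▸ (hz (n + 1)).1))
    obtain ⟨v, v1, v2⟩ := (hP n _).surjOn (show db (rj (hq D.el) (n + 1)) (toZModPow _ ∘ gp) ∈ _ from
      ⟨fun g g' => by
        show _ *ᵥ _ = _ *ᵥ _ + _ *ᵥ _ *ᵥ _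
        rw [mulVec_mulVec, ← add_mulVec, map_mul, mul_sub_one, sub_add_sub_cancel'],
      G.lc.imp fun W e => ⟨e.1, fun w a => by simp [db, e.2 w trivial a]⟩,
      fun g a => by simp [db, G.unr g trivial a], by
        rw [db, sub_mulVec, one_mulVec, Ew.rj_apply, mp_vec, fx, sub_self]⟩)
    exact ⟨v, w, ⟨v1, congrFun v2⟩, w1, (congrArg _ w2).trans hx⟩
  choose v w k using k
  obtain ⟨Q₀, q⟩ := limv fun n (x : Fin r × Fin (r + 2)) => Q n x.1 x.2
  obtain ⟨v₀, a⟩ := limv v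
  obtain ⟨w₀, b⟩ := limv w
  have H j : ∃ n, j ≤ n ∧ ∀ f : Zn (n + 1) →+* Zn j,
      (Q n).map f = (of fun s t => Q₀ (s, t)).map (toZModPow j) ∧ f ∘ v n = toZModPow j ∘ v₀ ∧
        f ∘ w n = toZModPow j ∘ w₀ :=
    ((U_ge j).and ((q j).and ((a j).and (b j)))).exists.imp fun n e => ⟨e.1, fun f =>
      ⟨Matrix.ext fun s t => congrFun (e.2.1 f) (s, t), e.2.2.1 f, e.2.2.2 f⟩⟩
  have z0 : ∀ (y : ∀ n, Fin (r + 2) → Zn (n + 1)) (y₀ : Fin (r + 2) → ℤ_[pp]), (∀ n, Q n *ᵥ y n = 0) →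
      (∀ j, ∀ᶠ n in U, ∀ f : Zn (n + 1) →+* Zn j, f ∘ y n = toZModPow j ∘ y₀) →
      (of fun s t => Q₀ (s, t)) *ᵥ y₀ = 0 := fun y y₀ h1 h2 => funext fun i =>
    PadicInt.ext_of_toZModPow.1 fun j => by
      obtain ⟨n, le, e1, e2⟩ := ((U_ge j).and ((q j).and (h2 j))).exists
      let f : Zn (n + 1) →+* Zn j := ZMod.castHom (pow_dvd_pow pp (le.trans n.le_succ)) _
      have := mp_vec f (Q n) (y n)
      rw [h1, e2, show (Q n).map f = (of fun s t => Q₀ (s, t)).map (toZModPow j) from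
        Matrix.ext fun s t => congrFun (e1 f) (s, t), mp_vec] at this
      exact (congrFun this i).trans ((map_zero f).trans (map_zero _).symm)
  refine ⟨r, _, v₀, w₀, z0 v _ (fun n => (k n).1.1) a, z0 w _ (fun n => (k n).2.1) b, fun j => ?_⟩
  obtain ⟨n, le, e⟩ := H j
  have le' := le.trans n.le_succ
  refine ⟨n + 1, le', fun γ G => ?_⟩
  let f : Zn (n + 1) →+* Zn j := ZMod.castHom (pow_dvd_pow pp le') _
  obtain ⟨e1, e2, e3⟩ := e f
  obtain ⟨k1, k2⟩ := Ew.fin (hq D.el) D.el hc fx pv _ _ (rj_map D le' f ▸ (hP n).bc f)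
    (v := f ∘ v n) (w := f ∘ w n) (by rw [mp_vec, (k n).1.1]; exact funext fun _ => map_zero _)
    (by rw [mp_vec, (k n).2.1]; exact funext fun _ => map_zero _) (fun g => by
      rw [mp_vec, (k n).1.2, db, ← mp_vec, Matrix.map_sub _ (map_sub _),
        Matrix.map_one _ (map_zero _) (map_one _), congrFun (rj_map D le' f) g]
      exact congrArg _ (funext fun _ =>
        DFunLike.congr_fun (PadicInt.zmod_cast_comp_toZModPow j _ le') _)) G
  simp only [mp_vec] at k2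
  rw [Ew.cz_red _ le', (k n).2.2, sp_eq, e2, e3] at k2
  exact ⟨(e1 ▸ k1).symm, k2.symm⟩

end Pzm

end Vale.Agent.P014X
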