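import Vale.Agent.P014X.Fm.Pow

/-! # P014X, block FAM: the families of characters (words and rows) -/

set_option autoImplicit false
set_option linter.all false

open NumberField IsLocalRing
open scoped Classical

noncomputable section

namespace Vale.Agent.P014X.Fm

open Vale.Agent.P022 (Qb GQ)
open Vale.Agent.P027M.S (Inert)
open Vale.Agent.P022D.W (dec)
open Vale.Agent.P022E.GW (Ov Fb)
open Vale.Agent.P014U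
open Vale.Agent.P014U.X4S.Aq (cz)
open PadicInt (toZModPow toZMod)
open Pow (pz Jq)
open Multiplicative (ofAdd)

variable [Pp]

/-- **the units of the completed order** -/
structure Dc (a b : ℤ) where
  θ : (Qa a b ℤ_[pp])ˣ →* Qa a b ℤ_[pp]
  φ : (Qa a b ℤ_[pp])ˣ →* Qa a b ℤ_[pp]
  ep : (Qa a b ℤ_[pp])ˣ →* Multiplicative ℤ_[pp]
  em : (Qa a b ℤ_[pp])ˣ →* Multiplicative ℤ_[pp]
  y : (Qa a b ℤ_[pp])ˣ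
  y₁ : (Qa a b ℤ_[pp])ˣ
  h₁ : (y₁ : Qa a b ℤ_[pp]) = 1 + pp
  yn : y * star y = 1
  ne : y ≠ star y
  sm : (pp : Qa a b ℤ_[pp]) ^ 2 ∣ (y - 1) ^ (pp - 1)
  apx : ∀ u (j m n : ℕ), toZModPow j (ep u).toAdd = m → toZModPow j (em u).toAdd = n →
    (pp : Qa a b ℤ_[pp]) ^ j ∣ u - θ u * φ u * y₁ ^ m * y ^ n
  ord : ∃ n, ¬ pp ∣ n ∧ ∀ u, θ u ^ n = 1
  cub : ∀ u, φ u = 1 ∨ pp = 3 ∧ φ u * star (φ u) = 1 ∧ φ u + star (φ u) = -1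
  unr : ¬ (pp : ℤ) ∣ b ^ 2 + 4 * a → φ = 1
  st : ∀ u, θ (star u) = star (θ u) ∧ φ (star u) = star (φ u) ∧ ep (star u) = ep u ∧
    em (star u) = (em u)⁻¹
  cont : ∀ (u : (Qa a b ℤ_[pp])ˣ) (j : ℕ), (pp : Qa a b ℤ_[pp]) ^ (j + 1) ∣ u - 1 →
    θ u = 1 ∧ (pp : ℤ_[pp]) ^ j ∣ (ep u).toAdd ∧ (pp : ℤ_[pp]) ^ j ∣ (em u).toAdd ∧ φ u = 1
  g1 : θ y₁ = 1 ∧ φ y₁ = 1 ∧ ep y₁ = ofAdd 1 ∧ em y₁ = 1
  g2 : θ y = 1 ∧ φ y = 1 ∧ ep y = 1 ∧ em y = ofAdd 1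
  fin : ∀ u, ep u = 1 → IsOfFinOrder (u * star u)

section

variable {A B : ℤ} (D : Cd A B)

/-- all inertia groups at `l` are in the group of the quadratic field -/
def Ur (l : ℕ) : Prop := ∀ P i, Ov l P → Inert P i → i ∈ D.G

/-- **what is used of the character of the Tate module** -/
structure Pf (N : ℕ) (χ : D.G →* Qa D.a D.b ℤ_[pp]) : Prop where
  cj : D.Cj χ
  nm : ∀ g : D.G, (χ g).norm * cz g = 1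
  hf : ∀ (n : ℕ) (g : D.G), g.1 ∈ D.Hf (pp ^ n) → (pp : Qa D.a D.b ℤ_[pp]) ^ n ∣ χ g - 1
  hm : ∀ (M n : ℕ) (g : D.G), M ≠ 0 → N ∣ M * pp ^ n → g.1 ∈ D.Hm (D.mp M n) → g.1 ∈ D.Hf (pp ^ n)
  idx : (D.Hf pp).relIndex D.G ≠ 0
  ine : ∀ l P (i : D.G), l ≠ pp → Ov l P → Inert P i.1 → χ i ^ 12 = 1 ∧ χ i * star (χ i) = 1
  neg : ∀ l P, l ≠ pp → Ov l P → (l : ℤ) ∣ D.b ^ 2 + 4 * D.a → ∃ i : D.G, Inert P i.1 ∧ χ i = -1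
  ur : ∀ l : ℕ, ¬ (l : ℤ) ∣ D.b ^ 2 + 4 * D.a → Ur D l
  cnj : ∀ l P P' (i : D.G), Ov l P → Ov l P' → Inert P i.1 →
    ∃ i' : D.G, Inert P' i'.1 ∧ (χ i' = χ i ∨ χ i' = star (χ i))
  on : ∃ (g : D.G) (ζ : Qa D.a D.b ℤ_[pp]), ζ ^ 12 = 1 ∧
    (pp : Qa D.a D.b ℤ_[pp]) ^ 2 ∣ χ g * ζ * (1 + pp) - 1
  ns : ∀ l : ℕ, l.Prime → ∃ c : ℤ_[pp]ˣ, ¬ IsOfFinOrder c ∧ ∀ P, Ov l P → ∃ g : D.G, g.1 ∈ dec P ∧ cz g = c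
  ov : ∀ l : ℕ, l.Prime → ∃ P, Ov l P
  ram : ∃ l : ℕ, l.Prime ∧ (l : ℤ) ∣ D.b ^ 2 + 4 * D.a

/-- **the parts of the character** -/
structure Gx {T : Type} [CommRing T] [StarRing T] (M k : ℕ) (θ φ : D.G →* T)
    (ep em : D.G →* Multiplicative ℤ_[pp]) : Prop where
  k1 : 1 ≤ k
  ord : ∃ n, ¬ pp ∣ n ∧ ∀ g, θ g ^ n = 1
  cub : ∀ g, φ g = 1 ∨ pp = 3 ∧ φ g * star (φ g) = 1 ∧ φ g + star (φ g) = -1
  cj : ∀ g, θ (D.cg g) = star (θ g) ∧ φ (D.cg g) = star (φ g) ∧ ep (D.cg g) = ep g ∧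
    em (D.cg g) = (em g)⁻¹
  tr : ∀ j, ∃ n, ∀ g : D.G, g.1 ∈ D.Hm (D.mp M n) → θ g = 1 ∧ φ g = 1 ∧
    (pp : ℤ_[pp]) ^ j ∣ (ep g).toAdd ∧ (pp : ℤ_[pp]) ^ j ∣ (em g).toAdd
  idx : θ.ker.index ≠ 0
  ine : ∀ l ∈ M.primeFactors, ∀ P (i : D.G), Ov l P → Inert P i.1 →
    ep i = 1 ∧ em i = 1 ∧ θ i * star (θ i) = 1
  cnj : ∀ l P P' (i : D.G), Ov l P → Ov l P' → Inert P i.1 →
    ∃ i' : D.G, Inert P' i'.1 ∧ (φ i' = φ i ∨ φ i' = star (φ i))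
  sg : (∀ l ∈ M.primeFactors, Ur D l) ∨ (∃ ι, θ ι = -1 ∧ φ ι = 1 ∧ ep ι = 1) ∧
    ∀ l ∈ M.primeFactors, Ur D l ∨ ∃ P, ∃ i : D.G, Ov l P ∧ Inert P i.1 ∧ θ i = -1
  inf : ∀ g : D.G, ep g = 1 → IsOfFinOrder (cz g)
  opn : ∃ (P : Ideal (𝓞 Qb)) (t : ℕ) (g₁ g₂ : D.G), Ov pp P ∧ t ≤ k ∧ g₁.1 ∈ dec P ∧ g₂.1 ∈ dec P ∧
    (θ g₁ = 1 ∧ φ g₁ = 1 ∧ ep g₁ = ofAdd ((pp ^ t : ℕ) : ℤ_[pp]) ∧ em g₁ = 1 ∧
      (cz g₁ : ℤ_[pp]) * (1 + pp) ^ (2 * pp ^ t) = 1) ∧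
    θ g₂ = 1 ∧ φ g₂ = 1 ∧ ep g₂ = 1 ∧ em g₂ = ofAdd ((pp ^ t : ℕ) : ℤ_[pp]) ∧ cz g₂ = 1
  aux : ∃ l ∈ M.primeFactors, ∃ Q, Ov l Q ∧ ∀ g ∈ dec Q, ∃ h : g ∈ D.G,
    θ ⟨g, h⟩ = 1 ∧ toZMod (cz g : ℤ_[pp]) = 1
  on : ∃ g, IsUnit (ep g).toAdd
  ns : ∀ l ∈ Sb M, ∀ P, Ov l P → ∃ g : D.G, g.1 ∈ dec P ∧ ¬ (pp : ℤ_[pp]) ^ k ∣ (ep g).toAdd

end

variable {k : ℕ}

/-- the generators -/
structure Uy (C : Cr k) (a b : ℤ) where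
  y : Qa a b C.O
  z : Qa a b C.O
  w : C.O
  k1 : 1 ≤ k
  du : IsUnit (b ^ 2 + 4 * a : C.O)
  hw : (C.pb.gen - 1) * w = pp
  hz : y - 1 = (C.pb.gen - 1) ^ (pp ^ k + 2) • z
  yn : y * star y = 1
  ne : y ≠ star y

namespace Uy

variable {C : Cr k} {a b : ℤ} (x : Uy C a b)

/-- from `1 + pp` to the root of unity -/
def up : Qa a b C.R := algebraMap C.R _ (PowerSeries.C (1 + pp : C.O) +
  PowerSeries.C (1 - x.w) * PowerSeries.X)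

/-- from `1 + y` to two -/
def Y : Qa a b C.R := qm a b PowerSeries.C (1 + x.y) -
  (PowerSeries.X : C.R) • qm a b PowerSeries.C ((C.pb.gen - 1) ^ (pp ^ k + 1) • x.z)

/-- from `y` to one -/
def um : Qa a b C.R := x.Y * Ring.inverse (star x.Y)

end Uy

/-- `lam` is an eigenvector with primitive trace -/
def Lu {R : Type} [CommRing R] {a b : ℤ} (lam : Qa a b R) : Prop :=
  IsUnit (lam.im * (2 * lam.re + b * lam.im))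

/-- **the decomposition over the cyclotomic integers** -/
structure Bd {A B : ℤ} (D : Cd A B) (C : Cr k) (a b : ℤ) (M : ℕ) (χ : D.G →* Qa a b C.O)
    extends Uy C a b where
  θ : D.G →* Qa a b C.O
  φ : D.G →* Qa a b C.O
  φ₁ : D.G →* C.O
  ep : D.G →* Multiplicative ℤ_[pp]
  em : D.G →* Multiplicative ℤ_[pp]
  lam : Qa a b C.O
  gx : Gx D M k θ φ ep em
  lu : Lu lam
  lx : ∀ g, lam * φ g = φ₁ g • lam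
  eq : ∀ g, χ g = θ g * φ g * pz (maximalIdeal C.O) (1 + pp) (ep g).toAdd *
    pz (maximalIdeal C.O) y (em g).toAdd

namespace Bd

variable {A B : ℤ} {D : Cd A B} {C : Cr k} {a b : ℤ} {M : ℕ} {χ : D.G →* Qa a b C.O}
  (x : Bd D C a b M χ)

/-- the group generated by `θ` and its conjugate -/
def In (f : D.G →* Qa a b C.O) : Prop := ∃ u v : ℕ, ∀ g, f g = x.θ g ^ u * star (x.θ g) ^ v

/-- the sign condition -/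
def Od (f : D.G →* Qa a b C.O) : Prop :=
  (∀ l ∈ M.primeFactors, Ur D l) ∨ ∀ g, x.θ g = -1 → f g = -1

/-- `F` is the family of `f` -/
def Fq (f : D.G →* Qa a b C.O) (F : D.G →* Qa a b C.R) : Prop := ∀ g, F g =
  qm a b PowerSeries.C (f g * x.φ g) * pz (maximalIdeal C.R) x.up (x.ep g).toAdd *
    pz (maximalIdeal C.R) x.um (x.em g).toAdd

end Bd

/-! ## rows: the curve -/

/-- an odd ramified prime is the discriminant -/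
def DSC : Prop := ∀ A B (D : Cd A B), (pp : ℤ) ∣ D.b ^ 2 + 4 * D.a → D.b ^ 2 + 4 * D.a = -pp

def DEC : Prop := ∀ a b : ℤ, ((pp : ℤ) ∣ b ^ 2 + 4 * a → b ^ 2 + 4 * a = -pp) → Nonempty (Dc a b)

def PSF : Prop := ∀ A B (D : Cd A B) N χ, D.Cf → D.Cg N → D.Ps χ → Pf D N χ

/-- the image of a decomposition group is open -/
def OPN : Prop := ∀ A B (D : Cd A B) N χ P, D.Cf → D.Cg N → D.Ps χ → Ov pp P → ∃ t : ℕ,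
  ∀ u : Qa D.a D.b ℤ_[pp], (pp : Qa D.a D.b ℤ_[pp]) ^ t ∣ u - 1 → ∃ g : D.G, g.1 ∈ dec P ∧ χ g = u

/-- the tame level -/
def AUX : Prop := ∀ A B (D : Cd A B) N (M₀ : ℕ), D.Cf → D.Cg N → M₀ ≠ 0 →
  ∃ M, D.Fm N M ∧ (∃ n, M₀ ∣ M * pp ^ n) ∧ D.Ax M

def GXX : Prop := ∀ A B (D : Cd A B) N M χ (x : Dc D.a D.b), D.Cf → D.Cg N → D.Ps χ → D.Fm N M →
  D.Ax M → ∃ k, Gx D M k (x.θ.comp χ.toHomUnits) (x.φ.comp χ.toHomUnits)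
    (x.ep.comp χ.toHomUnits) (x.em.comp χ.toHomUnits)

/-! ## rows: the coefficients -/

def EMB : Prop := ∀ A B (D : Cd A B) k (C : Cr k), ∃ (a b : ℤ)
  (e : Qa D.a D.b ℤ_[pp] →+* Qa a b C.O) (lam : Qa a b C.O) (ev : Qa D.a D.b ℤ_[pp] →* C.O),
  IsUnit (b ^ 2 + 4 * a : C.O) ∧ D.Em C e ∧ Lu lam ∧
  ∀ u, (pp : ℤ) ∣ D.b ^ 2 + 4 * D.a ∨ u = 1 → lam * e u = ev u • lam

/-- the reduction has no nilpotent elements -/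
def SML : Prop := ∀ k (C : Cr k) (a b : ℤ) (u : Qa a b C.O) (m n : ℕ),
  IsUnit (b ^ 2 + 4 * a : C.O) → n ≠ 0 → (∃ v, u ^ n = (C.pb.gen - 1) ^ (m * n) • v) →
  ∃ z, u = (C.pb.gen - 1) ^ m • z

def BDX : Prop := ∀ A B (D : Cd A B) M (χ : D.G →* Qa D.a D.b ℤ_[pp]) (x : Dc D.a D.b) k (C : Cr k)
  (a b : ℤ) (e : Qa D.a D.b ℤ_[pp] →+* Qa a b C.O) lam (ev : Qa D.a D.b ℤ_[pp] →* C.O),
  Gx D M k (x.θ.comp χ.toHomUnits) (x.φ.comp χ.toHomUnits) (x.ep.comp χ.toHomUnits)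
    (x.em.comp χ.toHomUnits) → IsUnit (b ^ 2 + 4 * a : C.O) → D.Em C e → Lu lam →
  (∀ u, (pp : ℤ) ∣ D.b ^ 2 + 4 * D.a ∨ u = 1 → lam * e u = ev u • lam) →
  Nonempty (Bd D C a b M (e.toMonoidHom.comp χ))

/-- the ends of the path -/
def UN1 : Prop := ∀ k (C : Cr k) (a b : ℤ) (x : Uy C a b),
  x.up - 1 ∈ Jq a b (maximalIdeal C.R) ∧ x.um - 1 ∈ Jq a b (maximalIdeal C.R) ∧
  star x.up = x.up ∧ x.um * star x.um = 1 ∧ IsUnit x.Y ∧ ∀ e, C.Ev e →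
    (e PowerSeries.X = 0 → qm a b e x.up = 1 + pp ∧ qm a b e x.um = x.y) ∧
    (e PowerSeries.X = C.pb.gen - 1 → qm a b e x.up = algebraMap C.O _ C.pb.gen ∧ qm a b e x.um = 1)

/-- modulo the uniformiser -/
def UMU : Prop := ∀ k (C : Cr k) (a b : ℤ) (x : Uy C a b) (c : Qa a b C.O) (s s' : ℤ_[pp]),
  IsUnit c → s ≠ 0 → ¬ PowerSeries.C (C.pb.gen - 1) ∣ (qm a b PowerSeries.C c *
    pz (maximalIdeal C.R) x.up s * pz (maximalIdeal C.R) x.um s' - 1).norm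

/-- modulo the other primes -/
def UBD : Prop := ∀ k (C : Cr k) (a b : ℤ) (x : Uy C a b) (I : Ideal C.R) (t : ℕ) (c : ℤ_[pp]),
  I.IsPrime → I ≠ maximalIdeal C.R → t ≤ k → c * (1 + pp) ^ (2 * pp ^ t) = 1 →
  (x.um ^ pp ^ t - 1).norm ∉ I ∨
    (x.up ^ pp ^ t - 1).norm * (algebraMap ℤ_[pp] C.R c • x.up ^ pp ^ t - 1).norm ∉ I

/-! ## rows: the families and the anchor -/

/-- the fields `cj tr aux mu bad`, given `loc` -/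
def GFA : Prop := ∀ A B (D : Cd A B) k (C : Cr k) a b M χ (x : Bd D C a b M χ) (t : Tl C.R) f F,
  x.In f → x.Fq f F →
  (∀ l ∈ M.primeFactors, (∃ P, ∃ i : D.G, Ov l P ∧ Inert P i.1 ∧ IsUnit (F i - 1)) ∨
    (∀ P i, Ov l P → Inert P i → ∃ h : i ∈ D.G, F ⟨i, h⟩ = 1) ∨
    (∀ P i, Ov l P → Inert P i → ∃ h : i ∈ D.G, F ⟨i, h⟩ ^ pp = 1) ∧
      ∀ P, Ov l P → ∃ i : D.G, Inert P i.1 ∧ (F i - 1).norm ∣ pp) → D.Gf t M F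

/-- the field `loc` -/
def LOC : Prop := ∀ A B (D : Cd A B) k (C : Cr k) a b M χ (x : Bd D C a b M χ) f F,
  x.In f → x.Od f → x.Fq f F →
  ∀ l ∈ M.primeFactors, (∃ P, ∃ i : D.G, Ov l P ∧ Inert P i.1 ∧ IsUnit (F i - 1)) ∨
    (∀ P i, Ov l P → Inert P i → ∃ h : i ∈ D.G, F ⟨i, h⟩ = 1) ∨
    (∀ P i, Ov l P → Inert P i → ∃ h : i ∈ D.G, F ⟨i, h⟩ ^ pp = 1) ∧
      ∀ P, Ov l P → ∃ i : D.G, Inert P i.1 ∧ (F i - 1).norm ∣ pp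

/-- the group of characters -/
def GRP : Prop := ∀ (G R : Type) [Group G] [CommRing R] [IsDomain R] [CharZero R] (a b : ℤ)
  (θ : G →* Qa a b R) (n : ℕ), ¬ pp ∣ n → (∀ g, θ g ^ n = 1) → θ.ker.index ≠ 0 →
  (∀ g, ∃ g', θ g' = star (θ g)) →
  ∃ I : Finset (G →* Qa a b R), (∀ f, f ∈ I ↔ ∃ u v : ℕ, ∀ g, f g = θ g ^ u * star (θ g) ^ v) ∧
    I.card = (⨅ f ∈ I, f.ker).index ∧ ¬ pp ∣ I.card ∧
    ∀ g, (∃ f ∈ I, f g ≠ 1) → ∑ f ∈ I, f g = 0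

/-- the anchor -/
def ANX : Prop := ∀ A B (D : Cd A B) k (C : Cr k) a b M χ (x : Bd D C a b M χ),
  ∃ y : D.An C a b M, (∀ f ∈ y.J, x.In f ∧ x.Od f) ∧ x.θ ∈ y.J ∧ ∀ g, y.ξ g =
    x.φ g * pz (maximalIdeal C.O) (algebraMap C.O (Qa a b C.O) C.pb.gen) (x.ep g).toAdd

end Vale.Agent.P014X.Fm
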