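import Vale.Agent.P014X.Fm.Pts

/-! # P014X: transport to the twist -/

set_option autoImplicit false
set_option linter.all false

open QuadraticAlgebra Function
open scoped Classical

noncomputable section

namespace Vale.Agent.P014X.Pts

open Vale.Agent.P022 (Qb GQ)
open Vale.Agent.P014U
open Vale.Agent.P014U.Dr (Zn)
open Vale.Agent.P014U.Pp (ec)
open P004M.TE (Pt ga ga_mul ga_one)
open PadicInt (toZModPow)
open Cf0 Fm.Psi

variable [Pp] {A B A' B' : ℤ} {D : Cd A B} {D' : Cd A' B'} {e : D.O ≃+* D'.O}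
  {i : Pt A B ≃+ Pt A' B'} {R : Type} [CommRing R] {N n : ℕ} {α m β : D.O}

/-- the class without the curve -/
def zz (G H : Subgroup GQ) (u : Qb) (ι : Zn N →+* R) (χ : G →* R) (g : G) : R :=
  ∑ᶠ x : G ⧸ H.subgroupOf G,
    ι (ec N x.out.1) * χ x.out * ι (kum N u (x.out⁻¹ * g * (g⁻¹ • x).out).1)

theorem zc_zz (ι : Zn N →+* R) (χ : D.G →* R) (g : D.G) :
    D.zc α m ι χ g = zz D.G (D.Hm m) (D.un α m) ι χ g := rfl

theorem zz_congr {G G' H : Subgroup GQ} (h : G' = G) {u : Qb} {ι : Zn N →+* R} {χ : G →* R}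
    {χ' : G' →* R} (k : ∀ (g : G) (g' : G'), g'.1 = g.1 → χ' g' = χ g) {g : G} {g' : G'}
    (c : g'.1 = g.1) : zz G' H u ι χ' g' = zz G H u ι χ g := by
  subst h
  rw [MonoidHom.ext fun g => k g g rfl, Subtype.ext c]

variable (T : Tw D D' e i)
include T

omit [Pp] in
theorem tw_ac (m0 : m ≠ 0) {g : GQ} : D'.Ac (e m) g (e β) ↔ D.Ac m g β := by
  rw [Cd.Ac, Cd.Ac, T.G, T.tp m m0, T.act]
  exact and_congr_right fun h => by rw [T.g1 g h, i.apply_eq_iff_eq]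

omit [Pp] in
theorem tw_hm (m0 : m ≠ 0) : D'.Hm (e m) = D.Hm m :=
  congrArg Subgroup.closure (Set.ext fun g => ⟨fun ⟨ζ, u, a⟩ => ⟨e.symm ζ, u.map e.symm,
    (tw_ac T m0).1 (by rwa [e.apply_symm_apply])⟩, fun ⟨ζ, u, a⟩ => ⟨_, u.map e, (tw_ac T m0).2 a⟩⟩)

theorem tw_un (ad : D.Ad pp α m) : D'.un (e α) (e m) = D.un α m := by
  rw [Cd.un, T.tp m ad.ne]
  refine T.th α ad.cop.of_mul_right_left _ fun h => pp_prime.one_lt.ne' (Nat.dvd_one.1 ?_)
  have : (pp : D.O) ∣ 1 := ((dvd_pow_self _ two_ne_zero).trans ad.dv).trans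
    (ad.cop.of_mul_right_right.isUnit_of_dvd' ((ker D m ad.ne α).1 h) dvd_rfl).dvd
  exact Int.natCast_dvd_natCast.1 (dvd_iff.1 this).1

theorem tw_zc (ad : D.Ad pp α m) (ι : Zn N →+* R) {χ : D.G →* R} {χ' : D'.G →* R}
    (k : ∀ (g : D.G) (g' : D'.G), g'.1 = g.1 → χ' g' = χ g) {g : D.G} {g' : D'.G}
    (c : g'.1 = g.1) : D'.zc (e α) (e m) ι χ' g' = D.zc α m ι χ g := by
  rw [zc_zz, zc_zz, tw_hm T ad.ne, tw_un T ad, zz_congr T.G k c]

omit [Pp] in
theorem tw_xt {X : Type} [Zero X] {y : D.G → X} {y' : D'.G → X}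
    (k : ∀ (g : D.G) (g' : D'.G), g'.1 = g.1 → y' g' = y g) : D'.xt y' = D.xt y := by
  funext g
  unfold Cd.xt
  by_cases h : g ∈ D.G
  · rw [dif_pos h, dif_pos (T.G ▸ h)]
    exact k _ _ rfl
  · have c := (cG D g).1 h
    rw [dif_neg h, dif_neg (T.G ▸ h), dif_pos c, dif_pos (by rwa [T.G, T.c])]
    exact k _ _ (congrArg (g * ·) T.c)

omit T in
variable (e n) in
/-- the isomorphism at level `n` -/
def en : On D n →+* On D' n := (rd D n).liftOfSurjective rd_sur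
  ⟨(rd D' n).comp e, fun x h => (rd_eq.2 (by
    simpa using map_dvd e (rd_eq.1 (h.trans (map_zero _).symm)))).trans (map_zero _)⟩

omit T in
theorem en_rd (x : D.O) : en e n (rd D n x) = rd D' n (e x) :=
  RingHom.liftOfSurjective_comp_apply _ _ _ _

theorem en_star (x : On D n) : en e n (star x) = star (en e n x) := by
  obtain ⟨x, rfl⟩ := rd_sur x
  rw [← rd_star, en_rd, en_rd, T.st, rd_star]

theorem tw_pt (x : On D n) : D'.pt n (en e n x) = i (D.pt n x) := by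
  obtain ⟨x, rfl⟩ := rd_sur x
  rw [en_rd, pt_rd, pt_rd, ← T.act, ← T.tp _ (pw_ne n), map_pow, map_natCast]

variable {χ : D.G →* Qa D.a D.b ℤ_[pp]} {χ' : D'.G →* Qa D'.a D'.b ℤ_[pp]}

theorem tw_chi (ps : D.Ps χ) (ps' : D'.Ps χ') (g : D.G) (g' : D'.G) (c : g'.1 = g.1) :
    qc (toZModPow n) χ' g' = en e n (qc (toZModPow n) χ g) := by
  obtain ⟨β, a⟩ := ac_ex (pw_ne (D := D) n) g.2
  have h := congrArg (en e n) (ps n g β a)
  rw [map_mul, map_one, en_rd, T.st] at h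
  refine left_inv_eq_right_inv (ps' n g' (e β) ?_) ((mul_comm _ _).trans h)
  simpa only [map_pow, map_natCast, c] using (tw_ac T (pw_ne n)).2 a

theorem tw_yE (rw : D.Rw) (ps : D.Ps χ) (ps' : D'.Ps χ') (ad : D.Ad pp α m) (μ' : D'.O) (g : D.G)
    (g' : D'.G) (c : g'.1 = g.1) : D'.yE χ' μ' (e α) (e m) n g' = i (D.pt n (rd D n (e.symm μ') *
      D.zc α m (algebraMap (Zn n) _) (qc (toZModPow n) χ) g)) := by
  rw [← tw_pt T, map_mul, en_rd, e.apply_symm_apply, rw.map n α m _ _ _ _ _ g ad.ne,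
    RingHom.ext_zmod ((en e n).comp _) (algebraMap _ _),
    ← tw_zc T ad _ (χ := (en e n).toMonoidHom.comp _) (tw_chi T ps ps') c]
  rfl

/-- **the zeta element of the twist** -/
theorem tw_zE (rw : D.Rw) (ps : D.Ps χ) (ps' : D'.Ps χ') {s M n' : ℕ}
    (ad : D.Ad pp s (D.mp M n')) (μ' : D'.O) (n : ℕ) :
    D'.zE χ' μ' s (D'.mp M n') n = D.xt fun g => i (D.pt n (rd D n (e.symm μ') *
      D.zc s (D.mp M n') (algebraMap (Zn n) _) (qc (toZModPow n) χ) g)) +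
      ga D.c (i (D.pt n (rd D n (e.symm μ') *
        D.zc s (D.mp M n') (algebraMap (Zn n) _) (qc (toZModPow n) χ) (D.cg g)))) := by
  refine tw_xt T fun g g' c => ?_
  have := tw_yE T (n := n) rw ps ps' ad μ'
  rw [map_natCast, map_natCast] at this
  rw [this g g' c, this (D.cg g) _ (by rw [cg_val, cg_val, T.c, c]), T.c]

end Vale.Agent.P014X.Pts
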