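import Vale.Agent.P014X.Fm.Sum2
import Vale.Agent.P014X.Fm.Tws

/-! # P014X: the curve and its twist together (row `SUM`) -/

set_option autoImplicit false
set_option linter.all false

open Submodule Set Function Matrix
open scoped Classical

noncomputable section

namespace Vale.Agent.P014X

open Vale.Agent.P022 (Qb GQ)
open Vale.Agent.P014U
open Vale.Agent.P014U.Dr (Zn)
open PadicInt (toZModPow)
open P004M.TE (Pt ga)
open Pts Fm.Psi Sm

variable [Pp]

theorem sum : SUM := by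
  intro A B A' B' D D' e i N M χ χ' s g μ μ' T C C' cg rw fm ps ps' ar mu mu' k R a b e₀ hd em
  obtain ⟨n₀, h0, tr⟩ := tr_mp ps cg fm
  refine ⟨n₀, fun n n' γ γ' le gp gp' => ?_⟩
  obtain ⟨f, y, hf, fs, hy⟩ := ex_red em n
  have ad : D.Ad pp s (D.mp M n') := ⟨nat_ne (mul_ne_zero fm.ne (pow_ne_zero _ pp_ne)), by
    rw [← Nat.cast_pow]; exact Nat.cast_dvd_cast ((pow_dvd_pow _ (by omega)).mul_left M), by
    have : s.Coprime (6 * (M * pp ^ n')) := by
      rw [← mul_assoc]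
      exact (ar.cop.coprime_dvd_right (dvd_mul_right ..)).mul_right
        ((ar.cop.coprime_dvd_right (dvd_mul_left ..)).pow_right _)
    simpa using this.cast (R := D.O)⟩
  have e1 : qc (R.rd n) (e₀.toMonoidHom.comp χ) = f.toMonoidHom.comp (qc (toZModPow n) χ) :=
    MonoidHom.ext fun g => (hf _).symm
  have e2 : (algebraMap (R.L n) (Qa a b (R.L n))).comp (R.io n) = f.comp (algebraMap (Zn n) _) :=
    RingHom.ext_zmod _ _
  have e3 : D.aq (R.io n) (qc (R.rd n) (e₀.toMonoidHom.comp χ)) = f.toMonoidHom.comp (Ph D χ n) := by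
    rw [Cd.aq, e1, e2]; exact MonoidHom.ext fun g => (map_mul f _ _).symm
  have cj : D.Cj (Ph D χ n) := ph_cg ps
  have cj' : D.Cj (f.toMonoidHom.comp (Ph D χ n)) := fun g => (congrArg f (cj g)).trans (fs _)
  obtain ⟨ρ, hρ⟩ := Fm.Ind.ex_id C cj'
  obtain ⟨w, hw⟩ := ex_w rw (algebraMap (Zn n) (On D n)) (cj_n ps) ad (tr n n' le)
  have h2 : IsUnit (2 : R.L n) := map_ofNat (R.io n) 2 ▸ unit_two.map _
  have hd' : IsUnit (b ^ 2 + 4 * a : R.L n) := by
    simpa only [map_add, map_mul, map_pow, map_intCast, map_ofNat] using hd.map (R.rd n)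
  have hI := in_G C fm
  have u2 : IsUnit (2 : On D n) := two_q unit_two
  let p' : On D n →+ Pt A' B' := i.toAddMonoidHom.comp (pH D n)
  have pi' : Injective p' := i.injective.comp pt_inj
  have pr' : ∀ P, P ∈ range p' ↔ pp ^ n • P = 0 := fun P => by
    obtain ⟨P, rfl⟩ := i.surjective P
    rw [← map_nsmul, map_eq_zero_iff _ i.injective, ← pt_iff (D := D)]
    exact exists_congr fun x => i.injective.eq_iff
  have pG' : ∀ (g : D.G) x, ga g (p' x) = p' (Ph D χ n g * x) := fun g x =>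
    (T.g1 g g.2 _).trans (congrArg i (ga_pt ps g x))
  have pc' : ∀ x, ga D.c (p' x) = p' (-rd D n D.η * star x) := fun x => by
    rw [neg_mul, map_neg]; exact (T.g2 _ (cG C) _).trans (congrArg (fun P => -i P) (ga_c x))
  have uu' : -rd D n D.η * star (-rd D n D.η) = 1 := by rw [star_neg, neg_mul_neg, eta_star]
  refine ⟨ρ, fun g m => ?_, e3 ▸ hρ, ?_, ?_⟩
  · rw [e1]; exact (congrArg f (tr n n' le g m)).trans (map_one f)
  · obtain ⟨x, x1, x2, x3⟩ := gp_pt gp n
    obtain ⟨x', y1, y2, y3⟩ : ∃ x', p' x' = P027M.K.TM.cp n γ' ∧ -rd D n D.η * star x' = x' ∧ Pv x' := by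
      obtain ⟨x', y1⟩ := (pr' _).2 (P027M.K.TM.pow_smul_cp γ' n)
      refine ⟨x', y1, pi' (by rw [← pc', y1, ← X4M.TE.cp_rho, gp'.1]), ?_⟩
      obtain ⟨x', rfl⟩ := rd_sur x'
      rcases n with _ | n
      · exact .inl (@isUnit_of_subsingleton _ _ (ZMod.subsingleton_iff.2 (pow_zero _)) _)
      refine pv_rd fun ⟨z, d⟩ => gp'.2 ?_
      rw [← P027M.K.TM.cp_add γ' 1 n, add_comm, ← y1, d, map_mul, map_natCast, ← nsmul_eq_mul, map_nsmul,
        smul_smul, ← pow_succ]
      exact (pr' _).1 ⟨_, rfl⟩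
    have m1 : - -rd D n D.η * star (rd D n (e.symm μ')) = rd D n (e.symm μ') := by
      have := mu'.1
      rw [T.η, ← e.apply_symm_apply μ', ← T.st, mul_neg, neg_inj, ← map_mul, e.injective.eq_iff] at this
      rw [neg_neg, ← rd_star, ← map_mul, mul_comm, this]
    have m2 : Pv (rd D n (e.symm μ')) := pv_rd fun d => mu'.2 (by simpa using map_dvd e d)
    have k1 := sg_eq C cj (p := pH D n) pt_inj (fun _ => pt_iff) eta_star (ga_pt ps) ga_c hw x1 x2 x3
      (mu_pt mu).1 (mu_pt mu).2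
    have k2 := sg_eq C cj pi' pr' uu' pG' pc' hw y1 y2 y3 m1 m2
    have k3 := sz_sq C h2 hd' cj' hρ (z := fun g => f (D.zc s (D.mp M n') (algebraMap (Zn n) _)
      (qc (toZModPow n) χ) g)) (w := f w) fun g => by
        rw [← fs, hw, map_add, map_neg, map_mul, map_sub, map_one]; rfl
    rw [tw_zE T rw ps ps' ad, Cd.xz, e1, e2]
    simp only [← rw.map _ _ _ _ _ f _ _ _ ad.ne]
    exact k3.trans ((base_n f hy _ _).trans (congrArg (· ^ _) ((split C u2 eta_star (sb_n cj hw)).trans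
      (congrArg₂ (· * ·) k1.symm k2.symm))))
  · rw [zq_sq C hI h2 hd' cj' hρ, base_z f hy, split C u2 eta_star (sb_z C cj (in_c C)),
      cz_eq C hI (p := pH D n) pt_inj (fun _ => pt_iff) (ga_pt ps) ga_c, cz_eq C hI pi' pr' pG' pc']

end Vale.Agent.P014X
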