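import Vale.Agent.P014X.St2

/-! # P014X: cocycles over the quadratic field and framed cocycles over the rationals -/

set_option autoImplicit false
set_option linter.all false

open Submodule Set Function
open scoped Classical

noncomputable section

namespace Vale.Agent.P014X.Sm

open Vale.Agent.P022 (Qb GQ)
open Vale.Agent.P022K.G2 (In)

variable {A B : ℤ} {D : Cd A B} {R R' : Type} [CommRing R] [CommRing R']

/-- cocycles which vanish on `I` -/
def Zk (Φ : D.G →* R) (I : Set GQ) : Submodule R (D.G → R) where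
  carrier := {y | D.Co Φ y ∧ ∀ g : D.G, g.1 ∈ I → y g = 0}
  zero_mem' := ⟨⟨fun _ _ => by simp, ⊤, isOpen_univ, fun _ _ => rfl⟩, fun _ _ => rfl⟩
  add_mem' := fun ⟨⟨a, W, o, w⟩, i⟩ ⟨⟨a', W', o', w'⟩, i'⟩ => ⟨⟨fun g h => by
    simp only [Pi.add_apply, a, a']; ring, W ⊓ W', o.inter o', fun g m => by
    rw [Pi.add_apply, w g m.1, w' g m.2, add_zero]⟩, fun g m => by
    rw [Pi.add_apply, i g m, i' g m, add_zero]⟩
  smul_mem' := fun c _ ⟨⟨a, W, o, w⟩, i⟩ => ⟨⟨fun g h => by
    simp only [Pi.smul_apply, smul_eq_mul, a]; ring, W, o, fun g m => by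
    rw [Pi.smul_apply, w g m, smul_zero]⟩, fun g m => by rw [Pi.smul_apply, i g m, smul_zero]⟩

/-- the module generated by the coboundary and `z` -/
def Nk (Φ : D.G →* R) (z : D.G → R) : Submodule R (D.G → R) := span R {fun g => Φ g - 1, z}

section base
variable {d : ℕ} (e : R →+* R') {y : Fin d → R'}
  (hy : Bijective fun x : Fin d → R => ∑ i, e (x i) * y i)
include hy

theorem base (N : Submodule R (D.G → R)) (N' : Submodule R' (D.G → R'))
    (h : ∀ f : Fin d → D.G → R, (fun g => ∑ i, e (f i g) * y i) ∈ N' ↔ ∀ i, f i ∈ N) :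
    Nat.card N' = Nat.card N ^ d := by
  rw [← Fintype.card_fin d, ← Nat.card_eq_fintype_card, ← Nat.card_fun, eq_comm]
  refine Nat.card_congr (.ofBijective (fun f => ⟨_, (h fun i => (f i).1).2 fun i => (f i).2⟩)
    ⟨fun f f' k => funext fun i => Subtype.ext (funext fun g =>
      congrFun (hy.1 (a₁ := fun i => (f i).1 g) (a₂ := fun i => (f' i).1 g)
        (congrFun (congrArg Subtype.val k) g)) i), fun F => ?_⟩)
  choose f hf using fun g => hy.2 (F.1 g)
  have k : (fun g => ∑ i, e (f g i) * y i) = F.1 := funext hf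
  exact ⟨fun i => ⟨fun g => f g i, (h fun i g => f g i).1 (k ▸ F.2) i⟩, Subtype.ext k⟩

theorem base_z (Φ : D.G →* R) (I : Set GQ) :
    Nat.card (Zk (e.toMonoidHom.comp Φ) I) = Nat.card (Zk Φ I) ^ d := by
  have z : ∀ x : Fin d → R, ∑ i, e (x i) * y i = 0 → ∀ i, x i = 0 := fun x k =>
    congrFun (hy.1 (a₂ := 0) (by simpa using k))
  refine base e hy _ _ fun f => ⟨fun ⟨⟨a, W, o, w⟩, j⟩ i => ⟨⟨fun g h => ?_, W, o, fun g m =>
    z _ (w g m) i⟩, fun g m => z _ (j g m) i⟩, fun k => ?_⟩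
  · refine congrFun (hy.1 (a₁ := fun i => f i (g * h)) (a₂ := fun i => f i g + Φ g * f i h)
      ((a g h).trans ?_)) i
    simp [add_mul, Finset.sum_add_distrib, Finset.mul_sum, mul_assoc]
  · rw [show (fun g => ∑ i, e (f i g) * y i) = ∑ i, y i • fun g => e (f i g) by
      ext; simp [mul_comm]]
    refine sum_mem fun i _ => smul_mem _ _ ?_
    obtain ⟨⟨a, W, o, w⟩, j⟩ := k i
    exact ⟨⟨fun g h => by simp [a], W, o, fun g m => by simp [w g m]⟩, fun g m => by simp [j g m]⟩

theorem base_n (Φ : D.G →* R) (z : D.G → R) :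
    Nat.card (Nk (e.toMonoidHom.comp Φ) fun g => e (z g)) = Nat.card (Nk Φ z) ^ d := by
  refine base e hy _ _ fun f => ⟨fun k i => ?_, fun k => ?_⟩
  · obtain ⟨a, b, k⟩ := mem_span_pair.1 k
    obtain ⟨a, rfl⟩ := hy.2 a
    obtain ⟨b, rfl⟩ := hy.2 b
    refine mem_span_pair.2 ⟨a i, b i, funext fun g => congrFun (hy.1
      (a₁ := fun i => a i * (Φ g - 1) + b i * z g) (a₂ := fun i => f i g)
      (Eq.trans ?_ (congrFun k g))) i⟩
    simp only [map_add, map_mul, map_sub, map_one, Pi.add_apply, Pi.smul_apply, smul_eq_mul,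
      Finset.sum_mul, ← Finset.sum_add_distrib]
    exact Finset.sum_congr rfl fun i _ => by simp; ring
  · choose a b k using fun i => mem_span_pair.1 (k i)
    refine mem_span_pair.2 ⟨∑ i, e (a i) * y i, ∑ i, e (b i) * y i, funext fun g => ?_⟩
    simp only [← k, map_add, map_mul, map_sub, map_one, Pi.add_apply, Pi.smul_apply, smul_eq_mul,
      Finset.sum_mul, ← Finset.sum_add_distrib]
    exact Finset.sum_congr rfl fun i _ => by simp; ring

end base

variable [StarRing R]

/-- the part on which the conjugation acts by `u` -/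
def Fx (u : R) (N : Submodule R (D.G → R)) : Set (D.G → R) :=
  {y | y ∈ N ∧ ∀ g, u * star (y (D.cg g)) = y g}

/-- stable under the conjugation -/
def Sb (N : Submodule R (D.G → R)) : Prop := ∀ y ∈ N, (fun g => star (y (D.cg g))) ∈ N

theorem st2 {t : R} (ht : t * 2 = 1) : star t = t := by
  have := congrArg star ht
  rw [star_mul, star_ofNat, star_one] at this
  linear_combination t * this - star t * ht

theorem flip {u δ : R} (N : Submodule R (D.G → R)) (hδ : IsUnit δ) (sδ : star δ = -δ) :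
    Nat.card (Fx (-u) N) = Nat.card (Fx u N) := by
  obtain ⟨ε, hε⟩ := hδ.exists_left_inv
  have sε : star ε = -ε := by
    have := congrArg star hε
    rw [star_mul, sδ, star_one] at this
    linear_combination -ε * this - star ε * hε
  refine Nat.card_congr ⟨fun y => ⟨δ • y.1, smul_mem _ _ y.2.1, fun g => ?_⟩,
    fun y => ⟨ε • y.1, smul_mem _ _ y.2.1, fun g => ?_⟩, fun y => Subtype.ext ?_, fun y => Subtype.ext ?_⟩
  · simp only [Pi.smul_apply, smul_eq_mul, star_mul, sδ]
    linear_combination δ * y.2.2 g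
  · simp only [Pi.smul_apply, smul_eq_mul, star_mul, sε]
    linear_combination ε * y.2.2 g
  · simp only [← mul_smul, hε, one_smul]
  · simp only [← mul_smul, mul_comm δ, hε, one_smul]

variable (C : D.Cf)
include C

theorem cG : D.c ∉ D.G := (C.cG _).2 (C.c2 ▸ one_mem _)

theorem cg_val (g : D.G) : (D.cg g).1 = D.c * g * D.c := by
  have : D.c * g * D.c ∈ D.G := by
    simpa [inv_eq_of_mul_eq_one_right C.c2] using C.nrm.conj_mem _ g.2 D.c
  simp [Cd.cg, this]

theorem cg_mul (g h : D.G) : D.cg (g * h) = D.cg g * D.cg h := Subtype.ext <| by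
  simp only [Subgroup.coe_mul, cg_val C, mul_assoc]
  rw [← mul_assoc D.c D.c, C.c2, one_mul]

theorem cg_cg (g : D.G) : D.cg (D.cg g) = g := Subtype.ext <| by
  simp only [cg_val C, mul_assoc, C.c2, mul_one]
  rw [← mul_assoc, C.c2, one_mul]

theorem split {u : R} (h2 : IsUnit (2 : R)) (uu : u * star u = 1) {N : Submodule R (D.G → R)}
    (s : Sb N) : Nat.card N = Nat.card (Fx u N) * Nat.card (Fx (-u) N) := by
  obtain ⟨t, ht⟩ := h2.exists_left_inv
  have st := st2 ht
  rw [← Nat.card_prod]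
  refine Nat.card_congr ⟨fun y => (⟨t • (y.1 + u • fun g => star (y.1 (D.cg g))),
      smul_mem _ _ (add_mem y.2 (smul_mem _ _ (s _ y.2))), fun g => ?_⟩,
    ⟨t • (y.1 - u • fun g => star (y.1 (D.cg g))),
      smul_mem _ _ (sub_mem y.2 (smul_mem _ _ (s _ y.2))), fun g => ?_⟩),
    fun y => ⟨y.1.1 + y.2.1, add_mem y.1.2.1 y.2.2.1⟩, fun y => Subtype.ext (funext fun g => ?_),
    fun y => Prod.ext (Subtype.ext (funext fun g => ?_)) (Subtype.ext (funext fun g => ?_))⟩
  · simp only [Pi.smul_apply, Pi.add_apply, smul_eq_mul, star_mul, star_add, star_star, st, cg_cg C]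
    linear_combination t * y.1 g * uu
  · simp only [Pi.smul_apply, Pi.sub_apply, smul_eq_mul, star_mul, star_sub, star_star, st, cg_cg C]
    linear_combination t * y.1 g * uu
  · simp only [Pi.smul_apply, Pi.add_apply, Pi.sub_apply, smul_eq_mul]
    linear_combination y.1 g * ht
  · simp only [Pi.smul_apply, Pi.add_apply, smul_eq_mul, star_add]
    linear_combination t * y.1.2.2 g - t * y.2.2.2 g + y.1.1 g * ht
  · simp only [Pi.smul_apply, Pi.add_apply, Pi.sub_apply, smul_eq_mul, star_add]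
    linear_combination -t * y.1.2.2 g + t * y.2.2.2 g + y.2.1 g * ht

variable {Φ : D.G →* R} (cj : ∀ g, Φ (D.cg g) = star (Φ g))
include cj

theorem sb_z {I : Set GQ} (hI : ∀ g ∈ I, D.c * g * D.c ∈ I) : Sb (Zk Φ I) := by
  rintro y ⟨⟨a, W, o, w⟩, j⟩
  refine ⟨⟨fun g h => by rw [cg_mul C, a, star_add, star_mul', cj, star_star],
    W.comap (MulAut.conj D.c).toMonoidHom,
    o.preimage (f := fun g => D.c * g * D.c⁻¹) (by fun_prop), fun g m => ?_⟩, fun g m => ?_⟩
  · rw [w _ (by rw [cg_val C, ← congrArg (_ * ·) (inv_eq_of_mul_eq_one_right C.c2)]; exact m), star_zero]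
  · exact (congrArg star (j _ (cg_val C g ▸ hI _ m))).trans (star_zero _)

variable {z : D.G → R} {w : R} (hz : ∀ g, star (z (D.cg g)) = -z g + w * (Φ g - 1))
include hz

omit C in
theorem sb_n : Sb (Nk Φ z) := fun y k => by
  obtain ⟨a, b, rfl⟩ := mem_span_pair.1 k
  refine mem_span_pair.2 ⟨star a + star b * w, -star b, funext fun g => ?_⟩
  simp only [Pi.smul_apply, Pi.add_apply, smul_eq_mul, star_mul, star_add, star_sub, star_one, hz, cj,
    star_star]
  ring

theorem fx_n {K : Type} [CommRing K] (i : K →+* R) (si : ∀ k, star (i k) = i k) {u γ μ : R}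
    (h2 : IsUnit (2 : R)) (uu : u * star u = 1) (hγ : u * star γ = γ)
    (hp : ∀ x, u * star x = x → ∃ k, x = i k * γ) (hm : ∀ x, u * star x = -x → ∃ k, x = i k * μ)
    (hμ : u * star μ = -μ) (y : D.G → R) : y ∈ Fx u (Nk Φ z) ↔ ∃ k k', ∀ g, y g =
      i k * (γ * (Φ g - 1)) + i k' * (μ * z g + u * star (μ * z (D.cg g))) := by
  obtain ⟨t, ht⟩ := h2.exists_left_inv
  have st := st2 ht
  have s1 : star u * u = 1 := (mul_comm ..).trans uu
  refine ⟨fun ⟨k, f⟩ => ?_, fun ⟨k, k', e⟩ => ⟨mem_span_pair.2 ⟨i k * γ - i k' * μ * w, 2 * i k' * μ,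
    funext fun g => ?_⟩, fun g => ?_⟩⟩
  · obtain ⟨a, b, rfl⟩ := mem_span_pair.1 k
    obtain ⟨k', e'⟩ := hm (t * t * (b - u * star b)) (by
      simp only [star_mul, star_sub, star_star, st]; linear_combination -t * t * b * uu)
    let c := t * (a + u * star a + u * star b * w) + t * t * (b - u * star b) * w
    obtain ⟨k, e⟩ := hp (t * (c + u * star c)) (by
      simp only [star_mul, star_add, star_star, st]; linear_combination t * c * uu)
    have f1 : ∀ g, a * (Φ g - 1) + b * z g =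
        c * (Φ g - 1) + i k' * (μ * z g + u * star (μ * z (D.cg g))) := fun g => by
      have := f g
      simp only [Pi.smul_apply, Pi.add_apply, smul_eq_mul, star_mul, star_add, star_sub, star_one, hz, cj,
        star_star, c] at this ⊢
      linear_combination -t * this - (i k' * (-z g + w * (Φ g - 1))) * hμ +
        (2 * z g - w * (Φ g - 1)) * e' - (a * (Φ g - 1) + b * z g + t * (b - u * star b) * z g) * ht
    refine ⟨k, k', fun g => (f1 g).trans (congrArg (· + _) ?_)⟩
    have a1 := f g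
    have a2 := congrArg star (f1 (D.cg g))
    simp only [Pi.smul_apply, Pi.add_apply, smul_eq_mul, star_mul, star_add, star_sub, star_one, cj,
      star_star, si, cg_cg C] at a1 a2
    have a3 := f1 g
    rw [star_mul] at a3
    linear_combination (Φ g - 1) * e - c * (Φ g - 1) * ht - t * a1 + t * u * a2 - t * a3 +
      t * i k' * μ * z g * uu
  · simp only [e, Pi.smul_apply, Pi.add_apply, smul_eq_mul, star_mul, hz]
    linear_combination -(i k' * (-z g + w * (Φ g - 1))) * hμ
  · simp only [e, star_mul, star_add, star_sub, star_one, cj, star_star, si, cg_cg C]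
    linear_combination i k * (Φ g - 1) * hγ + i k' * μ * z g * uu

omit cj hz

section xt
variable {P : Type} [AddCommGroup P]

omit C in
theorem xt_G (y : D.G → P) (g : D.G) : D.xt y g = y g := dif_pos g.2

theorem xt_c (y : D.G → P) {g : GQ} (h : g ∉ D.G) : D.xt y g = y ⟨_, (C.cG g).1 h⟩ := by
  rw [Cd.xt, dif_neg h, dif_pos]

theorem gc (g : GQ) : g * D.c * D.c = g := by rw [mul_assoc, C.c2, mul_one]

/-- framed cocycles with values in `T` -/
structure Fr (a : GQ → P →+ P) (I : Set GQ) (c : GQ) (T : Set P) (x : GQ → P) : Prop where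
  coc : ∀ g h, x (g * h) = x g + a g (x h)
  lc : ∃ W : Subgroup GQ, IsOpen (W : Set GQ) ∧ ∀ w ∈ W, x w = 0
  unr : ∀ g ∈ I, x g = 0
  fr : x c = 0
  val : ∀ g, x g ∈ T

variable {a : GQ → P →+ P} (am : ∀ g h x, a (g * h) x = a g (a h x)) {p : R →+ P} (pi : Injective p)
  {u : R} (pG : ∀ (g : D.G) x, a g (p x) = p (Φ g * x)) (pc : ∀ x, a D.c (p x) = p (u * star x))
  {I : Set GQ} (hI : I ⊆ D.G)
include am pi pG pc hI

theorem bij : BijOn (fun y => D.xt fun g => p (y g)) (Fx u (Zk Φ I))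
    {x | Fr a I D.c (range p) x} := by
  refine ⟨fun y ⟨⟨⟨k, W, o, w⟩, j⟩, f⟩ => ?_, fun y _ y' _ e => funext fun g => pi ?_, fun x h => ?_⟩
  · have one : y 1 = 0 := w 1 (one_mem _)
    have f' : ∀ g, y (D.cg g) = u * star (y g) := fun g => by rw [← f, cg_cg C]
    have v : ∀ g : GQ, ∃ r : D.G, (r.1 = g ∨ r.1 * D.c = g) ∧ D.xt (fun g => p (y g)) g = p (y r) := fun g => by
      by_cases h : g ∈ D.G
      · exact ⟨⟨g, h⟩, .inl rfl, xt_G _ ⟨g, h⟩⟩
      · exact ⟨_, .inr (gc C g), xt_c C _ h⟩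
    have vc : ∀ r : D.G, D.xt (fun g => p (y g)) (r * D.c) = p (y r) := fun r => by
      rw [xt_c C _ fun h => cG C ((mul_mem_cancel_left r.2).1 h)]
      exact congrArg (fun g => p (y g)) (Subtype.ext (gc C r))
    refine ⟨fun g h => ?_, ⟨W ⊓ D.G, o.inter C.opn, fun g m =>
      (xt_G _ ⟨g, m.2⟩).trans (by rw [w _ m.1, map_zero])⟩, fun g m =>
      (xt_G _ ⟨g, hI m⟩).trans (by rw [j _ m, map_zero]), ?_, fun g => ?_⟩
    · obtain ⟨r, rfl | rfl, e⟩ := v g <;> obtain ⟨s, rfl | rfl, e'⟩ := v h <;> simp only [e, e']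
      · rw [pG, ← map_add, ← k]; exact xt_G _ (r * s)
      · rw [pG, ← map_add, ← k, ← mul_assoc]; exact vc (r * s)
      · rw [am, pc, pG, ← map_add, ← f', ← k, ← vc, Subgroup.coe_mul, cg_val C, ← mul_assoc, ← mul_assoc,
          gc C]
      · rw [am, pc, pG, ← map_add, ← f', ← k, ← xt_G (fun g => p (y g)), Subgroup.coe_mul, cg_val C]
        simp only [mul_assoc]
    · have := vc 1
      rwa [Subgroup.coe_one, one_mul, one, map_zero] at this
    · obtain ⟨r, -, e⟩ := v g
      exact ⟨_, e.symm⟩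
  · simpa only [xt_G] using congrFun e g
  · choose y hy using h.val
    obtain ⟨W, o, w⟩ := h.lc
    refine ⟨fun g => y g, ⟨⟨⟨fun g k => pi ?_, W, o, fun g m => pi ?_⟩, fun g m => pi ?_⟩,
      fun g => pi ?_⟩, funext fun g => ?_⟩
    · rw [map_add, ← pG, hy, hy, hy]; exact h.coc ..
    · rw [hy, w _ m, map_zero]
    · rw [hy, h.unr _ m, map_zero]
    · have := pG 1 (y g)
      rw [map_one, one_mul, Subgroup.coe_one, ← C.c2, am] at this
      rw [← pc, hy, cg_val C, h.coc, h.coc, h.fr, map_zero, zero_add, add_zero, ← hy, this]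
    · by_cases m : g ∈ D.G
      · exact (xt_G _ ⟨g, m⟩).trans (hy g)
      · refine (xt_c C _ m).trans ((hy _).trans ?_)
        conv_rhs => rw [← gc C g, h.coc, h.fr, map_zero, add_zero]

theorem card_fr : Nat.card {x | Fr a I D.c (range p) x} = Nat.card (Fx u (Zk Φ I)) :=
  (Nat.card_congr (bij C am pi pG pc hI).equiv).symm

omit hI pi in
/-- the coboundary -/
theorem xt_db {γ : R} (hγ : u * star γ = γ) (g : GQ) :
    D.xt (fun g => p (γ * (Φ g - 1))) g = a g (p γ) - p γ := by
  by_cases m : g ∈ D.G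
  · rw [xt_G _ ⟨g, m⟩, pG ⟨g, m⟩, ← map_sub]; congr 1; ring
  · rw [xt_c C _ m]
    conv_rhs => rw [← gc C g, am, pc, hγ, pG ⟨_, (C.cG g).1 m⟩, ← map_sub]
    congr 1; ring

omit am pG pc hI C in
/-- counting along the extension -/
theorem card_xt (S : Set (D.G → R)) (T : Set (GQ → P))
    (h : ∀ x, x ∈ T ↔ ∃ y ∈ S, x = D.xt fun g => p (y g)) : Nat.card T = Nat.card S :=
  (Nat.card_congr (BijOn.equiv (fun y => D.xt fun g => p (y g)) ⟨fun y m => (h _).2 ⟨y, m, rfl⟩,
    fun y _ y' _ e => funext fun g => pi (by simpa only [xt_G] using congrFun e g),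
    fun x m => ((h x).1 m).imp fun y k => ⟨k.1, k.2.symm⟩⟩)).symm

end xt

end Vale.Agent.P014X.Sm
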