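import Vale.Agent.P014X.Fm.Sum0
import Vale.Agent.P014X.Fm.Pts
import Vale.Agent.P014X.Fm.Ind

/-! # P014X: the two sides of the row `SUM` -/

set_option autoImplicit false
set_option linter.all false

open Submodule Set Function Matrix
open scoped Classical

noncomputable section

namespace Vale.Agent.P014X.Sm

open Vale.Agent.P022 (Qb GQ)
open Vale.Agent.P022K.G2 (In)
open Vale.Agent.P014U
open Vale.Agent.P014U.Dr (Zn)
open Vale.Agent.P014U.Kq (M2)
open Vale.Agent.P014U.Pq (Zq)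
open Vale.Agent.P014T.Ct (db)
open Vale.Agent.P014U.Top (sg)
open Vale.Agent.P014U.Bt (Gp Z0 dd)
open P004M.TE (Pt ga ga_mul)
open P027M.K (TM)
open Fm.Ind Pts

variable {A B A' B' : ℤ} {D : Cd A B} (C : D.Cf) {S : Finset ℕ} (hI : In S ⊆ D.G)
include C

theorem in_c : ∀ g ∈ In S, D.c * g * D.c ∈ In S := fun g m => by
  simpa only [c_inv C] using P022K.G2.Hb.in_conj m D.c

section alg
variable {a b : ℤ} {L : Type} [CommRing L] (h2 : IsUnit (2 : L)) (hd : IsUnit (b ^ 2 + 4 * a : L))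
  {Φ : D.G →* Qa a b L} (cj : D.Cj Φ) {ρ : GQ →* M2 L} (i : D.Id Φ ρ)

omit C in
/-- the coordinates -/
def vH (a b : ℤ) (L : Type) [CommRing L] : Qa a b L →+ Fin 2 → L := .mk' vc vc_add

omit C in
theorem st_dl : star (dl a b L) = -dl a b L := QuadraticAlgebra.ext (by simp [dl]; ring) (by simp [dl])

omit C in
include hd in
theorem dl_unit : IsUnit (dl a b L) := isUnit_of_mul_isUnit_left (y := dl a b L) (by
  rw [show dl a b L * dl a b L = algebraMap L _ (b ^ 2 + 4 * a) from QuadraticAlgebra.ext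
    (by simp [dl, -map_add]; ring) (by simp [dl, -map_add]; ring)]
  exact hd.map _)

omit C in
include h2 in
theorem two_q : IsUnit (2 : Qa a b L) := map_ofNat (algebraMap L (Qa a b L)) 2 ▸ h2.map _

include h2 hd cj i

include hI in
theorem zq_sq : Nat.card (Zq L S ρ D.c) ^ 2 = Nat.card (Zk Φ (In S)) := by
  have k := card_fr C (a := fun g => (ρ g).mulVecLin.toAddMonoidHom) (fun g h x => by simp)
    (p := vH a b L) vc_inj (u := 1) (Φ := Φ) (fun g x => by rw [i.G]; exact mm_vc ..)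
    (fun x => by rw [i.c, one_mul]; exact cm_vc ..) hI
  rw [split C (u := 1) (two_q h2) (by simp) (sb_z C cj (in_c C)), flip _ (dl_unit hd) st_dl, ← k, sq]
  congr 2 <;> exact congrArg _ (Set.ext fun x => ⟨fun h => ⟨h.1, h.2.1, h.2.2.1, h.2.2.2, fun g =>
    ⟨⟨x g 0, x g 1⟩, funext fun j => by fin_cases j <;> rfl⟩⟩, fun h => ⟨h.coc, h.lc, h.unr, h.fr⟩⟩)

theorem sz_sq {z : D.G → Qa a b L} {w : Qa a b L}
    (hz : ∀ g, star (z (D.cg g)) = -z g + w * (Φ g - 1)) :
    sz ρ (D.xt fun g => vc (D.tc (fun g => dl a b L * z g) g)) ^ 2 = Nat.card (Nk Φ z) := by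
  obtain ⟨t, ht⟩ := h2.exists_left_inv
  have f := fx_n C cj hz (algebraMap L (Qa a b L)) (fun k => QuadraticAlgebra.ext (by simp) (by simp))
    (u := 1) (γ := 1) (μ := dl a b L) (two_q h2) (by simp) (by simp) (fun x h => by
      have := congrArg QuadraticAlgebra.im h
      simp only [one_mul, QuadraticAlgebra.im_star] at this
      exact ⟨x.re, QuadraticAlgebra.ext (by simp) (by simp; linear_combination -t * this - x.im * ht)⟩)
    (fun x h => by
      have := congrArg QuadraticAlgebra.re h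
      simp only [one_mul, QuadraticAlgebra.re_star, QuadraticAlgebra.re_neg] at this
      exact ⟨t * x.im, QuadraticAlgebra.ext (by simp [dl]; linear_combination t * this - x.re * ht)
        (by simp [dl]; linear_combination -x.im * ht)⟩) (by rw [one_mul, st_dl])
  have d := xt_db C (a := fun g => (ρ g).mulVecLin.toAddMonoidHom) (fun g h x => by simp)
    (p := vH a b L) (u := 1) (Φ := Φ) (fun g x => by rw [i.G]; exact mm_vc ..)
    (fun x => by rw [i.c, one_mul]; exact cm_vc ..) (γ := 1) (by simp)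
  have d' : db ρ ![1, 0] = D.xt fun g => vc (1 * (Φ g - 1)) := funext fun g => by
    rw [db, sub_mulVec, one_mulVec]; exact (d g).symm
  have e : ∀ k k' : L, k • db ρ ![1, 0] + k' • (D.xt fun g => vc (D.tc (fun g => dl a b L * z g) g)) =
      D.xt fun g => vH a b L (algebraMap L _ k * (1 * (Φ g - 1)) + algebraMap L _ k' *
        (dl a b L * z g + 1 * star (dl a b L * z (D.cg g)))) := fun k k' => funext fun g => by
    obtain ⟨g, rfl⟩ | ⟨g, rfl⟩ := cases C g <;>
      simp only [d', Pi.add_apply, Pi.smul_apply, Fm.Ind.xt_G, Fm.Ind.xt_c C, ← Algebra.smul_def, one_mul] <;>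
      exact funext fun j => by fin_cases j <;> rfl
  rw [split C (u := 1) (two_q h2) (by simp) (sb_n cj hz), flip _ (dl_unit hd) st_dl, sq]
  congr 1 <;> exact card_xt (p := vH a b L) vc_inj _ _ fun x => mem_span_pair.trans
    ⟨fun ⟨k, k', h⟩ => ⟨_, (f _).2 ⟨k, k', fun _ => rfl⟩, h.symm.trans (e k k')⟩,
      fun ⟨y, m, h⟩ => by
        obtain ⟨k, k', m⟩ := (f y).1 m
        exact ⟨k, k', (e k k').trans (by rw [h, funext m])⟩⟩

end alg

variable [Pp] {n : ℕ} {Φ : D.G →* On D n} (cj : D.Cj Φ) {p : On D n →+ Pt A' B'} (pi : Injective p)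
  (pr : ∀ T, T ∈ range p ↔ pp ^ n • T = 0) {u : On D n} (uu : u * star u = 1)
  (pG : ∀ (g : D.G) x, ga g (p x) = p (Φ g * x)) (pc : ∀ x, ga D.c (p x) = p (u * star x))
include pi pr pG pc

include hI in
theorem cz_eq : Top.cz A' B' S D.c n = Nat.card (Fx u (Zk Φ (In S))) := by
  rw [← card_fr C (a := fun g => ga g) ga_mul pi pG pc hI]
  refine Nat.card_congr ⟨fun x => ⟨x.1.1, x.1.2.2.1, ⟨⟨⟨⟨{g | x.1.1 g = 0}, fun {g h} a b => ?_⟩, ?_⟩,
      fun {g} a => ?_⟩, x.1.2.1.isOpen_fiber 0, fun _ h => h⟩, x.1.2.2.2.2.1, x.1.2.2.2.2.2,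
      fun g => (pr _).2 (congrFun (congrArg Subtype.val x.2) g)⟩,
    fun x => ⟨⟨x.1, ?_, x.2.coc, ⟨n, fun g => (pr _).1 (x.2.val g)⟩, x.2.unr, x.2.fr⟩,
      Subtype.ext (funext fun g => (pr _).1 (x.2.val g))⟩, fun _ => rfl, fun _ => rfl⟩
  · show x.1.1 (g * h) = 0
    rw [x.1.2.2.1, show x.1.1 g = 0 from a, show x.1.1 h = 0 from b, map_zero, add_zero]
  · have := x.1.2.2.1 1 1
    rw [mul_one, P004M.TE.ga_one, left_eq_add] at this
    exact this
  · have := x.1.2.2.1 1 1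
    rw [mul_one, P004M.TE.ga_one, left_eq_add] at this
    have k := x.1.2.2.1 g⁻¹ g
    rw [inv_mul_cancel, this, show x.1.1 g = 0 from a, map_zero, add_zero] at k
    exact k.symm
  · obtain ⟨W, o, w⟩ := x.2.lc
    refine (IsLocallyConstant.iff_exists_open _).2 fun g => ⟨(g⁻¹ * ·) ⁻¹' W,
      o.preimage (by fun_prop), by simp, fun h m => ?_⟩
    rw [← mul_inv_cancel_left g h, x.2.coc, w _ m, map_zero, add_zero]

include cj uu in
theorem sg_eq {z : D.G → On D n} {w : On D n} (hz : ∀ g, star (z (D.cg g)) = -z g + w * (Φ g - 1))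
    {γ μ : On D n} {T : X4M.TE.Tm A' B'} (e : p γ = TM.cp n T) (hγ : u * star γ = γ) (vγ : Pv γ)
    (hμ : -u * star μ = μ) (vμ : Pv μ) :
    sg T n n (D.xt fun g => p (μ * z g) + ga D.c (p (μ * z (D.cg g)))) = Nat.card (Fx u (Nk Φ z)) := by
  have un : IsUnit u := .of_mul_eq_one _ uu
  have f := fx_n C cj hz (Int.castRingHom _) (fun k => star_intCast k) (two_q unit_two) uu hγ
    (fun x h => (line_int un hγ vγ h).imp fun k e => e.trans (zsmul_eq_mul ..))
    (fun x h => (line_int un.neg hμ vμ (by rw [neg_mul, h, neg_neg])).imp fun k e =>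
      e.trans (zsmul_eq_mul ..)) (by rw [← neg_eq_iff_eq_neg, ← neg_mul, hμ])
  have d' : dd A' B' (TM.cp n T) = D.xt fun g => p (γ * (Φ g - 1)) := funext fun g =>
    e ▸ (xt_db C (a := fun g => ga g) ga_mul pG pc hγ g).symm
  have k : ∀ k k' : ℤ, k • dd A' B' (TM.cp n T) +
      k' • (D.xt fun g => p (μ * z g) + ga D.c (p (μ * z (D.cg g)))) =
      D.xt fun g => p (Int.castRingHom _ k * (γ * (Φ g - 1)) + Int.castRingHom _ k' *
        (μ * z g + u * star (μ * z (D.cg g)))) := fun k k' => funext fun g => by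
    obtain ⟨g, rfl⟩ | ⟨g, rfl⟩ := cases C g <;>
      simp only [d', Pi.add_apply, Pi.smul_apply, Fm.Ind.xt_G, Fm.Ind.xt_c C, pc, eq_intCast,
        ← zsmul_eq_mul, map_add, map_zsmul]
  rw [sg, Nat.sub_self, pow_zero, one_smul]
  exact card_xt pi _ _ fun x => AddSubgroup.mem_sup.trans
    ⟨fun ⟨_, ⟨a, rfl⟩, _, ⟨b, rfl⟩, h⟩ => ⟨_, (f _).2 ⟨a, b, fun _ => rfl⟩, h.symm.trans (k a b)⟩,
      fun ⟨y, m, h⟩ => by
        obtain ⟨a, b, m⟩ := (f y).1 m
        exact ⟨_, ⟨a, rfl⟩, _, ⟨b, rfl⟩, (k a b).trans (by rw [h, funext m])⟩⟩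

end Vale.Agent.P014X.Sm
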