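import Vale.Agent.P014X.Fm.Sum1

/-! # P014X: the reduction of the embedding, the class under conjugation -/

set_option autoImplicit false
set_option linter.all false

open Submodule Set Function Matrix
open scoped Classical

noncomputable section

namespace Vale.Agent.P014X.Sm

open Vale.Agent.P022 (Qb GQ)
open Vale.Agent.P022K.G2 (In)
open Vale.Agent.P014U
open Vale.Agent.P014U.Dr (Zn)
open PadicInt (toZModPow)
open Pts Fm.Psi

theorem qm_sur {a b : ℤ} {R S : Type} [CommRing R] [CommRing S] {f : R →+* S} (h : Surjective f) :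
    Surjective (qm a b f) := fun x => by
  obtain ⟨u, e⟩ := h x.re
  obtain ⟨v, e'⟩ := h x.im
  exact ⟨⟨u, v⟩, QuadraticAlgebra.ext e e'⟩

theorem qm_ker {a b : ℤ} {R S : Type} [CommRing R] [CommRing S] {f : R →+* S} {c : ℕ}
    (h : ∀ r, f r = 0 ↔ (c : R) ∣ r) (x : Qa a b R) : qm a b f x = 0 ↔ (c : Qa a b R) ∣ x :=
  QuadraticAlgebra.ext_iff.trans ((and_congr (h _) (h _)).trans
    ⟨fun ⟨⟨u, e⟩, ⟨v, e'⟩⟩ => ⟨⟨u, v⟩, QuadraticAlgebra.ext (by simp [e]) (by simp [e'])⟩,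
      fun ⟨y, e⟩ => ⟨⟨y.re, by simp [e]⟩, ⟨y.im, by simp [e]⟩⟩⟩)

variable [Pp] {A B : ℤ} {D : Cd A B}

theorem in_G (C : D.Cf) {N M : ℕ} (fm : D.Fm N M) : In (Vale.Agent.P014X.Sb M : Finset ℕ) ⊆ D.G := by
  rintro g ⟨l, n, P, o, i⟩
  obtain ⟨φ, f⟩ : ∃ φ, P022E.GW.Fb l P φ := P022D.W.exists_phi o.1 o.2.1 o.2.2
  exact (C.spl l P φ o (fun d => n (fm.disc l o.1 d)) f).1 g i

/-- the reduction of the embedding -/
theorem ex_red {k : ℕ} {C : Cr k} {a b : ℤ} {e : Qa D.a D.b ℤ_[pp] →+* Qa a b C.O} (h : D.Em C e)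
    (n : ℕ) : ∃ (f : On D n →+* Qa a b (C.L n)) (y : Fin C.pb.dim → Qa a b (C.L n)),
      (∀ x, f (qm _ _ (toZModPow n) x) = qm _ _ (C.rd n) (e x)) ∧ (∀ x, f (star x) = star (f x)) ∧
      Bijective fun x : Fin C.pb.dim → On D n => ∑ i, f (x i) * y i := by
  have s1 : Surjective (qm D.a D.b (toZModPow (p := pp) n)) := qm_sur (ZMod.ringHom_surjective _)
  have s2 : Surjective (qm a b (C.rd n)) := qm_sur Ideal.Quotient.mk_surjective
  have k1 := qm_ker (a := D.a) (b := D.b) (f := toZModPow (p := pp) n) (c := pp ^ n) fun r => by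
    rw [← RingHom.mem_ker, PadicInt.ker_toZModPow, Ideal.mem_span_singleton, Nat.cast_pow]
  have k2 := qm_ker (a := a) (b := b) (f := C.rd n) (c := pp ^ n) fun r => by
    rw [Ideal.Quotient.eq_zero_iff_mem, Ideal.mem_span_singleton, Nat.cast_pow]
  obtain ⟨f, hf⟩ : ∃ f : On D n →+* Qa a b (C.L n), ∀ x,
      f (qm _ _ (toZModPow n) x) = qm _ _ (C.rd n) (e x) :=
    ⟨RingHom.liftOfSurjective _ s1 ⟨(qm _ _ (C.rd n)).comp e, fun x m => (k2 _).2 (by
      simpa only [map_natCast] using map_dvd e ((k1 x).1 m))⟩,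
      fun x => RingHom.liftOfRightInverse_comp_apply ..⟩
  obtain ⟨y, hy⟩ := h.bas
  have F : ∀ x : Fin C.pb.dim → Qa D.a D.b ℤ_[pp], ∑ i, f (qm _ _ (toZModPow n) (x i)) *
      qm _ _ (C.rd n) (y i) = qm _ _ (C.rd n) (∑ i, e (x i) * y i) := fun x => by
    simp only [hf, map_sum, map_mul]
  refine ⟨f, fun i => qm _ _ (C.rd n) (y i), hf, fun x => ?_, fun x x' q => ?_, fun β => ?_⟩
  · obtain ⟨x, rfl⟩ := s1 x
    rw [← qm_star, hf, hf, h.st, qm_star]
  · choose x hx using fun i => s1 (x i)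
    choose x' hx' using fun i => s1 (x' i)
    simp only [← hx, ← hx', F] at q
    obtain ⟨β, q⟩ := (k2 _).1 ((map_sub ..).trans (sub_eq_zero.2 q))
    obtain ⟨v, rfl⟩ := hy.2 β
    have := hy.1 (a₁ := fun i => x i - x' i) (a₂ := fun i => (pp ^ n : ℕ) * v i) (by
      simp only [map_sub, sub_mul, Finset.sum_sub_distrib, q, map_mul, map_natCast, Finset.mul_sum,
        mul_assoc])
    exact funext fun i => by
      rw [← hx, ← hx', ← sub_eq_zero, ← map_sub]; exact (k1 _).2 ⟨_, congrFun this i⟩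
  · obtain ⟨β, rfl⟩ := s2 β
    obtain ⟨x, rfl⟩ := hy.2 β
    exact ⟨_, F x⟩

/-- the class under conjugation -/
theorem ex_w (rw : D.Rw) {N s m : ℕ} {a b : ℤ} {R : Type} [CommRing R] (ι : Zn N →+* Qa a b R)
    {χ : D.G →* Qa a b R} (cj : D.Cj χ) (ad : D.Ad pp s m) (tr : D.Tr m χ) : ∃ w, ∀ g,
      star (D.zc s m ι χ (D.cg g)) = -D.zc s m ι χ g + w * (D.ak ι χ g - 1) := by
  have e : (starRingEnd _).comp ι = ι := RingHom.ext_zmod _ _
  obtain ⟨w, hw⟩ := rw.cnj N s m _ ι χ ((starRingEnd _).toMonoidHom.comp χ) ad tr fun g => (cj g).symm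
  refine ⟨star w, fun g => ?_⟩
  have k := rw.map N s m _ _ (starRingEnd _) ι χ g ad.ne
  have a := congrArg star (hw g)
  rw [e] at k
  rw [star_natCast, star_natCast, Pi.neg_apply, ← k, star_sub, star_neg, starRingEnd_apply, star_star,
    star_mul', star_sub, star_one, show star (D.ak ι ((starRingEnd _).toMonoidHom.comp χ) g) =
      D.ak ι χ g from (star_mul' ..).trans (congrArg₂ (· * ·) (DFunLike.congr_fun e _) (star_star _))] at a
  linear_combination a

end Vale.Agent.P014X.Sm
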