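import Vale.Agent.P014X.Fm.St
import Vale.Agent.P014X.Fm.Crk

/-! # P014X, block FAM: row UN1 -/

set_option autoImplicit false
set_option linter.all false

open IsLocalRing QuadraticAlgebra

noncomputable section

namespace Vale.Agent.P014X.Fm

open Vale.Agent.P014U
open Pow (Jq Jq_star Jq_map qm_star)

namespace Un

variable {a b : ℤ} {R R' : Type} [CommRing R] [CommRing R']

theorem qm_alg (f : R →+* R') (r : R) :
    qm a b f (algebraMap R _ r) = algebraMap R' _ (f r) := QuadraticAlgebra.ext rfl f.map_zero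

theorem qm_smul (f : R →+* R') (r : R) (u : Qa a b R) : qm a b f (r • u) = f r • qm a b f u :=
  QuadraticAlgebra.ext (f.map_mul _ _) (f.map_mul _ _)

theorem smul_mem {I : Ideal R} {r : R} (h : r ∈ I) (u : Qa a b R) : r • u ∈ Jq a b I :=
  ⟨I.mul_mem_right _ h, I.mul_mem_right _ h⟩

theorem star_two : star (2 : Qa a b R) = 2 := by
  rw [← one_add_one_eq_two, star_add, star_one]

/-- an element which is congruent to two is a unit -/
theorem unit_of [IsLocalRing R] (h2 : IsUnit (2 : R)) {u : Qa a b R}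
    (h : u - 2 ∈ Jq a b (maximalIdeal R)) : IsUnit u := by
  have h' : star u - 2 ∈ Jq a b (maximalIdeal R) := by
    have := Jq_star h
    rwa [star_sub, star_two] at this
  have e : u * star u - 2 * 2 = (u - 2) * star u + 2 * (star u - 2) := by ring
  have k : u * star u - 2 * 2 ∈ Jq a b (maximalIdeal R) :=
    e ▸ add_mem (Ideal.mul_mem_right _ _ h) (Ideal.mul_mem_left _ _ h')
  have k1 : u.norm - 2 * 2 ∈ maximalIdeal R := by
    have := k.1
    rw [← algebraMap_norm_eq_mul_star] at this
    simpa using this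
  rw [isUnit_iff_norm_isUnit]
  by_contra hn
  have := sub_mem ((mem_maximalIdeal _).2 hn) k1
  rw [sub_sub_cancel] at this
  exact this (h2.mul h2)

variable [Pp] {k : ℕ} {C : Cr k} (x : Uy C a b)

theorem X_mem : (PowerSeries.X : C.R) ∈ maximalIdeal C.R := fun h => by
  simpa using (C.unit_R _).1 h

theorem C_mem {r : C.O} (h : C.pb.gen - 1 ∣ r) : (PowerSeries.C r : C.R) ∈ maximalIdeal C.R :=
  fun u => (C.unit_R _).1 u (by simpa using (C.π_zero r).2 h)

theorem two_R : IsUnit (2 : C.R) := by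
  have := C.unit_two.map (PowerSeries.C (R := C.O))
  rwa [map_ofNat] at this

theorem Y_two : x.Y - 2 ∈ Jq a b (maximalIdeal C.R) := by
  have e : x.Y - 2 = qm a b PowerSeries.C (x.y - 1) - (PowerSeries.X : C.R) •
      qm a b PowerSeries.C ((C.pb.gen - 1) ^ (pp ^ k + 1) • x.z) := by
    rw [Uy.Y, map_add, map_sub, map_one]
    ring
  rw [e, x.hz, qm_smul]
  exact sub_mem (smul_mem (C_mem (dvd_pow_self _ (by omega))) _) (smul_mem X_mem _)

theorem Y_unit : IsUnit x.Y := unit_of two_R (Y_two x)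

theorem um_mul : x.um * star x.Y = x.Y := by
  rw [Uy.um, mul_assoc, Ring.inverse_mul_cancel _ (Y_unit x).star, mul_one]

theorem up_one : x.up - 1 ∈ Jq a b (maximalIdeal C.R) := by
  have e : x.up - 1 = (PowerSeries.C (pp : C.O) + PowerSeries.C (1 - x.w) * PowerSeries.X : C.R) •
      (1 : Qa a b C.R) := by
    rw [Uy.up, ← Algebra.algebraMap_eq_smul_one, ← map_one (algebraMap C.R (Qa a b C.R)), ← map_sub,
      map_add]
    exact congrArg _ (by rw [map_one]; ring)
  rw [e]
  exact smul_mem (add_mem (C_mem C.dvp) (Ideal.mul_mem_left _ _ X_mem)) _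

theorem um_one : x.um - 1 ∈ Jq a b (maximalIdeal C.R) := by
  have h' : star x.Y - 2 ∈ Jq a b (maximalIdeal C.R) := by
    have := Jq_star (Y_two x)
    rwa [star_sub, star_two] at this
  have e : x.um - 1 = ((x.Y - 2) - (star x.Y - 2)) * Ring.inverse (star x.Y) := by
    rw [Uy.um, ← Ring.mul_inverse_cancel _ (Y_unit x).star]
    ring
  rw [e]
  exact Ideal.mul_mem_right _ _ (sub_mem (Y_two x) h')

theorem um_star : x.um * star x.um = 1 := by
  have h := congrArg star (um_mul x)
  rw [star_mul', star_star] at h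
  refine (Y_unit x).mul_right_cancel ?_
  rw [mul_assoc, h, um_mul, one_mul]

theorem qm_C {e : C.R →+* C.O} (h : C.Ev e) (u : Qa a b C.O) :
    qm a b e (qm a b PowerSeries.C u) = u := QuadraticAlgebra.ext (h.c _) (h.c _)

theorem ev_um {e : C.R →+* C.O} {u : Qa a b C.O} (h : u * star (qm a b e x.Y) = qm a b e x.Y) :
    qm a b e x.um = u := by
  refine ((Y_unit x).map (qm a b e)).star.mul_right_cancel ?_
  rw [h, ← qm_star, ← map_mul, um_mul]

end Un

open Un

variable [Pp]

theorem un1 : UN1 := fun k C a b x => by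
  refine ⟨up_one x, um_one x, ?_, um_star x, Y_unit x, fun e h =>
    ⟨fun z => ⟨?_, ev_um x ?_⟩, fun z => ⟨?_, ev_um x ?_⟩⟩⟩
  · rw [Uy.up]
    exact QuadraticAlgebra.ext (by simp) (by simp)
  · rw [Uy.up, qm_alg, map_add, map_mul, z, mul_zero, add_zero, h.c, map_add, map_one, map_natCast]
  · rw [Uy.Y, map_sub, qm_smul, z, zero_smul, sub_zero, qm_C h, star_add, star_one, mul_add, x.yn,
      mul_one, add_comm]
  · rw [Uy.up, qm_alg, map_add, map_mul, z, h.c, h.c]
    exact congrArg _ (by linear_combination -x.hw)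
  · have : qm a b e x.Y = 2 := by
      rw [Uy.Y, map_sub, qm_smul, z, qm_C h, qm_C h, smul_smul, ← pow_succ', ← x.hz]
      ring
    rw [this, star_two, one_mul]

end Vale.Agent.P014X.Fm
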